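import Vale.Agent.P277.H821.Defs

/-! # Basic facts on holomorphic functions on complex spaces -/

open Topology Set Filter

namespace Vale.Agent.P277.H821

variable {X Y Z : Type*} [TopologicalSpace X] [TopologicalSpace Y] [TopologicalSpace Z]

theorem contOn_of_embedding {N : ℕ} {U : Set X} {φ : X → Cn N}
    (h : IsEmbedding (U.domRestrict φ)) : ContinuousOn φ U := by
  rw [continuousOn_iff_continuous_domRestrict]; exact h.continuous

theorem injOn_of_embedding {N : ℕ} {U : Set X} {φ : X → Cn N}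
    (h : IsEmbedding (U.domRestrict φ)) : InjOn φ U := by
  intro a ha b hb hab
  have := @h.injective ⟨a, ha⟩ ⟨b, hb⟩ hab
  exact congrArg Subtype.val this

variable (S : ComplexSpace X) {x : X} {h h' : X → ℂ}

theorem hol_congr (hh : S.Hol h x) (e : h =ᶠ[𝓝 x] h') : S.Hol h' x := by
  obtain ⟨N, U, φ, Ω, hU, hx, -, -, -, hm⟩ := S.model x
  obtain ⟨F, hF, hF2⟩ := (hm x hx h).1 hh
  exact (hm x hx h').2 ⟨F, hF, e.symm.trans hF2⟩

theorem hol_eventually (hh : S.Hol h x) : ∀ᶠ y in 𝓝 x, S.Hol h y := by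
  obtain ⟨N, U, φ, Ω, hU, hx, -, hemb, -, hm⟩ := S.model x
  obtain ⟨F, hF, hF2⟩ := (hm x hx h).1 hh
  have h1 : ∀ᶠ y in 𝓝 x, y ∈ U := hU.mem_nhds hx
  have h2 : ∀ᶠ y in 𝓝 x, AnalyticAt ℂ F (φ y) :=
    ((contOn_of_embedding hemb).continuousAt (hU.mem_nhds hx)).eventually hF.eventually_analyticAt
  have h3 : ∀ᶠ y in 𝓝 x, h =ᶠ[𝓝 y] F ∘ φ := hF2.eventuallyEq_nhds
  filter_upwards [h1, h2, h3] with y a b c
  exact (hm y a h).2 ⟨F, b, c⟩

theorem hol_continuousAt (hh : S.Hol h x) : ContinuousAt h x := by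
  obtain ⟨N, U, φ, Ω, hU, hx, -, hemb, -, hm⟩ := S.model x
  obtain ⟨F, hF, hF2⟩ := (hm x hx h).1 hh
  have h1 : ContinuousAt φ x := (contOn_of_embedding hemb).continuousAt (hU.mem_nhds hx)
  have h2 : ContinuousAt (F ∘ φ) x := hF.continuousAt.comp h1
  exact h2.congr hF2.symm

theorem hol_const (c : ℂ) : S.Hol (fun _ => c) x := by
  obtain ⟨N, U, φ, Ω, hU, hx, -, hemb, -, hm⟩ := S.model x
  exact (hm x hx _).2 ⟨fun _ => c, analyticAt_const, Eventually.of_forall fun y => rfl⟩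

theorem hol_sub (hh : S.Hol h x) (hh' : S.Hol h' x) : S.Hol (fun y => h y - h' y) x := by
  obtain ⟨N, U, φ, Ω, hU, hx, -, hemb, -, hm⟩ := S.model x
  obtain ⟨F, hF, hF2⟩ := (hm x hx h).1 hh
  obtain ⟨F', hF', hF2'⟩ := (hm x hx h').1 hh'
  refine (hm x hx _).2 ⟨fun w => F w - F' w, hF.sub hF', ?_⟩
  filter_upwards [hF2, hF2'] with y a b
  simp only [Function.comp] at a b ⊢
  rw [a, b]

theorem hol_mul (hh : S.Hol h x) (hh' : S.Hol h' x) : S.Hol (fun y => h y * h' y) x := by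
  obtain ⟨N, U, φ, Ω, hU, hx, -, hemb, -, hm⟩ := S.model x
  obtain ⟨F, hF, hF2⟩ := (hm x hx h).1 hh
  obtain ⟨F', hF', hF2'⟩ := (hm x hx h').1 hh'
  refine (hm x hx _).2 ⟨fun w => F w * F' w, hF.mul hF', ?_⟩
  filter_upwards [hF2, hF2'] with y a b
  simp only [Function.comp] at a b ⊢
  rw [a, b]

theorem hol_prod {ι : Type*} (s : Finset ι) (k : ι → X → ℂ) (hk : ∀ i ∈ s, S.Hol (k i) x) :
    S.Hol (fun y => ∏ i ∈ s, k i y) x := by
  classical
  induction s using Finset.induction_on with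
  | empty => simpa using hol_const S 1
  | insert a s ha ih =>
    have h1 := hol_mul S (hk a (Finset.mem_insert_self _ _))
      (ih fun i hi => hk i (Finset.mem_insert_of_mem hi))
    simpa [Finset.prod_insert ha] using h1

/-- A chart: an open neighbourhood with finitely many holomorphic functions separating points. -/
theorem exists_chart (x : X) : ∃ (N : ℕ) (U : Set X) (φ : X → Cn N), IsOpen U ∧ x ∈ U ∧
    ContinuousOn φ U ∧ InjOn φ U ∧ ∀ y ∈ U, ∀ j, S.Hol (fun y => φ y j) y := by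
  obtain ⟨N, U, φ, Ω, hU, hx, -, hemb, -, hm⟩ := S.model x
  refine ⟨N, U, φ, hU, hx, contOn_of_embedding hemb, injOn_of_embedding hemb, ?_⟩
  intro y hy j
  refine (hm y hy _).2 ⟨fun w => w j, ?_, Eventually.of_forall fun y => rfl⟩
  exact (ContinuousLinearMap.proj (R := ℂ) (φ := fun _ : Fin N => ℂ) j).analyticAt _

variable {S} in
theorem HolMap.comp {SY : ComplexSpace Y} {SZ : ComplexSpace Z} {f : X → Y} {g : Y → Z}
    (hg : HolMap SY SZ g) (hf : HolMap S SY f) : HolMap S SZ (g ∘ f) :=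
  ⟨hg.1.comp hf.1, fun x h hh => hf.2 x (h ∘ g) (hg.2 (f x) h hh)⟩

/-- locally constant functions are holomorphic -/
theorem hol_of_eventually_const (c : ℂ) (e : ∀ᶠ y in 𝓝 x, h y = c) : S.Hol h x :=
  hol_congr S (hol_const S c) (by filter_upwards [e] with y hy; exact hy.symm)

end Vale.Agent.P277.H821
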