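import Vale.Agent.P277.H821.Components

/-! # Blanchard's lemma, and contractions of quotients of homogeneous spaces -/

open Topology Set Filter

namespace Vale.Agent.P277.H821

variable {X Y Z : Type*} [TopologicalSpace X] [TopologicalSpace Y] [TopologicalSpace Z]
variable {SX : ComplexSpace X} {SY : ComplexSpace Y} {SZ : ComplexSpace Z}

/-- `b` maps connected subsets of fibres of `g` into fibres of `g`. -/
def Bl (g : Y → Z) (b : Y → Y) : Prop :=
  ∀ K : Set Y, IsPreconnected K → (∀ y ∈ K, ∀ y' ∈ K, g y = g y') →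
    ∀ y ∈ K, ∀ y' ∈ K, g (b y) = g (b y')

theorem Bl.comp {g : Y → Z} {b c : Y → Y} (hb : Bl g b) (hc : Bl g c) (hcc : Continuous c) :
    Bl g (b ∘ c) := by
  intro K hK h y hy y' hy'
  refine hb (c '' K) (hK.image _ hcc.continuousOn) ?_ _ ⟨y, hy, rfl⟩ _ ⟨y', hy', rfl⟩
  rintro _ ⟨u, hu, rfl⟩ _ ⟨v, hv, rfl⟩
  exact hc K hK h u hu v hv

theorem blanchard_local [CompactSpace Y] [CompactSpace Z] [T2Space Z] {g : Y → Z}
    (hg : HolMap SY SZ g) (hO : FinProp SY g)
    {P : Type*} [TopologicalSpace P] {a : P → Y → Y}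
    (ha : Continuous fun p : P × Y => a p.1 p.2) (hhol : ∀ p, HolMap SY SY (a p)) {p₀ : P}
    (h0 : ∀ y, a p₀ y = y) : ∀ᶠ p in 𝓝 p₀, Bl g (a p) := by
  classical
  choose N U φ hU hzU hφc hφi hφh using fun z : Z => exists_chart SZ z
  choose C hC1 hC2 hC3 using fun z : Z =>
    exists_mem_nhds_isClosed_subset ((hU z).mem_nhds (hzU z))
  obtain ⟨t, -, ht⟩ := isCompact_univ.elim_nhds_subcover (fun z => interior (C z))
    (fun z _ => interior_mem_nhds.2 (hC1 z))
  have h1 : ∀ z ∈ t, ∀ᶠ p in 𝓝 p₀, ∀ y ∈ g ⁻¹' (C z), g (a p y) ∈ U z := by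
    intro z _
    have hK : IsCompact (g ⁻¹' (C z)) := ((hC2 z).preimage hg.1).isCompact
    refine hK.eventually_forall_of_forall_eventually ?_
    intro y hy
    have h2 : Continuous fun p : P × Y => g (a p.1 p.2) := hg.1.comp ha
    have h3 : (fun p : P × Y => g (a p.1 p.2)) (p₀, y) ∈ U z := by
      show g (a p₀ y) ∈ U z
      rw [h0]; exact hC3 z hy
    exact h2.continuousAt.eventually ((hU z).mem_nhds h3)
  filter_upwards [(Finset.eventually_all t).2 h1] with p hp
  intro K hK hKg y hy y' hy'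
  have hyt : g y' ∈ ⋃ z ∈ t, interior (C z) := ht (mem_univ _)
  simp only [mem_iUnion] at hyt
  obtain ⟨z, hz, hyz⟩ := hyt
  have hin : ∀ y1, g y1 ∈ interior (C z) → g (a p y1) ∈ U z := fun y1 h1 =>
    hp z hz y1 (show g y1 ∈ C z from interior_subset h1)
  have hgp : HolMap SY SZ (g ∘ a p) := hg.comp (hhol p)
  have hKin : ∀ y1 ∈ K, g y1 ∈ interior (C z) := fun y1 h1 => by
    rw [hKg y1 h1 y' hy']; exact hyz
  have hj : ∀ j, φ z (g (a p y)) j = φ z (g (a p y')) j := by
    intro j
    set h : Y → ℂ := fun y1 => φ z (g (a p y1)) j with hh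
    have hhol' : ∀ y1, g y1 ∈ interior (C z) → SY.Hol h y1 := fun y1 h1 =>
      hgp.2 y1 _ (hφh z _ (hin y1 h1) j)
    have hc : ContinuousOn h K := fun y1 h1 =>
      (hol_continuousAt SY (hhol' y1 (hKin y1 h1))).continuousWithinAt
    have hfin' : (h '' K).Finite := by
      refine (hO (interior (C z)) h (g y') isOpen_interior hyz hhol').subset ?_
      exact image_mono fun y1 h1 => hKg y1 h1 y' hy'
    by_contra hne
    exact ((hK.image h hc).infinite_of_nontrivial
      ⟨h y, ⟨y, hy, rfl⟩, h y', ⟨y', hy', rfl⟩, hne⟩) hfin'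
  exact hφi z (hin y (hKin y hy)) (hin y' hyz) (funext hj)

theorem blanchard_group [CompactSpace Y] [CompactSpace Z] [T2Space Z] {g : Y → Z}
    (hg : HolMap SY SZ g) (hO : FinProp SY g)
    {H : Type*} [Group H] [TopologicalSpace H] [IsTopologicalGroup H] [ConnectedSpace H]
    {a : H → Y → Y} (ha : Continuous fun p : H × Y => a p.1 p.2)
    (hone : ∀ y, a 1 y = y) (hmul : ∀ p q y, a (p * q) y = a p (a q y))
    (hhol : ∀ p, HolMap SY SY (a p)) (p : H) : Bl g (a p) := by
  have hloc : ∀ᶠ p in 𝓝 (1 : H), Bl g (a p) := blanchard_local hg hO ha hhol hone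
  have hcomp : ∀ p q, Bl g (a p) → Bl g (a q) → Bl g (a (p * q)) := by
    intro p q hp hq
    have : a (p * q) = a p ∘ a q := funext fun y => hmul p q y
    rw [this]
    exact hp.comp hq (hhol q).1
  have hopen : IsOpen {p : H | Bl g (a p)} := by
    rw [isOpen_iff_mem_nhds]
    intro q hq
    have h1 : Tendsto (fun p : H => p * q⁻¹) (𝓝 q) (𝓝 1) := by
      have : ContinuousAt (fun p : H => p * q⁻¹) q := by fun_prop
      simpa [ContinuousAt] using this
    filter_upwards [h1.eventually hloc] with p hp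
    have := hcomp _ _ hp hq
    simpa using this
  have hclosed : IsClosed {p : H | Bl g (a p)} := by
    rw [isClosed_iff_frequently]
    intro q hq
    have h1 : Tendsto (fun p : H => q * p⁻¹) (𝓝 q) (𝓝 1) := by
      have : ContinuousAt (fun p : H => q * p⁻¹) q := by fun_prop
      simpa [ContinuousAt] using this
    obtain ⟨p, hp1, hp2⟩ := (hq.and_eventually (h1.eventually hloc)).exists
    have := hcomp _ _ hp2 hp1
    simpa using this
  have huniv := IsClopen.eq_univ ⟨hclosed, hopen⟩ ⟨1, hloc.self_of_nhds⟩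
  exact (huniv ▸ mem_univ p : p ∈ {p : H | Bl g (a p)})

theorem blanchard_vec [CompactSpace Y] [CompactSpace Z] [T2Space Z] {g : Y → Z}
    (hg : HolMap SY SZ g) (hO : FinProp SY g)
    {E : Type*} [NormedAddCommGroup E] [NormedSpace ℝ E]
    {a : E → Y → Y} (ha : Continuous fun p : E × Y => a p.1 p.2)
    (hzero : ∀ y, a 0 y = y) (hadd : ∀ p q y, a (p + q) y = a p (a q y))
    (hhol : ∀ p, HolMap SY SY (a p)) (v : E) : Bl g (a v) := by
  have hloc : ∀ᶠ p in 𝓝 (0 : E), Bl g (a p) := blanchard_local hg hO ha hhol hzero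
  have h1 : Tendsto (fun n : ℕ => (1 / ((n : ℝ) + 1)) • v) atTop (𝓝 0) := by
    have := (tendsto_one_div_add_atTop_nhds_zero_nat (𝕜 := ℝ)).smul_const v
    simpa using this
  obtain ⟨n, hn⟩ := (h1.eventually hloc).exists
  have h2 : ∀ m : ℕ, Bl g (a (m • ((1 / ((n : ℝ) + 1)) • v))) := by
    intro m
    induction m with
    | zero =>
      rw [zero_smul]
      intro K hK h y hy y' hy'
      rw [hzero, hzero]
      exact h y hy y' hy'
    | succ m ih =>
      rw [succ_nsmul]
      have : a (m • ((1 / ((n : ℝ) + 1)) • v) + (1 / ((n : ℝ) + 1)) • v) =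
          a (m • ((1 / ((n : ℝ) + 1)) • v)) ∘ a ((1 / ((n : ℝ) + 1)) • v) :=
        funext fun y => hadd _ _ y
      rw [this]
      exact ih.comp hn (hhol _).1
  have h3 : (n + 1) • ((1 / ((n : ℝ) + 1)) • v) = v := by
    rw [← Nat.cast_smul_eq_nsmul ℝ, smul_smul]
    have : ((n : ℝ) + 1) ≠ 0 := by positivity
    push_cast
    rw [mul_one_div_cancel this, one_smul]
  rw [← h3]
  exact h2 (n + 1)

section contraction

variable [CompactSpace X] [CompactSpace Y] [T2Space X] [T2Space Y] [T2Space Z]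
variable {π : Y → X} {d : ℕ} {R : Set X} {f : X → Z} {B : Set Z}

/-- fibres over the complement of `B` are finite -/
theorem finite_generic_fibre (hf : IsModification SX SZ f B) (hπ : IsFiniteCover SY SX π d R)
    {y' : Y} (hy' : f (π y') ∉ B) : {y | f (π y) = f (π y')}.Finite := by
  refine (hπ.finite (π y')).subset ?_
  intro y hy
  exact hf.inj (by
    show f (π y) ∉ B
    rw [show f (π y) = f (π y') from hy]; exact hy') hy' hy

theorem exists_generic [Nonempty X] (hf : IsModification SX SZ f B) : ∃ x, f x ∉ B := by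
  by_contra hcon
  push Not at hcon
  have : f ⁻¹' B = univ := eq_univ_of_forall hcon
  have h1 := hf.nowhereDense
  rw [this, interior_univ] at h1
  exact (univ_nonempty (α := X)).ne_empty h1

/-- the preimage of `B` in `Y` is nowhere dense -/
theorem interior_preimage (hf : IsModification SX SZ f B)
    (hπ : IsFiniteCover SY SX π d R) : interior ((f ∘ π) ⁻¹' B) = ∅ := by
  rw [eq_empty_iff_forall_notMem]
  intro y hy
  have hBc : IsClosed (f ⁻¹' B) := hf.analytic.isClosed.preimage hf.hol.1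
  have h1 : ∀ᶠ y' in 𝓝 y, y' ∈ interior ((f ∘ π) ⁻¹' B) := isOpen_interior.mem_nhds hy
  obtain ⟨y', hy'R, hy'⟩ := ((hπ.frequently y).and_eventually h1).exists
  have h2 := open_generic hπ hy'R (isOpen_interior.mem_nhds hy')
  have hRc : IsClosed R := hπ.analytic.isClosed
  have h3 : π y' ∈ interior (f ⁻¹' B) := by
    rw [mem_interior_iff_mem_nhds]
    filter_upwards [h2, hRc.isOpen_compl.mem_nhds hy'R] with x' hx' hx'R
    obtain ⟨y'', hy'', rfl⟩ := hx' hx'R
    have h4 := interior_subset hy''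
    exact h4
  rw [hf.nowhereDense] at h3
  exact h3

theorem dimLE_preimage (hπ : IsFiniteCover SY SX π d R) {A : Set X} {k : ℕ}
    (hA : DimLE SX k A) : DimLE SY k (π ⁻¹' A) := by
  intro y hy
  obtain ⟨q, hq1, hq2⟩ := hA (π y) hy
  refine ⟨fun i => q i ∘ π, fun i => hπ.hol.2 y _ (hq1 i), ?_⟩
  have h1 : ∀ᶠ y' in 𝓝 y, y' ∈ ((π ⁻¹' {π y}) \ {y})ᶜ :=
    ((hπ.finite (π y)).sdiff.isClosed.isOpen_compl).mem_nhds (by simp)
  filter_upwards [(hπ.hol.1.tendsto y).eventually hq2, h1] with y' hy' hy'' hA' hqq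
  have h2 : π y' = π y := hy' hA' hqq
  by_contra hne
  exact hy'' ⟨h2, hne⟩

theorem DimLE.mono {S : ComplexSpace X} {k : ℕ} {A A' : Set X} (h : DimLE S k A)
    (hA : A' ⊆ A) : DimLE S k A' := by
  intro x hx
  obtain ⟨q, hq1, hq2⟩ := h x (hA hx)
  refine ⟨q, hq1, ?_⟩
  filter_upwards [hq2] with y hy hyA
  exact hy (hA hyA)

/-- a map which preserves the fibration moves a positive-dimensional fibre into `B` -/
theorem mem_of_bl (hf : IsModification SX SZ f B) (hπ : IsFiniteCover SY SX π d R) {y₀ : Y}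
    (hy₀ : (connectedComponentIn ((f ∘ π) ⁻¹' {(f ∘ π) y₀}) y₀).Infinite) {b : Y → Y}
    (hb : Bl (f ∘ π) b) (hbi : Function.Injective b) : (f ∘ π) (b y₀) ∈ B := by
  by_contra hp
  set K := connectedComponentIn ((f ∘ π) ⁻¹' {(f ∘ π) y₀}) y₀ with hK
  have h1 : ∀ y ∈ K, f (π (b y)) = f (π (b y₀)) := by
    intro y hy
    exact hb K isPreconnected_connectedComponentIn (fun u hu v hv => by
      have hu' := connectedComponentIn_subset _ _ hu
      have hv' := connectedComponentIn_subset _ _ hv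
      exact hu'.trans hv'.symm) y hy y₀ (mem_connectedComponentIn rfl)
  apply hy₀
  refine Set.Finite.of_finite_image (f := b) ?_ hbi.injOn
  refine (finite_generic_fibre hf hπ hp).subset ?_
  rintro _ ⟨y, hy, rfl⟩
  exact h1 y hy

theorem injective_of_thick [CompactSpace Z] (hX : IsNormal SX) (hZ : IsNormal SZ)
    (hf : IsModification SX SZ f B) (hdim : DimLE SX 2 (f ⁻¹' B))
    (hπ : IsFiniteCover SY SX π d R) (hY : ThickAction SY) :
    Function.Injective f := by
  classical
  by_contra hinj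
  obtain ⟨y₀, hy₀⟩ := exists_infinite_component hX hZ hf hπ hinj
  obtain ⟨H, _, _, _, _, a, ha, hone, hmul, hhol, hthick⟩ := hY
  have hgc : Continuous (f ∘ π) := hf.hol.1.comp hπ.hol.1
  have hainj : ∀ p, Function.Injective (a p) := by
    intro p u v huv
    have : a (p⁻¹ * p) u = a (p⁻¹ * p) v := by rw [hmul, hmul, huv]
    simpa [hone] using this
  have hB : ∀ p, (f ∘ π) (a p y₀) ∈ B := fun p =>
    mem_of_bl hf hπ hy₀ (blanchard_group (hf.hol.comp hπ.hol)
      (countProp_cover hX hZ hf hπ).finProp ha hone hmul hhol p) (hainj p)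
  have hBc : IsClosed ((f ∘ π) ⁻¹' B) := hf.analytic.isClosed.preimage hgc
  have hsub : closure (range fun p => a p y₀) ⊆ (f ∘ π) ⁻¹' B :=
    closure_minimal (by rintro _ ⟨p, rfl⟩; exact hB p) hBc
  have hA := hthick (closure (range fun p => a p y₀)) isClosed_closure ?_ ?_ ?_
  · exact notMem_empty y₀ (hA ▸ subset_closure ⟨1, hone y₀⟩)
  · intro p y hy
    have h1 : MapsTo (a p) (range fun p => a p y₀) (range fun p => a p y₀) := by
      rintro _ ⟨q, rfl⟩
      exact ⟨p * q, hmul p q y₀⟩
    exact h1.closure (hhol p).1 hy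
  · apply subset_empty_iff.1
    rw [← interior_preimage hf hπ]
    exact interior_mono hsub
  · exact (dimLE_preimage hπ hdim).mono hsub

/-- An injective modification of a normal space is an isomorphism. -/
theorem isIso_of_injective (hZ : IsNormal SZ) (hf : IsModification SX SZ f B)
    (hinj : Function.Injective f) : IsIso SX SZ f := by
  have hbij : Function.Bijective f := ⟨hinj, hf.surj⟩
  have hs : ∀ z, f (Function.surjInv hf.surj z) = z := Function.surjInv_eq hf.surj
  have hs' : ∀ x, Function.surjInv hf.surj (f x) = x := fun x => hinj (hs _)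
  refine ⟨hf.hol, Function.surjInv hf.surj, ⟨?_, ?_⟩, hs', hs⟩
  · rw [continuous_def]
    intro W hW
    have h1 : IsClosed (f '' Wᶜ) := hf.hol.1.isClosedMap _ hW.isClosed_compl
    have h2 : Function.surjInv hf.surj ⁻¹' W = (f '' Wᶜ)ᶜ := by
      ext z
      constructor
      · rintro hz ⟨x, hx, rfl⟩
        apply hx
        have hz' : Function.surjInv hf.surj (f x) ∈ W := hz
        rwa [hs'] at hz'
      · intro hz
        by_contra hn
        exact hz ⟨_, hn, hs z⟩
    rw [h2]
    exact h1.isOpen_compl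
  · intro z h hh
    have h1 := hol_eventually SX hh
    obtain ⟨W, hW1, hW2, hW3⟩ := mem_nhds_iff.1 h1
    obtain ⟨U, hU, hzU, hUW⟩ := exists_tube hf.hol.1 (z := z) hW2 (by
      intro x hx
      have : x = Function.surjInv hf.surj z := hinj (by rw [hx, hs])
      rw [this]; exact hW3)
    obtain ⟨H, hH1, hH2⟩ := descent hZ hf hU (h := h) (fun x hx => hW1 (hUW x hx))
    refine hol_congr SZ (hH1 z hzU) ?_
    filter_upwards [hU.mem_nhds hzU] with z' hz'
    have := hH2 (Function.surjInv hf.surj z') (by rw [hs]; exact hz')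
    show H z' = h (Function.surjInv hf.surj z')
    rw [this, hs]

end contraction

end Vale.Agent.P277.H821
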