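import Vale.Agent.P277.H821.TorusMap

/-! # Contractions of fibre bundles, over the base or over a complex torus -/

open Topology Set Filter

namespace Vale.Agent.P277.H821

variable {X Y Z S : Type*} [TopologicalSpace X] [TopologicalSpace Y] [TopologicalSpace Z]
  [TopologicalSpace S]
variable {SX : ComplexSpace X} {SY : ComplexSpace Y} {SZ : ComplexSpace Z} {SS : ComplexSpace S}

/-- `S` has dimension at least two at every point (Chevalley dimension): no point `s` is isolated
in a level set of a holomorphic function. -/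
def DimGETwo (SS : ComplexSpace S) : Prop :=
  ∀ (s : S) (h : S → ℂ), SS.Hol h s → ∃ᶠ t in 𝓝[≠] s, h t = h s

/-- `q : Y → S` is a locally trivial holomorphic fibre bundle: each point of `S` has an open
neighbourhood `N` such that each point `y` over `N` can be transported to the fibre over each point
`t` of `N`; the transported point `T y t` depends holomorphically on `y` and on `t`. (For a
trivialisation of `q` over `N`, `T y t` is the point over `t` with the same fibre coordinate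
as `y`.) -/
structure IsBundle (SY : ComplexSpace Y) (SS : ComplexSpace S) (q : Y → S) : Prop where
  hol : HolMap SY SS q
  triv : ∀ s, ∃ (N : Set S) (T : Y → S → Y), IsOpen N ∧ s ∈ N ∧
    ContinuousOn (fun p : Y × S => T p.1 p.2) ((q ⁻¹' N) ×ˢ N) ∧
    ∀ y t, q y ∈ N → t ∈ N → q (T y t) = t ∧ T y (q y) = y ∧
      (∀ t' ∈ N, T (T y t) t' = T y t') ∧
      ∀ h, SY.Hol h (T y t) → SY.Hol (fun y' => h (T y' t)) y ∧ SS.Hol (fun t' => h (T y t')) t

/-- The fibres of `q` are homogeneous: each point of `S` has an open neighbourhood `N` such that a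
connected topological group acts continuously by holomorphic maps on the part of `Y` over `N`,
preserving the fibres of `q` and transitively on each of them. -/
def HomogeneousFibres (SY : ComplexSpace Y) (q : Y → S) : Prop :=
  ∀ s, ∃ (N : Set S) (H : Type) (_ : Group H) (_ : TopologicalSpace H) (_ : IsTopologicalGroup H)
    (_ : ConnectedSpace H) (a : H → Y → Y), IsOpen N ∧ s ∈ N ∧
    ContinuousOn (fun p : H × Y => a p.1 p.2) (univ ×ˢ (q ⁻¹' N)) ∧
    ∀ y, q y ∈ N → a 1 y = y ∧ (∀ p p', a (p * p') y = a p (a p' y)) ∧ (∀ p, q (a p y) = q y) ∧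
      (∀ p h, SY.Hol h (a p y) → SY.Hol (fun y' => h (a p y')) y) ∧
      ∀ y', q y' = q y → ∃ p, a p y = y'

/-- `q` is constant on the connected components of the fibres of `g` -/
def IsOver (g : Y → Z) (q : Y → S) : Prop :=
  ∀ y₀, ∀ y ∈ connectedComponentIn (g ⁻¹' {g y₀}) y₀, q y = q y₀

theorem isOver_of_torus [CompactSpace Y] [T2Space Y] [T2Space Z] [T2Space S] {g : Y → Z} {d : ℕ}
    (hg : Continuous g) (hcp : CountProp SY g d) (hR : R1Vanishes SY g)
    {q : Y → S} (hq : HolMap SY SS q) {m : ℕ} {ι : Type*} [Fintype ι]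
    {b : Module.Basis ι ℝ (Cn m)} {β : S → Cn m ⧸ Submodule.span ℤ (Set.range b)}
    (hβ : HolToTorus SS b β) (hβf : ∀ a, (β ⁻¹' {a}).Finite) : IsOver g q := by
  intro y₀ y hy
  have hβK := torus_const hg hcp hR (hβ.comp hq) (z := g y₀) (y₀ := y₀) rfl
  by_contra hne
  refine ((isPreconnected_connectedComponentIn.image q hq.1.continuousOn).infinite_of_nontrivial
    ⟨q y, ⟨y, hy, rfl⟩, q y₀, ⟨y₀, mem_connectedComponentIn rfl, rfl⟩, hne⟩)
    ((hβf (β (q y₀))).subset ?_)
  rintro _ ⟨u, hu, rfl⟩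
  exact hβK u hu

/-- Holomorphic families of maps near the identity map a connected component of a fibre of `g`
into a fibre of `g`. -/
theorem const_transport [CompactSpace Y] [T2Space Y] [T2Space Z] {P : Type*} [TopologicalSpace P]
    {g : Y → Z} {d : ℕ} (hgh : HolMap SY SZ g) (hcp : CountProp SY g d) (y₀ : Y) {A : P → Y → Y}
    {p₀ : P}
    (hc : ∀ y ∈ connectedComponentIn (g ⁻¹' {g y₀}) y₀,
      ContinuousAt (fun r : P × Y => A r.1 r.2) (p₀, y))
    (h0 : ∀ y ∈ connectedComponentIn (g ⁻¹' {g y₀}) y₀, A p₀ y = y)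
    (hhol : ∀ᶠ p in 𝓝 p₀, ∀ y ∈ connectedComponentIn (g ⁻¹' {g y₀}) y₀, ∀ h,
      SY.Hol h (A p y) → SY.Hol (fun y' => h (A p y')) y) :
    ∀ᶠ p in 𝓝 p₀, ∀ y ∈ connectedComponentIn (g ⁻¹' {g y₀}) y₀, g (A p y) = g (A p y₀) := by
  set K := connectedComponentIn (g ⁻¹' {g y₀}) y₀ with hK
  have hyK : y₀ ∈ K := mem_connectedComponentIn rfl
  have hKg : ∀ y ∈ K, g y = g y₀ := fun y hy =>
    (connectedComponentIn_subset (g ⁻¹' {g y₀}) y₀ hy : y ∈ g ⁻¹' {g y₀})
  have hKc : IsCompact K := isCompact_component hgh.1 rfl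
  obtain ⟨M, U₀, φ, hU₀, hzU₀, hφc, hφi, hφh⟩ := exists_chart SZ (g y₀)
  have hev : ∀ᶠ p in 𝓝 p₀, ∀ y ∈ K, g (A p y) ∈ U₀ := by
    refine hKc.eventually_forall_of_forall_eventually ?_
    intro y hy
    have h1 : ContinuousAt (fun r : P × Y => g (A r.1 r.2)) (p₀, y) :=
      hgh.1.continuousAt.comp (hc y hy)
    refine h1.eventually (hU₀.mem_nhds ?_)
    show g (A p₀ y) ∈ U₀
    rw [h0 y hy, hKg y hy]
    exact hzU₀
  filter_upwards [hev, hhol] with p hU hh y hy
  refine hφi (hU y hy) (hU y₀ hyK) (funext fun j => ?_)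
  refine const_near_component hgh.1 hcp (z := g y₀) (y₀ := y₀) (h := fun y => φ (g (A p y)) j)
    rfl ?_ y hy
  intro u hu
  exact hh u hu (fun v => φ (g v) j) (hgh.2 _ _ (hφh _ (hU u hu) j))

section bundle

variable [CompactSpace X] [CompactSpace Y] [T2Space X] [T2Space Y] [T2Space Z]
  {π : Y → X} {d : ℕ} {R : Set X} {f : X → Z} {B : Set Z} {q : Y → S}

/-- positive-dimensional fibres lie over `B` -/
theorem mem_of_infinite (hf : IsModification SX SZ f B) (hπ : IsFiniteCover SY SX π d R) {y₁ : Y}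
    {K : Set Y} (hK : K.Infinite) (hc : ∀ y ∈ K, (f ∘ π) y = (f ∘ π) y₁) : (f ∘ π) y₁ ∈ B := by
  by_contra hn
  exact hK ((finite_generic_fibre hf hπ (y' := y₁) hn).subset hc)

/-- a local group action moves positive-dimensional fibres into positive-dimensional fibres -/
theorem mem_of_action (hX : IsNormal SX) (hZ : IsNormal SZ)
    (hf : IsModification SX SZ f B) (hπ : IsFiniteCover SY SX π d R)
    (hq : Continuous q) (hover : IsOver (f ∘ π) q) {N : Set S}
    {H : Type} [Group H] [TopologicalSpace H] [IsTopologicalGroup H] [ConnectedSpace H]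
    {a : H → Y → Y} (hN : IsOpen N)
    (hac : ContinuousOn (fun p : H × Y => a p.1 p.2) (univ ×ˢ (q ⁻¹' N)))
    (ha : ∀ y, q y ∈ N → a 1 y = y ∧ (∀ p p', a (p * p') y = a p (a p' y)) ∧
      (∀ p, q (a p y) = q y) ∧ ∀ p h, SY.Hol h (a p y) → SY.Hol (fun y' => h (a p y')) y)
    {y₁ : Y} (hy₁N : q y₁ ∈ N)
    (hy₁ : (connectedComponentIn ((f ∘ π) ⁻¹' {(f ∘ π) y₁}) y₁).Infinite) (p : H) :
    (f ∘ π) (a p y₁) ∈ B := by
  classical
  set g : Y → Z := f ∘ π with hg
  have hgh : HolMap SY SZ g := hf.hol.comp hπ.hol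
  have hcp : CountProp SY g d := countProp_cover hX hZ hf hπ
  set K := connectedComponentIn (g ⁻¹' {g y₁}) y₁ with hK
  have hyK : y₁ ∈ K := mem_connectedComponentIn rfl
  have hKN : ∀ y ∈ K, q y ∈ N := fun y hy => by rw [hover y₁ y hy]; exact hy₁N
  have hca : ∀ (p : H) (y : Y), q y ∈ N → ContinuousAt (fun r : H × Y => a r.1 r.2) (p, y) :=
    fun p y hy => hac.continuousAt ((isOpen_univ.prod (hN.preimage hq)).mem_nhds ⟨mem_univ _, hy⟩)
  have hc1 : ∀ y, q y ∈ N → Continuous fun p : H => g (a p y) := by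
    intro y hy
    refine continuous_iff_continuousAt.2 fun p => ?_
    have h2 : ContinuousAt (fun p : H => ((p, y) : H × Y)) p := by fun_prop
    exact hgh.1.continuousAt.comp
      (ContinuousAt.comp (f := fun p : H => ((p, y) : H × Y)) (x := p) (hca p y hy) h2)
  have hc2 : ∀ p : H, ContinuousOn (a p) K := by
    intro p y hy
    have h2 : ContinuousAt (fun y : Y => ((p, y) : H × Y)) y := by fun_prop
    exact (ContinuousAt.comp (f := fun y : Y => ((p, y) : H × Y)) (x := y)
      (hca p y (hKN y hy)) h2).continuousWithinAt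
  set P : Set H := {p | ∀ y ∈ K, g (a p y) = g (a p y₁)} with hP
  have hPc : IsClosed P := by
    have : P = ⋂ y ∈ K, {p | g (a p y) = g (a p y₁)} := by
      ext p; simp [hP]
    rw [this]
    exact isClosed_biInter fun y hy => isClosed_eq (hc1 y (hKN y hy)) (hc1 y₁ hy₁N)
  have hPo : IsOpen P := by
    rw [isOpen_iff_mem_nhds]
    intro p hp
    have hqp : q (a p y₁) ∈ N := by rw [(ha y₁ hy₁N).2.2.1]; exact hy₁N
    have hsub : a p '' K ⊆ connectedComponentIn (g ⁻¹' {g (a p y₁)}) (a p y₁) := by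
      refine (isPreconnected_connectedComponentIn.image _ (hc2 p)).subset_connectedComponentIn
        ⟨y₁, hyK, rfl⟩ ?_
      rintro _ ⟨y, hy, rfl⟩
      exact hp y hy
    have hK1 : ∀ y ∈ connectedComponentIn (g ⁻¹' {g (a p y₁)}) (a p y₁), q y ∈ N := fun y hy => by
      rw [hover _ y hy]; exact hqp
    have hev := const_transport hgh hcp (a p y₁) (A := a) (p₀ := (1 : H))
      (fun y hy => hca 1 y (hK1 y hy)) (fun y hy => (ha y (hK1 y hy)).1)
      (Eventually.of_forall fun ε y hy => (ha y (hK1 y hy)).2.2.2 ε)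
    have ht : Tendsto (fun p' : H => p' * p⁻¹) (𝓝 p) (𝓝 1) := by
      have : ContinuousAt (fun p' : H => p' * p⁻¹) p := by fun_prop
      simpa [ContinuousAt] using this
    filter_upwards [ht.eventually hev] with p' hp' y hy
    have h1 : ∀ y, q y ∈ N → a p' y = a (p' * p⁻¹) (a p y) := by
      intro y hy
      rw [← (ha y hy).2.1, inv_mul_cancel_right]
    rw [h1 y (hKN y hy), h1 y₁ hy₁N]
    exact hp' _ (hsub ⟨y, hy, rfl⟩)
  have hPu : P = univ := IsClopen.eq_univ ⟨hPc, hPo⟩ ⟨1, fun y hy => by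
    rw [(ha y (hKN y hy)).1, (ha y₁ hy₁N).1]
    exact (connectedComponentIn_subset (g ⁻¹' {g y₁}) y₁ hy : y ∈ g ⁻¹' {g y₁})⟩
  have hp : p ∈ P := hPu ▸ mem_univ p
  have hinj : InjOn (a p) K := by
    intro y hy y' hy' h
    have h1 := (ha y (hKN y hy)).2.1 p⁻¹ p
    have h2 := (ha y' (hKN y' hy')).2.1 p⁻¹ p
    rw [inv_mul_cancel, (ha y (hKN y hy)).1] at h1
    rw [inv_mul_cancel, (ha y' (hKN y' hy')).1] at h2
    rw [h1, h2, h]
  refine mem_of_infinite hf hπ (K := a p '' K) (hy₁.image hinj) ?_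
  rintro _ ⟨y, hy, rfl⟩
  exact hp y hy

theorem injective_of_bundle (hX : IsNormal SX) (hZ : IsNormal SZ)
    (hf : IsModification SX SZ f B) (hπ : IsFiniteCover SY SX π d R)
    (hq : IsBundle SY SS q) (hover : IsOver (f ∘ π) q)
    (hS : (DimGETwo SS ∧ DimLE SZ 1 B) ∨ HomogeneousFibres SY q) : Function.Injective f := by
  classical
  by_contra hinj
  obtain ⟨y₀, hy₀⟩ := exists_infinite_component hX hZ hf hπ hinj
  set g : Y → Z := f ∘ π with hg
  have hgh : HolMap SY SZ g := hf.hol.comp hπ.hol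
  have hcp : CountProp SY g d := countProp_cover hX hZ hf hπ
  set z₀ : Z := g y₀ with hz₀
  set K := connectedComponentIn (g ⁻¹' {z₀}) y₀ with hK
  have hyK : y₀ ∈ K := mem_connectedComponentIn rfl
  have hKg : ∀ y ∈ K, g y = z₀ := fun y hy =>
    (connectedComponentIn_subset (g ⁻¹' {z₀}) y₀ hy : y ∈ g ⁻¹' {z₀})
  set s : S := q y₀ with hs
  have hqK : ∀ y ∈ K, q y = s := hover y₀
  obtain ⟨N, T, hN, hsN, hTc, hT⟩ := hq.triv s
  have hKN : ∀ y ∈ K, q y ∈ N := fun y hy => by rw [hqK y hy]; exact hsN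
  have hcont : ∀ y ∈ K, ∀ t ∈ N, ContinuousAt (fun p : Y × S => T p.1 p.2) (y, t) :=
    fun y hy t ht => hTc.continuousAt (((hN.preimage hq.hol.1).prod hN).mem_nhds ⟨hKN y hy, ht⟩)
  have hTs : ∀ y ∈ K, T y s = y := by
    intro y hy
    have h1 := (hT y s (hKN y hy) hsN).2.1
    rwa [hqK y hy] at h1
  have e1 : ∀ᶠ t in 𝓝 s, t ∈ N := hN.mem_nhds hsN
  -- the transported copies of `K` are contracted
  have hev : ∀ᶠ t in 𝓝 s, ∀ y ∈ K, g (T y t) = g (T y₀ t) := by
    refine const_transport hgh hcp y₀ (A := fun t y => T y t) (p₀ := s) ?_ hTs ?_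
    · intro y hy
      have h2 : ContinuousAt (fun p : S × Y => ((p.2, p.1) : Y × S)) (s, y) := by fun_prop
      exact ContinuousAt.comp (f := fun p : S × Y => ((p.2, p.1) : Y × S)) (x := (s, y))
        (hcont y hy s hsN) h2
    · filter_upwards [e1] with t ht y hy h hh
      exact ((hT y t (hKN y hy) ht).2.2.2 h hh).1
  have hTinj : ∀ t ∈ N, InjOn (fun y => T y t) K := by
    intro t ht y hy y' hy' h
    have h1 := (hT y t (hKN y hy) ht).2.2.1 s hsN
    have h2 := (hT y' t (hKN y' hy') ht).2.2.1 s hsN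
    rw [hTs y hy] at h1
    rw [hTs y' hy'] at h2
    have h3 : T y t = T y' t := h
    rw [← h1, ← h2, h3]
  have hTinf : ∀ t ∈ N, ((fun y => T y t) '' K).Infinite := fun t ht => hy₀.image (hTinj t ht)
  rcases hS with ⟨hS, hdim⟩ | hhom
  · have hB : ∀ t ∈ N, (∀ y ∈ K, g (T y t) = g (T y₀ t)) → g (T y₀ t) ∈ B := by
      intro t ht hU
      refine mem_of_infinite hf hπ (hTinf t ht) ?_
      rintro _ ⟨y, hy, rfl⟩
      exact hU y hy
    have hz₀B : z₀ ∈ B := by
      have h1 := hB s hsN hev.self_of_nhds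
      rwa [hTs y₀ hyK] at h1
    obtain ⟨p, hp1, hp2⟩ := hdim z₀ hz₀B
    have hctr : ContinuousAt (fun t => T y₀ t) s := by
      have h2 : ContinuousAt (fun t : S => ((y₀, t) : Y × S)) s := by fun_prop
      exact ContinuousAt.comp (f := fun t : S => ((y₀, t) : Y × S)) (x := s)
        (hcont y₀ hyK s hsN) h2
    have hu : SS.Hol (fun t => p 0 (g (T y₀ t))) s := by
      refine ((hT y₀ s hsN hsN).2.2.2 (fun v => p 0 (g v)) ?_).2
      rw [hTs y₀ hyK]
      exact hgh.2 y₀ _ (hp1 0)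
    have hfr := hS s _ hu
    have e2 : ∀ᶠ t in 𝓝 s, g (T y₀ t) ∈ B → (∀ i, p i (g (T y₀ t)) = p i z₀) →
        g (T y₀ t) = z₀ := by
      have h1 : Tendsto (fun t => g (T y₀ t)) (𝓝 s) (𝓝 z₀) := by
        have h2 := hgh.1.continuousAt.comp (f := fun t => T y₀ t) (x := s) hctr
        have h3 : g (T y₀ s) = z₀ := by rw [hTs y₀ hyK]
        rw [← h3]
        exact h2
      exact h1.eventually hp2
    have e3 : ∀ᶠ t in 𝓝 s, T y₀ t ∈ g ⁻¹' {z₀} → T y₀ t ∈ K := by
      have h1 : Tendsto (fun t => T y₀ t) (𝓝 s) (𝓝 y₀) := by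
        have h2 : T y₀ s = y₀ := hTs y₀ hyK
        conv_rhs => rw [← h2]
        exact hctr
      exact h1.eventually (hcp.component_nhds hgh.1 z₀ (g ⁻¹' {z₀}) rfl rfl)
    have e4 := (((hev.and e1).and e2).and e3).filter_mono (nhdsWithin_le_nhds (s := {s}ᶜ))
    obtain ⟨t, ht, ⟨⟨⟨h1, h2⟩, h3⟩, h4⟩, hts⟩ := (hfr.and_eventually
      (e4.and self_mem_nhdsWithin)).exists
    have h5 : g (T y₀ t) = z₀ := by
      refine h3 (hB t h2 h1) fun i => ?_
      have h6 : i = 0 := Subsingleton.elim _ _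
      rw [h6, ht, hTs y₀ hyK]
    have h6 := hqK _ (h4 h5)
    rw [(hT y₀ t hsN h2).1] at h6
    exact hts h6
  · obtain ⟨N', H, _, _, _, _, a, hN', hsN', hac, ha⟩ := hhom s
    have hall : ∀ᶠ t in 𝓝 s, ∀ y, q y = t → g y ∈ B := by
      filter_upwards [hev, e1, hN'.mem_nhds hsN'] with t ht htN htN' y hy
      have hqT : q (T y₀ t) = t := (hT y₀ t hsN htN).1
      have hinf : (connectedComponentIn (g ⁻¹' {g (T y₀ t)}) (T y₀ t)).Infinite := by
        refine (hTinf t htN).mono ?_
        refine (isPreconnected_connectedComponentIn.image _ ?_).subset_connectedComponentIn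
          ⟨y₀, hyK, rfl⟩ ?_
        · intro u hu
          have h2 : ContinuousAt (fun y : Y => ((y, t) : Y × S)) u := by fun_prop
          exact (ContinuousAt.comp (f := fun y : Y => ((y, t) : Y × S)) (x := u)
            (hcont u hu t htN) h2).continuousWithinAt
        · rintro _ ⟨u, hu, rfl⟩
          exact ht u hu
      have hqN' : q (T y₀ t) ∈ N' := by rw [hqT]; exact htN'
      obtain ⟨p, hp⟩ := (ha (T y₀ t) hqN').2.2.2.2 y (by rw [hy, hqT])
      rw [← hp]
      exact mem_of_action hX hZ hf hπ hq.hol.1 hover hN' hac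
        (fun y hy => ⟨(ha y hy).1, (ha y hy).2.1, (ha y hy).2.2.1, (ha y hy).2.2.2.1⟩)
        hqN' hinf p
    have h4 : y₀ ∈ interior (g ⁻¹' B) := by
      rw [mem_interior_iff_mem_nhds]
      filter_upwards [(hq.hol.1.tendsto y₀).eventually hall] with y hy
      exact hy y rfl
    rw [interior_preimage hf hπ] at h4
    exact h4

end bundle

end Vale.Agent.P277.H821
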