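import Vale.Agent.P277.H821.Cover

/-! # Fibres have finitely many connected components -/

open Topology Set Filter

namespace Vale.Agent.P277.H821

variable {X Y Z : Type*} [TopologicalSpace X] [TopologicalSpace Y] [TopologicalSpace Z]
variable {SX : ComplexSpace X} {SY : ComplexSpace Y} {SZ : ComplexSpace Z}

theorem hol_sum (S : ComplexSpace X) {x : X} {ι : Type*} (s : Finset ι) (k : ι → X → ℂ)
    (hk : ∀ i ∈ s, S.Hol (k i) x) : S.Hol (fun y => ∑ i ∈ s, k i y) x := by
  classical
  induction s using Finset.induction_on with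
  | empty => simpa using hol_const S 0
  | insert a s ha ih =>
    have h0 := ih fun i hi => hk i (Finset.mem_insert_of_mem hi)
    have h1 := hol_sub S (hk a (Finset.mem_insert_self _ _)) (hol_sub S (hol_const S 0) h0)
    refine hol_congr S h1 (Eventually.of_forall fun y => ?_)
    simp only [Finset.sum_insert ha]
    ring

section comp

variable [CompactSpace Y] [T2Space Y] [T2Space Z] {g : Y → Z} {d : ℕ}

theorem CountProp.components (hg : Continuous g) (hcp : CountProp SY g d) (z : Z)
    (C : Set Y) (hC : C = g ⁻¹' {z}) (c : Fin (d + 1) → C)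
    (hinj : Function.Injective fun i => (ConnectedComponents.mk (c i))) : False := by
  classical
  have hCc : IsCompact C := by
    rw [hC]; exact (isClosed_singleton.preimage hg).isCompact
  have hCg : ∀ y : C, g y = z := fun y => hC.subset y.2
  have : CompactSpace C := isCompact_iff_compactSpace.1 hCc
  have key : ∀ i j, i ≠ j → ∃ D : Set C, IsClopen D ∧ c i ∈ D ∧ c j ∉ D := by
    intro i j hij
    have h1 : c j ∉ connectedComponent (c i) := by
      intro h2
      apply hij
      apply hinj
      exact (ConnectedComponents.coe_eq_coe'.2 h2).symm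
    rw [connectedComponent_eq_iInter_isClopen, mem_iInter] at h1
    push Not at h1
    obtain ⟨⟨D, hD, hyD⟩, hoD⟩ := h1
    exact ⟨D, hD, hyD, hoD⟩
  choose! D hD hiD hjD using key
  let E : Fin (d + 1) → Set C := fun i => ⋂ j ∈ {j | i ≠ j}, D i j
  have hE : ∀ i, IsClopen (E i) := fun i =>
    (Set.toFinite {j | i ≠ j}).isClopen_biInter fun j hj => hD i j hj
  have hiE : ∀ i, c i ∈ E i := fun i => mem_iInter₂.2 fun j hj => hiD i j hj
  have hjE : ∀ i j, i ≠ j → c j ∉ E i := fun i j hij h => hjD i j hij (mem_iInter₂.1 h j hij)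
  have hE1 : ∀ i, IsCompact (Subtype.val '' E i) := fun i =>
    ((hE i).isClosed.isCompact).image continuous_subtype_val
  have hE2 : ∀ i, IsCompact (Subtype.val '' (E i)ᶜ) := fun i =>
    ((hE i).compl.isClosed.isCompact).image continuous_subtype_val
  have hdisj : ∀ i, Disjoint (Subtype.val '' E i : Set Y) (Subtype.val '' (E i)ᶜ) := by
    intro i
    rw [Set.disjoint_image_iff Subtype.val_injective]
    exact disjoint_compl_right
  choose W1 W2 hW1 hW2 hEW1 hEW2 hW using fun i =>
    SeparatedNhds.of_isCompact_isCompact (hE1 i) (hE2 i) (hdisj i)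
  have hWo : IsOpen (⋂ i, (W1 i ∪ W2 i)) := isOpen_iInter_of_finite fun i => (hW1 i).union (hW2 i)
  obtain ⟨U, hU, hzU, hUW⟩ := exists_tube hg (z := z) hWo (by
    intro y1 hy1
    rw [mem_iInter]
    intro i
    have hy1' : y1 ∈ C := by rw [hC]; exact hy1
    by_cases h1 : (⟨y1, hy1'⟩ : C) ∈ E i
    · exact Or.inl (hEW1 i ⟨_, h1, rfl⟩)
    · exact Or.inr (hEW2 i ⟨_, h1, rfl⟩))
  let k : Fin (d + 1) → Y → ℂ := fun i => (W1 i).indicator fun _ => (i : ℂ) + 1
  have hk : ∀ i y, g y ∈ U → SY.Hol (k i) y := by
    intro i y1 hy1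
    rcases mem_iInter.1 (hUW y1 hy1) i with h1 | h1
    · refine hol_of_eventually_const SY ((i : ℂ) + 1) ?_
      filter_upwards [(hW1 i).mem_nhds h1] with y2 hy2
      simp [k, hy2]
    · refine hol_of_eventually_const SY 0 ?_
      filter_upwards [(hW2 i).mem_nhds h1] with y2 hy2
      have : y2 ∉ W1 i := fun h3 => (Set.disjoint_left.1 (hW i) h3) hy2
      simp [k, this]
  refine hcp U (fun y => ∑ i, k i y) (fun i => (c i : Y)) z hU hzU
    (fun y hy => hol_sum SY _ _ fun i _ => hk i y hy) (fun i => hCg (c i)) ?_
  have hval : ∀ j, ∑ i, k i (c j) = (j : ℂ) + 1 := by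
    intro j
    rw [Finset.sum_eq_single j]
    · have : (c j : Y) ∈ W1 j := hEW1 j ⟨_, hiE j, rfl⟩
      simp [k, this]
    · intro i _ hij
      have h1 : (c j : Y) ∈ W2 i := hEW2 i ⟨_, hjE i j hij, rfl⟩
      have h2 : (c j : Y) ∉ W1 i := fun h3 => (Set.disjoint_left.1 (hW i) h3) h1
      simp [k, h2]
    · simp
  intro i j hij
  simp only [hval] at hij
  have h1 : ((i : ℕ) : ℂ) = ((j : ℕ) : ℂ) := by linear_combination hij
  exact Fin.ext (by exact_mod_cast h1)

/-- If a fibre of `g` is infinite, then one of its connected components is infinite. -/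
theorem CountProp.exists_infinite (hg : Continuous g) (hcp : CountProp SY g d) {z : Z}
    (hinf : (g ⁻¹' {z}).Infinite) :
    ∃ y₀, g y₀ = z ∧ (connectedComponentIn (g ⁻¹' {z}) y₀).Infinite := by
  classical
  set C : Set Y := g ⁻¹' {z} with hC
  by_contra hcon
  push Not at hcon
  have hfin : ∀ c : C, (connectedComponent c).Finite := by
    intro c
    have h1 := hcon c c.2
    rw [connectedComponentIn_eq_image c.2] at h1
    exact h1.of_finite_image Subtype.val_injective.injOn
  rcases finite_or_infinite (ConnectedComponents C) with h2 | h2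
  · have h3 : (⋃ q : ConnectedComponents C, ConnectedComponents.mk ⁻¹' {q}).Finite := by
      refine Set.finite_iUnion fun q => ?_
      obtain ⟨c, rfl⟩ := ConnectedComponents.surjective_coe q
      rw [connectedComponents_preimage_singleton]
      exact hfin c
    have h4 : (univ : Set C).Finite := by
      refine h3.subset fun c _ => ?_
      exact mem_iUnion.2 ⟨ConnectedComponents.mk c, rfl⟩
    exact hinf (Set.finite_coe_iff.1 (Set.finite_univ_iff.1 h4))
  · let e : ℕ ↪ ConnectedComponents C := Infinite.natEmbedding _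
    choose c hc using fun i : Fin (d + 1) => ConnectedComponents.surjective_coe (e i)
    refine hcp.components hg z C hC c ?_
    intro i j hij
    have h5 : (e i : ConnectedComponents C) = e j := by
      rw [← hc i, ← hc j]; exact hij
    exact Fin.ext (e.injective h5)

theorem CountProp.finite_components (hg : Continuous g) (hcp : CountProp SY g d) (z : Z)
    (C : Set Y) (hC : C = g ⁻¹' {z}) : Finite (ConnectedComponents C) := by
  rcases finite_or_infinite (ConnectedComponents C) with h2 | h2
  · exact h2
  · exfalso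
    let e : ℕ ↪ ConnectedComponents C := Infinite.natEmbedding _
    choose c hc using fun i : Fin (d + 1) => ConnectedComponents.surjective_coe (e i)
    refine hcp.components hg z C hC c ?_
    intro i j hij
    have h5 : (e i : ConnectedComponents C) = e j := by
      rw [← hc i, ← hc j]; exact hij
    exact Fin.ext (e.injective h5)

/-- connected components of fibres are open in the fibre -/
theorem CountProp.component_nhds (hg : Continuous g) (hcp : CountProp SY g d) (z : Z)
    (C : Set Y) (hC : C = g ⁻¹' {z}) {y₀ : Y} (hy₀ : y₀ ∈ C) :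
    ∀ᶠ y in 𝓝 y₀, y ∈ C → y ∈ connectedComponentIn C y₀ := by
  have hCc : IsCompact C := by
    rw [hC]; exact (isClosed_singleton.preimage hg).isCompact
  have : CompactSpace C := isCompact_iff_compactSpace.1 hCc
  have := hcp.finite_components hg z C hC
  have hopen : IsOpen (connectedComponent (⟨y₀, hy₀⟩ : C)) := by
    rw [← connectedComponents_preimage_singleton]
    exact (isOpen_discrete _).preimage ConnectedComponents.continuous_coe
  obtain ⟨O, hO, hOC⟩ := isOpen_induced_iff.1 hopen
  have hyO : y₀ ∈ O := by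
    have h1 : (⟨y₀, hy₀⟩ : C) ∈ Subtype.val ⁻¹' O := by
      rw [hOC]; exact mem_connectedComponent
    exact h1
  filter_upwards [hO.mem_nhds hyO] with y hy hyC
  rw [connectedComponentIn_eq_image hy₀]
  refine ⟨⟨y, hyC⟩, ?_, rfl⟩
  rw [← hOC]
  exact hy

end comp

/-- If the modification `f` is not injective, a fibre of `f ∘ π` has an infinite connected
component. -/
theorem exists_infinite_component [CompactSpace X] [T2Space X] [CompactSpace Y] [T2Space Y]
    [T2Space Z] (hX : IsNormal SX) (hZ : IsNormal SZ) {f : X → Z} {B : Set Z} {π : Y → X} {d : ℕ}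
    {R : Set X} (hf : IsModification SX SZ f B) (hπ : IsFiniteCover SY SX π d R)
    (hinj : ¬ Function.Injective f) :
    ∃ y₀ : Y, (connectedComponentIn ((f ∘ π) ⁻¹' {(f ∘ π) y₀}) y₀).Infinite := by
  classical
  simp only [Function.Injective, not_forall] at hinj
  obtain ⟨x₁, x₂, he, hne⟩ := hinj
  have hF : (f ⁻¹' {f x₁}).Infinite := by
    let c1 : (f ⁻¹' {f x₁} : Set X) := ⟨x₁, rfl⟩
    let c2 : (f ⁻¹' {f x₁} : Set X) := ⟨x₂, he.symm⟩
    have h1 : ConnectedComponents.mk c1 = ConnectedComponents.mk c2 := by
      by_contra h2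
      refine (countProp_modification hZ hf).components hf.hol.1 (f x₁) _ rfl ![c1, c2] ?_
      intro i j hij
      fin_cases i <;> fin_cases j
      · rfl
      · exact absurd hij h2
      · exact absurd hij.symm h2
      · rfl
    have h2 : c1 ∈ connectedComponent c2 := ConnectedComponents.coe_eq_coe'.1 h1
    have h3 : (connectedComponent c2).Infinite :=
      isPreconnected_connectedComponent.infinite_of_nontrivial
        ⟨c1, h2, c2, mem_connectedComponent, fun h => hne (congrArg Subtype.val h)⟩
    exact (h3.image Subtype.val_injective.injOn).mono (by rintro _ ⟨c, -, rfl⟩; exact c.2)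
  have hC : ((f ∘ π) ⁻¹' {f x₁}).Infinite := by
    intro hfin
    apply hF
    refine (hfin.image π).subset ?_
    intro x hx
    obtain ⟨y, rfl⟩ := hπ.surj x
    exact ⟨y, hx, rfl⟩
  obtain ⟨y₀, hy₀, hy₀'⟩ := (countProp_cover hX hZ hf hπ).exists_infinite
    (hf.hol.1.comp hπ.hol.1) hC
  refine ⟨y₀, ?_⟩
  rw [hy₀]
  exact hy₀'

end Vale.Agent.P277.H821
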