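import Vale.Agent.P277.H821.Descent

/-! # Norms of holomorphic functions along finite covers -/

open Topology Set Filter

namespace Vale.Agent.P277.H821

variable {X Y Z : Type*} [TopologicalSpace X] [TopologicalSpace Y] [TopologicalSpace Z]
variable {SX : ComplexSpace X} {SY : ComplexSpace Y} {SZ : ComplexSpace Z}

section cover

variable [CompactSpace Y] [T2Space Y] [T2Space X] {π : Y → X} {d : ℕ} {R : Set X}

omit [CompactSpace Y] [T2Space Y] [T2Space X] in
theorem IsFiniteCover.dense (hπ : IsFiniteCover SY SX π d R) {U : Set X} (hU : IsOpen U) :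
    U ⊆ closure (U \ R) := by
  intro z hz
  rw [mem_closure_iff]
  intro V hV hzV
  by_contra hn
  obtain ⟨x, hx⟩ := hπ.surj z
  have h1 : π ⁻¹' (V ∩ U) ⊆ interior (π ⁻¹' R) := by
    apply interior_maximal
    · intro x' hx'
      by_contra hx''
      exact hn ⟨π x', hx'.1, hx'.2, hx''⟩
    · exact (hV.inter hU).preimage hπ.hol.1
  rw [hπ.nowhereDense] at h1
  exact h1 (show π x ∈ V ∩ U by rw [hx]; exact ⟨hzV, hz⟩)

omit [CompactSpace Y] [T2Space Y] [T2Space X] in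
theorem IsFiniteCover.frequently (hπ : IsFiniteCover SY SX π d R) (y : Y) :
    ∃ᶠ y' in 𝓝 y, π y' ∉ R := by
  have h1 : ∃ᶠ x' in 𝓝 y, x' ∈ (π ⁻¹' R)ᶜ := by
    rw [← mem_closure_iff_frequently, closure_compl, hπ.nowhereDense]
    simp
  exact h1

/-- the fibre as a finset -/
noncomputable def fib (hπ : IsFiniteCover SY SX π d R) (x : X) : Finset Y :=
  (hπ.finite x).toFinset

omit [CompactSpace Y] [T2Space Y] [T2Space X] in
theorem mem_fib (hπ : IsFiniteCover SY SX π d R) {x : X} {y : Y} :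
    y ∈ fib hπ x ↔ π y = x := by
  simp [fib]

omit [CompactSpace Y] [T2Space Y] [T2Space X] in
theorem card_fib (hπ : IsFiniteCover SY SX π d R) {x : X} (hx : x ∉ R) :
    (fib hπ x).card = d := by
  have h := hπ.degree x hx
  rw [Set.ncard_eq_toFinset_card _ (hπ.finite x)] at h
  exact h

/-- local structure of the cover near an unramified fibre: the norm is holomorphic, and each
neighbourhood of a point of the fibre covers a neighbourhood of its image. -/
theorem norm_hol_generic (hπ : IsFiniteCover SY SX π d R) {x : X} (hx : x ∉ R) {h : Y → ℂ}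
    (hh : ∀ y, π y = x → SY.Hol h y) (t : ℂ) :
    SX.Hol (fun x' => ∏ y ∈ fib hπ x', (t - h y)) x := by
  classical
  obtain ⟨T, hT, hTd⟩ := (hπ.finite x).t2_separation
  have hR : IsClosed R := hπ.analytic.isClosed
  have key : ∀ y, π y = x → ∃ (O : Set Y) (H : X → ℂ), IsOpen O ∧ y ∈ O ∧ O ⊆ T y ∧
      InjOn π O ∧ SX.Hol H x ∧ ∀ y' ∈ O, h y' = H (π y') := by
    intro y hy
    obtain ⟨W, hW, hWi⟩ := hπ.inj y (by rw [hy]; exact hx)
    obtain ⟨H, hH, he⟩ := hπ.iso y (by rw [hy]; exact hx) h (hh y hy)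
    refine ⟨interior (T y ∩ W ∩ {y' | h y' = (H ∘ π) y'}), H, isOpen_interior, ?_, ?_, ?_,
      hy ▸ hH, ?_⟩
    · rw [mem_interior_iff_mem_nhds]
      exact inter_mem (inter_mem ((hT y).2.mem_nhds (hT y).1) hW) he
    · intro y' hy'; exact (interior_subset hy').1.1
    · exact hWi.mono fun y' hy' => (interior_subset hy').1.2
    · intro y' hy'; exact (interior_subset hy').2
  choose! O H hO hyO hOT hOi hHx hHe using key
  have hOo : IsOpen (⋃ y ∈ fib hπ x, O y) :=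
    isOpen_biUnion fun y hy => hO y ((mem_fib hπ).1 hy)
  obtain ⟨U, hU, hxU, hUO⟩ := exists_tube hπ.hol.1 (z := x) hOo (by
    intro y hy
    exact mem_biUnion (x := y) ((mem_fib hπ).2 hy) (hyO y hy))
  have h1 : SX.Hol (fun x' => ∏ y ∈ fib hπ x, (t - H y x')) x := by
    apply hol_prod
    intro y hy
    exact hol_sub SX (hol_const SX t) (hHx y ((mem_fib hπ).1 hy))
  refine hol_congr SX h1 ?_
  filter_upwards [hU.mem_nhds hxU, hR.isOpen_compl.mem_nhds hx] with x' hx' hx'R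
  have h2 : ∀ y' ∈ fib hπ x', ∃ y ∈ fib hπ x, y' ∈ O y := by
    intro y' hy'
    have h3 := hUO y' (by rw [(mem_fib hπ).1 hy']; exact hx')
    simpa using h3
  choose! σ hσ1 hσ2 using h2
  have hσi : Set.InjOn σ (fib hπ x') := by
    intro a ha b hb hab
    have h3 := hσ2 a ha
    have h4 := hσ2 b hb
    rw [hab] at h3
    exact hOi _ ((mem_fib hπ).1 (hσ1 b hb)) h3 h4
      (((mem_fib hπ).1 ha).trans ((mem_fib hπ).1 hb).symm)
  symm
  refine Finset.prod_nbij σ hσ1 hσi ?_ ?_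
  · exact Finset.surjOn_of_injOn_of_card_le σ hσ1 hσi (by
      rw [card_fib hπ hx, card_fib hπ hx'R])
  · intro y' hy'
    rw [hHe _ ((mem_fib hπ).1 (hσ1 y' hy')) y' (hσ2 y' hy'), (mem_fib hπ).1 hy']

/-- Over the complement of `R` the cover is an open map. -/
theorem open_generic (hπ : IsFiniteCover SY SX π d R) {y₀ : Y} (hy₀ : π y₀ ∉ R) {V : Set Y}
    (hV : V ∈ 𝓝 y₀) : ∀ᶠ x' in 𝓝 (π y₀), x' ∉ R → ∃ y' ∈ V, π y' = x' := by
  classical
  set x := π y₀ with hx₀
  obtain ⟨T, hT, hTd⟩ := (hπ.finite x).t2_separation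
  have hR : IsClosed R := hπ.analytic.isClosed
  have key : ∀ y, π y = x → ∃ O : Set Y, IsOpen O ∧ y ∈ O ∧ InjOn π O ∧
      ∀ y' ∈ O, y' ∈ T y ∧ (y = y₀ → y' ∈ V) := by
    intro y hy
    obtain ⟨W, hW, hWi⟩ := hπ.inj y (by rw [hy]; exact hy₀)
    have h1 : {y' | y = y₀ → y' ∈ V} ∈ 𝓝 y := by
      by_cases h : y = y₀
      · subst h
        filter_upwards [hV] with y' hy' _ using hy'
      · exact Eventually.of_forall fun y' h' => absurd h' h
    refine ⟨interior (T y ∩ W ∩ {y' | y = y₀ → y' ∈ V}), isOpen_interior, ?_, ?_, ?_⟩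
    · rw [mem_interior_iff_mem_nhds]
      exact inter_mem (inter_mem ((hT y).2.mem_nhds (hT y).1) hW) h1
    · exact hWi.mono fun y' hy' => (interior_subset hy').1.2
    · intro y' hy'; exact ⟨(interior_subset hy').1.1, (interior_subset hy').2⟩
  choose! O hO hyO hOi hOV using key
  have hOo : IsOpen (⋃ y ∈ fib hπ x, O y) :=
    isOpen_biUnion fun y hy => hO y ((mem_fib hπ).1 hy)
  obtain ⟨U, hU, hxU, hUO⟩ := exists_tube hπ.hol.1 (z := x) hOo (by
    intro y hy
    exact mem_biUnion (x := y) ((mem_fib hπ).2 hy) (hyO y hy))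
  filter_upwards [hU.mem_nhds hxU] with x' hx' hx'R
  have h2 : ∀ y' ∈ fib hπ x', ∃ y ∈ fib hπ x, y' ∈ O y := by
    intro y' hy'
    have h3 := hUO y' (by rw [(mem_fib hπ).1 hy']; exact hx')
    simpa using h3
  choose! σ hσ1 hσ2 using h2
  have hσi : Set.InjOn σ (fib hπ x') := by
    intro a ha b hb hab
    have h3 := hσ2 a ha
    have h4 := hσ2 b hb
    rw [hab] at h3
    exact hOi _ ((mem_fib hπ).1 (hσ1 b hb)) h3 h4
      (((mem_fib hπ).1 ha).trans ((mem_fib hπ).1 hb).symm)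
  have hsurj : Set.SurjOn σ (fib hπ x') (fib hπ x) :=
    Finset.surjOn_of_injOn_of_card_le σ hσ1 hσi (by
      rw [card_fib hπ hy₀, card_fib hπ hx'R])
  obtain ⟨y', hy', hyy⟩ := hsurj ((mem_fib hπ).2 rfl : y₀ ∈ fib hπ x)
  refine ⟨y', ?_, (mem_fib hπ).1 hy'⟩
  have h6 := hσ2 y' hy'
  rw [hyy] at h6
  exact (hOV y₀ rfl y' h6).2 rfl

/-- The norm of `t - h` extends holomorphically, and vanishes at the images of the points where
`h = t`. -/
theorem cover_norm (hX : IsNormal SX) (hπ : IsFiniteCover SY SX π d R) {V : Set X}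
    (hV : IsOpen V) {h : Y → ℂ} (hh : ∀ y, π y ∈ V → SY.Hol h y) (t : ℂ) :
    ∃ n : X → ℂ, (∀ x ∈ V, SX.Hol n x) ∧
      (∀ x ∈ V, x ∉ R → n x = ∏ y ∈ fib hπ x, (t - h y)) ∧
      ∀ y, π y ∈ V → h y = t → n (π y) = 0 := by
  classical
  have hcont : ContinuousOn h (π ⁻¹' V) := fun y hy =>
    (hol_continuousAt SY (hh y hy)).continuousWithinAt
  have hbdh : ∀ x ∈ V, ∃ C : ℝ, 0 ≤ C ∧ ∀ᶠ x' in 𝓝 x, ∀ y ∈ fib hπ x', ‖t - h y‖ ≤ C := by
    intro x hx
    have hK : IsCompact (π ⁻¹' {x}) := (isClosed_singleton.preimage hπ.hol.1).isCompact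
    obtain ⟨C, hC⟩ := hK.exists_bound_of_continuousOn (hcont.mono (by
      intro y hy
      have : π y = x := hy
      show π y ∈ V
      rw [this]; exact hx))
    have hWo : IsOpen (π ⁻¹' V ∩ h ⁻¹' (Metric.ball 0 (C + 1))) :=
      hcont.isOpen_inter_preimage (hV.preimage hπ.hol.1) Metric.isOpen_ball
    obtain ⟨U, hU, hxU, hUW⟩ := exists_tube hπ.hol.1 (z := x) hWo (by
      intro y hy
      refine ⟨by show π y ∈ V; rw [hy]; exact hx, ?_⟩
      have := hC y hy
      show h y ∈ Metric.ball 0 (C + 1)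
      rw [mem_ball_zero_iff]
      linarith)
    refine ⟨‖t‖ + |C + 1|, by positivity, ?_⟩
    filter_upwards [hU.mem_nhds hxU] with x' hx' y hy
    have h1 := (hUW y (by rw [(mem_fib hπ).1 hy]; exact hx')).2
    have h2 : h y ∈ Metric.ball 0 (C + 1) := h1
    rw [mem_ball_zero_iff] at h2
    calc ‖t - h y‖ ≤ ‖t‖ + ‖h y‖ := norm_sub_le _ _
      _ ≤ ‖t‖ + |C + 1| := by
        have := le_abs_self (C + 1)
        linarith
  have hA : AnalyticIn SX V R := fun x _ => hπ.analytic x (mem_univ _)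
  obtain ⟨n, hn1, hn2⟩ := hX V R (fun x' => ∏ y ∈ fib hπ x', (t - h y)) hV hA (hπ.dense hV)
    (fun x hx => norm_hol_generic hπ hx.2 (fun y hy => hh y (by rw [hy]; exact hx.1)) t)
    (by
      intro x hx
      obtain ⟨C, hC0, hC⟩ := hbdh x hx
      refine ⟨C ^ d, ?_⟩
      filter_upwards [hC] with x' hx' hx'R
      rw [norm_prod]
      calc ∏ y ∈ fib hπ x', ‖t - h y‖ ≤ ∏ y ∈ fib hπ x', C :=
            Finset.prod_le_prod (fun _ _ => norm_nonneg _) hx'
        _ = C ^ d := by rw [Finset.prod_const, card_fib hπ hx'R])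
  refine ⟨n, hn1, fun x hx hxR => hn2 x ⟨hx, hxR⟩, ?_⟩
  intro y hy hyt
  obtain ⟨C, hC0, hC⟩ := hbdh (π y) hy
  have c1 : ContinuousAt (fun y' => ‖n (π y')‖ - ‖t - h y'‖ * (C ^ (d - 1))) y := by
    have c2 : ContinuousAt (fun y' => n (π y')) y :=
      (hol_continuousAt SX (hn1 _ hy)).comp (f := π) hπ.hol.1.continuousAt
    have c3 : ContinuousAt h y := hol_continuousAt SY (hh y hy)
    exact c2.norm.sub (((continuousAt_const (y := t)).sub c3).norm.mul continuousAt_const)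
  have hfr : ∃ᶠ y' in 𝓝 y, ‖n (π y')‖ - ‖t - h y'‖ * (C ^ (d - 1)) ∈ Iic (0 : ℝ) := by
    have e1 : ∀ᶠ y' in 𝓝 y, π y' ∈ V := (hV.preimage hπ.hol.1).mem_nhds hy
    have e2 : ∀ᶠ y' in 𝓝 y, ∀ y'' ∈ fib hπ (π y'), ‖t - h y''‖ ≤ C :=
      (hπ.hol.1.tendsto y).eventually hC
    refine ((hπ.frequently y).and_eventually (e1.and e2)).mono ?_
    rintro y' ⟨hyR, hyV, hyC⟩
    have hmem : y' ∈ fib hπ (π y') := (mem_fib hπ).2 rfl
    have h3 : ‖n (π y')‖ ≤ ‖t - h y'‖ * C ^ (d - 1) := by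
      rw [hn2 _ ⟨hyV, hyR⟩, ← Finset.mul_prod_erase _ _ hmem, norm_mul, norm_prod]
      refine mul_le_mul_of_nonneg_left ?_ (norm_nonneg _)
      calc ∏ y'' ∈ (fib hπ (π y')).erase y', ‖t - h y''‖
          ≤ ∏ y'' ∈ (fib hπ (π y')).erase y', C :=
            Finset.prod_le_prod (fun _ _ => norm_nonneg _)
              fun y'' h'' => hyC y'' (Finset.mem_of_mem_erase h'')
        _ = C ^ (d - 1) := by
          rw [Finset.prod_const, Finset.card_erase_of_mem hmem, card_fib hπ hyR]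
    show ‖n (π y')‖ - ‖t - h y'‖ * (C ^ (d - 1)) ≤ 0
    linarith
  have h4 := isClosed_Iic.mem_of_frequently_of_tendsto hfr c1
  simp only [hyt, sub_self, norm_zero, zero_mul, sub_zero, mem_Iic] at h4
  exact norm_le_zero_iff.1 h4

theorem countProp_cover [CompactSpace X] [T2Space Z] (hX : IsNormal SX) (hZ : IsNormal SZ)
    {f : X → Z} {B : Set Z} (hf : IsModification SX SZ f B) (hπ : IsFiniteCover SY SX π d R) :
    CountProp SY (f ∘ π) d := by
  classical
  intro U h c z hU hz hh hc hinj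
  have hV : IsOpen (f ⁻¹' U) := hU.preimage hf.hol.1
  have hcU : ∀ i, f (π (c i)) = z := hc
  choose n hn1 hn2 hn3 using fun i : Fin (d + 1) => cover_norm hX hπ hV hh (h (c i))
  choose H hH1 hH2 using fun i : Fin (d + 1) => descent hZ hf hU (h := n i) (hn1 i)
  have hHz : ∀ i, H i z = 0 := by
    intro i
    have h1 := hn3 i (c i) (by show f (π (c i)) ∈ U; rw [hcU]; exact hz) rfl
    rwa [hH2 i _ (by rw [hcU]; exact hz), hcU] at h1
  set x₀ : X := π (c 0) with hx₀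
  have hx₀V : x₀ ∈ f ⁻¹' U := by show f (π (c 0)) ∈ U; rw [hcU]; exact hz
  have hnx : ∀ i, n i x₀ = 0 := by
    intro i
    rw [hH2 i x₀ hx₀V, show f x₀ = z from hcU 0, hHz]
  let w : Fin (d + 1) → ℂ := fun i => ∏ j ∈ Finset.univ.erase i, (h (c i) - h (c j))
  have hsum : ∀ x ∈ f ⁻¹' U, x ∉ R → ∑ i, n i x / w i = 1 := by
    intro x hx hxR
    let P : Polynomial ℂ := Lagrange.nodal (fib hπ x) h
    have hP : (Finset.univ : Finset (Fin (d + 1))).card = P.degree + 1 := by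
      rw [Lagrange.degree_nodal, card_fib hπ hxR]
      simp
    have h1 := Lagrange.leadingCoeff_eq_sum (s := Finset.univ)
      (v := fun i : Fin (d + 1) => h (c i)) hinj.injOn hP
    rw [Lagrange.nodal_monic.leadingCoeff] at h1
    rw [h1]
    refine Finset.sum_congr rfl fun i _ => ?_
    rw [hn2 i x hx hxR, Lagrange.eval_nodal]
  have c1 : Tendsto (fun x => ∑ i, n i x / w i) (𝓝 x₀) (𝓝 (∑ i, n i x₀ / w i)) := by
    refine tendsto_finsetSum _ fun i _ => ?_
    exact (hol_continuousAt SX (hn1 i x₀ hx₀V)).tendsto.div_const _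
  have hfr : ∃ᶠ x in 𝓝 x₀, ∑ i, n i x / w i = 1 := by
    have h1 : ∃ᶠ x in 𝓝 x₀, x ∉ R :=
      (hπ.hol.1.tendsto (c 0)).frequently (hπ.frequently (c 0))
    have h2 : ∀ᶠ x in 𝓝 x₀, x ∈ f ⁻¹' U := hV.mem_nhds hx₀V
    exact (h1.and_eventually h2).mono fun x ⟨a, b⟩ => hsum x b a
  have h5 := tendsto_nhds_unique_of_frequently_eq c1 tendsto_const_nhds hfr
  simp [hnx] at h5

end cover

end Vale.Agent.P277.H821
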