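import Vale.Agent.P277.H821.Hypersurface

/-! # Spaces covered by a product of two surfaces: contracted rational curves -/

open Topology Set Filter

namespace Vale.Agent.P277.H821

variable {X Y Z S S' : Type*} [TopologicalSpace X] [TopologicalSpace Y] [TopologicalSpace Z]
  [TopologicalSpace S] [TopologicalSpace S']
variable {SX : ComplexSpace X} {SY : ComplexSpace Y} {SZ : ComplexSpace Z} {S₁ : ComplexSpace S}
  {S₂ : ComplexSpace S'}

theorem isPreconnected_outside (R : ℝ) (hR : 0 ≤ R) :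
    IsPreconnected ((Metric.closedBall (0 : ℂ) R)ᶜ) := by
  have h1 : IsPreconnected ((Ioi R) ×ˢ (univ : Set ℝ)) := isPreconnected_Ioi.prod isPreconnected_univ
  have h2 : (fun p : ℝ × ℝ => (p.1 : ℂ) * Complex.exp (p.2 * Complex.I)) '' ((Ioi R) ×ˢ univ) =
      (Metric.closedBall (0 : ℂ) R)ᶜ := by
    ext z
    constructor
    · rintro ⟨⟨r, θ⟩, ⟨hr, -⟩, rfl⟩
      have hr' : R < r := hr
      have h3 : 0 < r := lt_of_le_of_lt hR hr'
      simp only [mem_compl_iff, Metric.mem_closedBall, dist_zero_right, norm_mul,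
        Complex.norm_exp_ofReal_mul_I, mul_one, Complex.norm_real, not_le, Real.norm_eq_abs,
        abs_of_pos h3]
      exact hr'
    · intro hz
      have h3 : R < ‖z‖ := by simpa using hz
      exact ⟨(‖z‖, Complex.arg z), ⟨h3, mem_univ _⟩, Complex.norm_mul_exp_arg_mul_I z⟩
  rw [← h2]
  exact h1.image _ (by fun_prop)

/-- Lifting of rational curves to covering spaces. -/
theorem exists_lift {E : Type*} [TopologicalSpace E] {p : E → Y} (hp : IsCoveringMap p)
    (hs : Function.Surjective p) {c : ℂ → Y} (hc : Continuous c) {y : Y}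
    (hy : Tendsto c (cocompact ℂ) (𝓝 y)) :
    ∃ (w : ℂ → E) (e : E), Continuous w ∧ (∀ x, p (w x) = c x) ∧ Tendsto w (cocompact ℂ) (𝓝 e) := by
  classical
  obtain ⟨e₀, he₀⟩ := hs (c 0)
  obtain ⟨w, ⟨-, hw⟩, -⟩ := hp.existsUnique_continuousMap_lifts ⟨c, hc⟩ 0 e₀ he₀
  have hw' : ∀ x, p (w x) = c x := fun x => congrFun hw x
  obtain ⟨hdisc, U, hyU, hU, hpU, H, hH⟩ := hp y
  obtain ⟨R, -, hR⟩ := (Metric.hasBasis_cobounded_compl_closedBall (0 : ℂ)).mem_iff.1
    (by rw [Metric.cobounded_eq_cocompact]; exact hy.eventually (hU.mem_nhds hyU))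
  set R' := max R 0 with hR'
  set A : Set ℂ := (Metric.closedBall (0 : ℂ) R')ᶜ with hA
  have hAR : ∀ x ∈ A, c x ∈ U := by
    intro x hx
    refine hR ?_
    have h1 : R' < ‖x‖ := by simpa [hA] using hx
    have h2 : R < ‖x‖ := lt_of_le_of_lt (le_max_left _ _) h1
    simpa using h2
  have hAp : IsPreconnected A := isPreconnected_outside R' (le_max_right _ _)
  have hmem : ∀ x ∈ A, w x ∈ p ⁻¹' U := fun x hx => by
    show p (w x) ∈ U
    rw [hw']; exact hAR x hx
  -- the sheet is constant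
  let q : A → (p ⁻¹' {y}) := fun x => (H ⟨w x, hmem x x.2⟩).2
  have hq : Continuous q := by
    refine continuous_snd.comp (H.continuous.comp ?_)
    exact (w.continuous.comp continuous_subtype_val).subtype_mk _
  have : PreconnectedSpace A := isPreconnected_iff_preconnectedSpace.1 hAp
  have hAne : A.Nonempty := by
    refine ⟨((R' + 1 : ℝ) : ℂ), ?_⟩
    have h1 : 0 ≤ R' := le_max_right _ _
    have h2 : ‖((R' + 1 : ℝ) : ℂ)‖ = R' + 1 := by
      rw [Complex.norm_real, Real.norm_eq_abs, abs_of_pos (by linarith)]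
    have h3 : ¬ ‖((R' + 1 : ℝ) : ℂ)‖ ≤ R' := by rw [h2]; linarith
    simpa [hA] using h3
  obtain ⟨a₀, ha₀⟩ := hAne
  have hqc : ∀ a : A, q a = q ⟨a₀, ha₀⟩ := fun a => by
    have h1 : IsLocallyConstant q := (IsLocallyConstant.iff_continuous q).2 hq
    exact h1.apply_eq_of_preconnectedSpace _ _
  set i := q ⟨a₀, ha₀⟩ with hi
  refine ⟨w, (H.symm (⟨y, hyU⟩, i) : E), w.continuous, hw', ?_⟩
  have hAcc : A ∈ cocompact ℂ := by
    rw [← Metric.cobounded_eq_cocompact]
    exact (Metric.hasBasis_cobounded_compl_closedBall (0 : ℂ)).mem_of_mem trivial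
  have hlim : Tendsto (fun u : U => ((H.symm (u, i) : p ⁻¹' U) : E)) (𝓝 ⟨y, hyU⟩)
      (𝓝 (H.symm (⟨y, hyU⟩, i) : E)) := by
    have h1 : Continuous fun u : U => ((H.symm (u, i) : p ⁻¹' U) : E) :=
      continuous_subtype_val.comp (H.symm.continuous.comp (by fun_prop))
    exact h1.tendsto _
  rw [tendsto_nhds] at hlim ⊢
  intro O hO heO
  have h2 := hlim O hO heO
  rw [nhds_subtype_eq_comap, mem_comap] at h2
  obtain ⟨V, hV, hVO⟩ := h2
  filter_upwards [hAcc, hy.eventually hV] with x hx hxV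
  have h3 : (⟨w x, hmem x hx⟩ : p ⁻¹' U) = H.symm (⟨c x, hAR x hx⟩, i) := by
    rw [Homeomorph.eq_symm_apply]
    refine Prod.ext ?_ (hqc ⟨x, hx⟩)
    refine Subtype.ext ?_
    rw [hH]
    exact hw' x
  have h4 : w x = ((H.symm (⟨c x, hAR x hx⟩, i) : p ⁻¹' U) : E) := congrArg Subtype.val h3
  show w x ∈ O
  rw [h4]
  exact hVO (show (⟨c x, hAR x hx⟩ : U) ∈ Subtype.val ⁻¹' V from hxV)

/-- Over the open set `N` of `S`, `Φ : S × S' → Y` is a local biholomorphism from the product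
`N × S'` of complex spaces to `Y`: it is a local homeomorphism, and the holomorphic functions on `Y`
near `Φ (s, s')` are the analytic functions of finitely many holomorphic functions on `S` near `s`
and on `S'` near `s'`. -/
structure IsLocalProduct (SY : ComplexSpace Y) (S₁ : ComplexSpace S) (S₂ : ComplexSpace S')
    (N : Set S) (Φ : S × S' → Y) : Prop where
  isOpen : IsOpen N
  localHomeo : IsLocalHomeomorphOn Φ (N ×ˢ univ)
  hol : ∀ s ∈ N, ∀ (s' : S') (h : Y → ℂ), SY.Hol h (Φ (s, s')) ↔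
    ∃ (n n' : ℕ) (a : S → Cn n) (a' : S' → Cn n') (F : Cn n × Cn n' → ℂ),
      (∀ i, S₁.Hol (fun t => a t i) s) ∧ (∀ i, S₂.Hol (fun t => a' t i) s') ∧
      AnalyticAt ℂ F (a s, a' s') ∧ ∀ᶠ p in 𝓝 (s, s'), h (Φ p) = F (a p.1, a' p.2)

namespace IsLocalProduct

variable {N : Set S} {Φ : S × S' → Y}

theorem continuousAt (h : IsLocalProduct SY S₁ S₂ N Φ) {e : S × S'} (he : e.1 ∈ N) :
    ContinuousAt Φ e := by
  obtain ⟨g, heg, hg⟩ := h.localHomeo e ⟨he, mem_univ _⟩
  rw [hg]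
  exact g.continuousAt heg

theorem pair (h : IsLocalProduct SY S₁ S₂ N Φ) {u : ℂ → S} {v : ℂ → S'} (hu : RatCurve S₁ u)
    (hv : RatCurve S₂ v) (hN : ∀ x, u x ∈ N) {su : S} (hsu : su ∈ N)
    (hsut : Tendsto u (cocompact ℂ) (𝓝 su)) : RatCurve SY (fun x => Φ (u x, v x)) := by
  obtain ⟨u1, -, u3⟩ := hu
  obtain ⟨v1, ⟨sv, v2⟩, v3⟩ := hv
  refine ⟨?_, ⟨Φ (su, sv), ?_⟩, ?_⟩
  · refine continuous_iff_continuousAt.2 fun x => ?_
    exact ContinuousAt.comp (g := Φ) (f := fun x => (u x, v x)) (x := x)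
      (h.continuousAt (hN x)) (u1.prodMk v1).continuousAt
  · have h0 : ContinuousAt Φ (su, sv) := h.continuousAt hsu
    exact h0.tendsto.comp (hsut.prodMk_nhds v2)
  · intro x k hk
    obtain ⟨n, n', a, a', F, h1, h2, h3, h4⟩ := (h.hol _ (hN x) _ k).1 hk
    have h5 : AnalyticAt ℂ (fun t => (a (u t), a' (v t))) x :=
      (AnalyticAt.pi fun i => u3 x _ (h1 i)).prod (AnalyticAt.pi fun i => v3 x _ (h2 i))
    have h6 : AnalyticAt ℂ (fun t => F (a (u t), a' (v t))) x :=
      AnalyticAt.fun_comp (g := F) (f := fun t => (a (u t), a' (v t))) h3 h5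
    refine h6.congr ?_
    have h7 : Tendsto (fun t => (u t, v t)) (𝓝 x) (𝓝 (u x, v x)) :=
      (u1.prodMk v1).tendsto x
    filter_upwards [h7.eventually h4] with t ht
    exact ht.symm

/-- a function on `S'` defines locally a function on `Y` -/
theorem exists_local (h : IsLocalProduct SY S₁ S₂ N Φ) (e : S × S') (he : e.1 ∈ N) :
    ∃ (r : Y → S × S') (U : Set Y), IsOpen U ∧ Φ e ∈ U ∧ (∀ y ∈ U, Φ (r y) = y) ∧
      (∀ y ∈ U, (r y).1 ∈ N) ∧ r (Φ e) = e ∧ ContinuousOn r U ∧ (∀ᶠ p in 𝓝 e, r (Φ p) = p) ∧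
      ∀ (k : S' → ℂ) (y : Y), y ∈ U → S₂.Hol k (r y).2 → SY.Hol (fun y => k (r y).2) y := by
  obtain ⟨g, heg, hg⟩ := h.localHomeo e ⟨he, mem_univ _⟩
  have hgs : ∀ y ∈ g.target, Φ (g.symm y) = y := fun y hy => by
    rw [hg]; exact g.right_inv hy
  have hgl : ∀ p ∈ g.source, g.symm (Φ p) = p := fun p hp => by
    rw [hg]; exact g.left_inv hp
  have hopen : IsOpen (g.target ∩ g.symm ⁻¹' (Prod.fst ⁻¹' N)) :=
    g.continuousOn_symm.isOpen_inter_preimage g.open_target (h.isOpen.preimage continuous_fst)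
  refine ⟨g.symm, g.target ∩ g.symm ⁻¹' (Prod.fst ⁻¹' N), hopen, ⟨?_, ?_⟩,
    fun y hy => hgs y hy.1, fun y hy => hy.2, hgl e heg,
    g.continuousOn_symm.mono inter_subset_left, ?_, ?_⟩
  · rw [hg]; exact g.map_source heg
  · show (g.symm (Φ e)).1 ∈ N
    rw [hgl e heg]; exact he
  · filter_upwards [g.open_source.mem_nhds heg] with p hp
    exact hgl p hp
  · intro k y hy hk
    have hy' : Φ ((g.symm y).1, (g.symm y).2) = y := hgs y hy.1
    have hsrc : g.symm y ∈ g.source := g.map_target hy.1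
    rw [← hy', h.hol _ hy.2]
    refine ⟨0, 1, fun _ => 0, fun t _ => k t, fun p => p.2 0, fun i => i.elim0, fun i => hk, ?_, ?_⟩
    · exact ((ContinuousLinearMap.proj (R := ℂ) (φ := fun _ : Fin 1 => ℂ) 0).comp
        (ContinuousLinearMap.snd ℂ (Cn 0) (Cn 1))).analyticAt _
    · filter_upwards [g.open_source.mem_nhds hsrc] with p hp
      rw [hgl p hp]

end IsLocalProduct

section main

variable [CompactSpace X] [CompactSpace Y] [T2Space X] [T2Space Y] [T2Space Z]
  {π : Y → X} {d : ℕ} {R : Set X} {f : X → Z} {B : Set Z}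

/-- In a local product with a curve or surface as second factor, no rational curve in a slice is
contracted. -/
theorem no_slice_curve {N : Set S} {Φ : S × S' → Y}
    (hΦ : IsLocalProduct SY S₁ S₂ N Φ) (hreg : CurveOrSurface S₂)
    (hX : IsNormal SX) (hf : IsModification SX SZ f B) (hdiv : NoDivisor SX (f ⁻¹' B))
    (hπ : IsFiniteCover SY SX π d R) {v : ℂ → S'}
    (hv : RatCurve S₂ v) {x₁ : ℂ} (hvn : v x₁ ≠ v 0) {s₀ : S} (hs₀ : s₀ ∈ N)
    (h0 : ∀ x, (f ∘ π) (Φ (s₀, v x)) = (f ∘ π) (Φ (s₀, v 0))) : False := by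
  classical
  have hgh : HolMap SY SZ (f ∘ π) := hf.hol.comp hπ.hol
  set g : Y → Z := f ∘ π with hg
  obtain ⟨sv, v2⟩ := hv.2.1
  have hgc : ∀ e : S × S', e.1 ∈ N → ContinuousAt (fun p => g (Φ p)) e := fun e he =>
    hgh.1.continuousAt.comp (hΦ.continuousAt he)
  have hlimt : ∀ t ∈ N, Tendsto (fun x => Φ (t, v x)) (cocompact ℂ) (𝓝 (Φ (t, sv))) := by
    intro t ht
    have h1 : ContinuousAt Φ (t, sv) := hΦ.continuousAt ht
    exact h1.tendsto.comp (tendsto_const_nhds.prodMk_nhds v2)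
  have hslice : ∀ t ∈ N, RatCurve SY (fun x => Φ (t, v x)) := fun t ht =>
    hΦ.pair (ratCurve_const S₁ t) hv (fun _ => ht) ht tendsto_const_nhds
  -- nearby slices are contracted
  have hev : ∀ᶠ t in 𝓝 s₀, t ∈ N ∧ ∀ x, g (Φ (t, v x)) = g (Φ (t, v 0)) := by
    obtain ⟨M, U₀, φ, hU₀, hzU₀, hφc, hφi, hφh⟩ := exists_chart SZ (g (Φ (s₀, v 0)))
    have hinf : g (Φ (s₀, sv)) = g (Φ (s₀, v 0)) := by
      have h1 : Tendsto (fun x => g (Φ (s₀, v x))) (cocompact ℂ) (𝓝 (g (Φ (s₀, sv)))) :=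
        (hgh.1.tendsto _).comp (hlimt s₀ hs₀)
      have h2 : Tendsto (fun x => g (Φ (s₀, v x))) (cocompact ℂ) (𝓝 (g (Φ (s₀, v 0)))) := by
        have h3 : (fun x => g (Φ (s₀, v x))) = fun _ => g (Φ (s₀, v 0)) := funext h0
        rw [h3]; exact tendsto_const_nhds
      exact tendsto_nhds_unique h1 h2
    have hP : IsCompact (insert sv (range v)) := v2.isCompact_insert_range_of_cocompact hv.1
    have h4 : ∀ᶠ t in 𝓝 s₀, ∀ d ∈ insert sv (range v), g (Φ (t, d)) ∈ U₀ := by
      refine hP.eventually_forall_of_forall_eventually ?_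
      intro d hd
      refine (hgc (s₀, d) hs₀).eventually (hU₀.mem_nhds ?_)
      rcases hd with rfl | ⟨x, rfl⟩
      · show g (Φ (s₀, d)) ∈ U₀
        rw [hinf]; exact hzU₀
      · show g (Φ (s₀, v x)) ∈ U₀
        rw [h0 x]; exact hzU₀
    filter_upwards [h4, hΦ.isOpen.mem_nhds hs₀] with t ht htN
    refine ⟨htN, fun x => ?_⟩
    have h5 := rat_const (hslice t htN) (hlimt t htN) hgh hφi hφh
      (fun x => ht _ (Or.inr ⟨x, rfl⟩)) (ht _ (Or.inl rfl))
    rw [h5 x, h5 0]
  -- they lie over `B`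
  have hB : ∀ t ∈ N, (∀ x, g (Φ (t, v x)) = g (Φ (t, v 0))) → ∀ x, g (Φ (t, v x)) ∈ B := by
    intro t ht hc x
    have hcc := (hslice t ht).1
    have hinf : (range fun x => Φ (t, v x)).Infinite := by
      by_contra hfin
      rw [Set.not_infinite] at hfin
      have hall : ∀ x x', Φ (t, v x) = Φ (t, v x') := by
        intro x x'
        by_contra hne
        exact (isPreconnected_range hcc).infinite_of_nontrivial
          ⟨_, ⟨x, rfl⟩, _, ⟨x', rfl⟩, hne⟩ hfin
      have hloc : IsLocallyConstant v := by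
        rw [IsLocallyConstant.iff_eventually_eq]
        intro x
        obtain ⟨r, U, -, -, -, -, hre, -, hr, -⟩ := hΦ.exists_local (t, v x) ht
        have h6 : Tendsto (fun x' => (t, v x')) (𝓝 x) (𝓝 (t, v x)) :=
          (continuous_const.prodMk hv.1).tendsto x
        filter_upwards [h6.eventually hr] with x' hx'
        have h7 : (t, v x') = (t, v x) := by rw [← hx', hall x' x, hre]
        exact (Prod.mk.inj h7).2
      exact hvn (hloc.apply_eq_of_preconnectedSpace _ _)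
    refine mem_of_infinite hf hπ hinf ?_
    rintro _ ⟨x', rfl⟩
    exact (hc x').trans (hc x).symm
  obtain ⟨x₀, O, k, hO, hxO, hkh, hk0, hkr⟩ := exists_equation hreg hv.1 hv.2.2 hvn
  obtain ⟨r, U, hU, hxU, hΦr, hrN, hre, hrc, -, hloc⟩ := hΦ.exists_local (s₀, v x₀) hs₀
  obtain ⟨N₀, hN₀, hN₀o, hsN₀⟩ := mem_nhds_iff.1 hev
  have hnd := noDivisor_preimage hX hπ hdiv
  have hUo : IsOpen (U ∩ r ⁻¹' (N₀ ×ˢ O)) := hrc.isOpen_inter_preimage hU (hN₀o.prod hO)
  refine hnd _ (fun y => k (r y).2) hUo ?_ ?_ (Φ (s₀, v x₀)) ⟨hxU, ?_⟩ ?_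
  · intro y hy
    exact hloc k y hy.1 (hkh _ hy.2.2)
  · intro y hy hky
    obtain ⟨t, ht⟩ := hkr _ hy.2.2 hky
    have h1 := hB (r y).1 (hrN y hy.1) (hN₀ hy.2.1).2 t
    have h2 : Φ ((r y).1, v t) = y := by rw [ht]; exact hΦr y hy.1
    rw [h2] at h1
    exact h1
  · show r (Φ (s₀, v x₀)) ∈ N₀ ×ˢ O
    rw [hre]; exact ⟨hsN₀, hxO⟩
  · show k (r (Φ (s₀, v x₀))).2 = 0
    rw [hre]; exact hk0

end main

/-- `Φ : S × S' → Y` is a surjective holomorphic covering map, where `S × S'` is the product of the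
complex spaces `S` and `S'`. -/
structure IsProductCover (SY : ComplexSpace Y) (S₁ : ComplexSpace S) (S₂ : ComplexSpace S')
    (Φ : S × S' → Y) : Prop where
  cover : IsCoveringMap Φ
  surj : Function.Surjective Φ
  prod : IsLocalProduct SY S₁ S₂ univ Φ

namespace IsProductCover

variable {Φ : S × S' → Y}

theorem swap (h : IsProductCover SY S₁ S₂ Φ) : IsProductCover SY S₂ S₁ (Φ ∘ Prod.swap) where
  cover := h.cover.comp_homeomorph (Homeomorph.prodComm S' S)
  surj := h.surj.comp Prod.swap_surjective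
  prod :=
    { isOpen := isOpen_univ
      localHomeo := fun x _ => ((h.cover.comp_homeomorph
        (Homeomorph.prodComm S' S)).isLocalHomeomorph) x
      hol := by
        intro s' _ s k
        have hΦ : (Φ ∘ Prod.swap) (s', s) = Φ (s, s') := rfl
        rw [hΦ, h.prod.hol s (mem_univ _) s' k]
        constructor
        · rintro ⟨n, n', a, a', F, h1, h2, h3, h4⟩
          refine ⟨n', n, a', a, fun p => F (p.2, p.1), h2, h1, ?_, ?_⟩
          · exact AnalyticAt.fun_comp (g := F) (f := fun p : Cn n' × Cn n => (p.2, p.1)) h3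
              (analyticAt_snd.prod analyticAt_fst)
          · exact (continuous_swap.tendsto (s', s)).eventually h4
        · rintro ⟨n, n', a, a', F, h1, h2, h3, h4⟩
          refine ⟨n', n, a', a, fun p => F (p.2, p.1), h2, h1, ?_, ?_⟩
          · exact AnalyticAt.fun_comp (g := F) (f := fun p : Cn n' × Cn n => (p.2, p.1)) h3
              (analyticAt_snd.prod analyticAt_fst)
          · exact (continuous_swap.tendsto (s, s')).eventually h4 }

theorem pair (h : IsProductCover SY S₁ S₂ Φ) {u : ℂ → S} {v : ℂ → S'} (hu : RatCurve S₁ u)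
    (hv : RatCurve S₂ v) : RatCurve SY (fun x => Φ (u x, v x)) := by
  obtain ⟨su, u2⟩ := hu.2.1
  exact h.prod.pair hu hv (fun _ => mem_univ _) (mem_univ su) u2

/-- the coordinates of a lift of a rational curve are rational curves -/
theorem snd_rat (h : IsProductCover SY S₁ S₂ Φ) {c : ℂ → Y} (hc : RatCurve SY c) {w : ℂ → S × S'}
    {e : S × S'} (hw : Continuous w) (hwc : ∀ x, Φ (w x) = c x)
    (hwe : Tendsto w (cocompact ℂ) (𝓝 e)) : RatCurve S₂ (fun x => (w x).2) := by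
  refine ⟨continuous_snd.comp hw, ⟨e.2, (continuous_snd.tendsto e).comp hwe⟩, ?_⟩
  intro x k hk
  obtain ⟨r, U, hU, hxU, -, -, hre, -, hr, hloc⟩ := h.prod.exists_local (w x) (mem_univ _)
  have h1 : SY.Hol (fun y => k (r y).2) (c x) := by
    rw [← hwc x]
    refine hloc k _ hxU ?_
    rw [hre]; exact hk
  refine (hc.2.2 x _ h1).congr ?_
  filter_upwards [(hw.tendsto x).eventually hr] with t ht
  rw [← hwc t, ht]

end IsProductCover

/-- If a rational curve `(u, v)` is contracted, so is `u(ℙ¹) × v(ℙ¹)`. -/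
theorem cover_box {Φ : S × S' → Y} (hΦ : IsProductCover SY S₁ S₂ Φ) {g : Y → Z}
    (hg : HolMap SY SZ g) [T2Space Z] {u : ℂ → S} {v : ℂ → S'} (hu : RatCurve S₁ u)
    (hv : RatCurve S₂ v) {z : Z} (hz : ∀ x, g (Φ (u x, v x)) = z) (x y : ℂ) :
    g (Φ (u x, v y)) = z := by
  have hΦc := hΦ.cover.continuous
  obtain ⟨su, u2⟩ := hu.2.1
  obtain ⟨sv, v2⟩ := hv.2.1
  have hgc : Continuous fun p : S × S' => g (Φ p) := hg.1.comp hΦc
  have hinf : g (Φ (su, sv)) = z := by
    have h1 : Tendsto (fun x => g (Φ (u x, v x))) (cocompact ℂ) (𝓝 (g (Φ (su, sv)))) :=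
      (hgc.tendsto (su, sv)).comp (u2.prodMk_nhds v2)
    have h2 : Tendsto (fun x => g (Φ (u x, v x))) (cocompact ℂ) (𝓝 z) := by
      simp only [hz]; exact tendsto_const_nhds
    exact tendsto_nhds_unique h1 h2
  obtain ⟨M, U₀, φ, hU₀, hzU₀, hφc, hφi, hφh⟩ := exists_chart SZ z
  set T : Set ℂ := {t | ∀ x, g (Φ (u x, v (x + t))) = z} with hT
  have hTc : IsClosed T := by
    have : T = ⋂ x, {t | g (Φ (u x, v (x + t))) = z} := by ext t; simp [hT]
    rw [this]
    refine isClosed_iInter fun x => isClosed_eq ?_ continuous_const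
    exact hgc.comp (continuous_const.prodMk (hv.1.comp (by fun_prop)))
  have hTo : IsOpen T := by
    rw [isOpen_iff_mem_nhds]
    intro t₀ ht₀
    have hO : IsOpen {p : S × S' | g (Φ p) ∈ U₀} := hU₀.preimage hgc
    have h1 : ∀ᶠ p in 𝓝 su ×ˢ 𝓝 sv, g (Φ p) ∈ U₀ := by
      rw [← nhds_prod_eq]
      exact hO.mem_nhds (show g (Φ (su, sv)) ∈ U₀ by rw [hinf]; exact hzU₀)
    obtain ⟨A, hA, A', hA', hAA⟩ := eventually_prod_iff.1 h1
    have h2 := (u2.eventually hA).and (v2.eventually hA')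
    obtain ⟨R, -, hR⟩ := (Metric.hasBasis_cobounded_compl_closedBall (0 : ℂ)).mem_iff.1
      (by rw [Metric.cobounded_eq_cocompact]; exact h2)
    have h3 : ∀ᶠ t in 𝓝 t₀, ∀ x ∈ Metric.closedBall (0 : ℂ) (R + ‖t₀‖ + 1),
        g (Φ (u x, v (x + t))) ∈ U₀ := by
      refine (isCompact_closedBall _ _).eventually_forall_of_forall_eventually ?_
      intro x _
      have h4 : Continuous fun p : ℂ × ℂ => g (Φ (u p.2, v (p.2 + p.1))) :=
        hgc.comp ((hu.1.comp continuous_snd).prodMk (hv.1.comp (by fun_prop)))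
      refine h4.continuousAt.eventually (hU₀.mem_nhds ?_)
      show g (Φ (u x, v (x + t₀))) ∈ U₀
      rw [ht₀ x]; exact hzU₀
    filter_upwards [h3, Metric.ball_mem_nhds t₀ one_pos] with t ht ht1 x
    have hall : ∀ x, g (Φ (u x, v (x + t))) ∈ U₀ := by
      intro x
      by_cases hx : x ∈ Metric.closedBall (0 : ℂ) (R + ‖t₀‖ + 1)
      · exact ht x hx
      · have hx1 : R + ‖t₀‖ + 1 < ‖x‖ := by simpa using hx
        have hx2 : ‖t‖ < ‖t₀‖ + 1 := by
          have h5 : ‖t - t₀‖ < 1 := by simpa [dist_eq_norm] using ht1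
          calc ‖t‖ = ‖t₀ + (t - t₀)‖ := by congr 1; ring
            _ ≤ ‖t₀‖ + ‖t - t₀‖ := norm_add_le _ _
            _ < ‖t₀‖ + 1 := by linarith
        have hx3 : ‖x‖ ≤ ‖x + t‖ + ‖t‖ := by
          calc ‖x‖ = ‖(x + t) - t‖ := by congr 1; ring
            _ ≤ ‖x + t‖ + ‖t‖ := norm_sub_le _ _
        have hxa : x ∈ (Metric.closedBall (0 : ℂ) R)ᶜ := by
          have h6 : R < ‖x‖ := by
            have := norm_nonneg t₀
            linarith
          simpa using h6
        have hxb : x + t ∈ (Metric.closedBall (0 : ℂ) R)ᶜ := by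
          have h6 : R < ‖x + t‖ := by linarith
          simpa using h6
        exact hAA (hR hxa).1 (hR hxb).2
    have hlim : Tendsto (fun x => Φ (u x, v (x + t))) (cocompact ℂ) (𝓝 (Φ (su, sv))) := by
      refine (hΦc.tendsto (su, sv)).comp (u2.prodMk_nhds (v2.comp ?_))
      exact (Homeomorph.addRight t).isClosedEmbedding.tendsto_cocompact
    rw [rat_const (hΦ.pair hu (hv.shift t)) hlim hg hφi hφh hall (by rw [hinf]; exact hzU₀) x, hinf]
  have hTu : T = univ := IsClopen.eq_univ ⟨hTc, hTo⟩ ⟨0, fun x => by simpa using hz x⟩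
  have h8 : y - x ∈ T := hTu ▸ mem_univ _
  have h9 := h8 x
  rwa [add_sub_cancel] at h9

section main

variable [CompactSpace X] [CompactSpace Y] [T2Space X] [T2Space Y] [T2Space Z]
  {π : Y → X} {d : ℕ} {R : Set X} {f : X → Z} {B : Set Z}

theorem no_contracted_of_cover
    {Φ : S × S' → Y} (hΦ : IsProductCover SY S₁ S₂ Φ)
    (hreg : CurveOrSurface S₁) (hreg' : CurveOrSurface S₂)
    (hX : IsNormal SX) (hf : IsModification SX SZ f B) (hdiv : NoDivisor SX (f ⁻¹' B))
    (hπ : IsFiniteCover SY SX π d R) {c : ℂ → Y} (hc : RatCurve SY c)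
    (h0 : ∀ x, (f ∘ π) (c x) = (f ∘ π) (c 0)) (x : ℂ) : c x = c 0 := by
  classical
  have hgh : HolMap SY SZ (f ∘ π) := hf.hol.comp hπ.hol
  obtain ⟨yi, hyi⟩ := hc.2.1
  obtain ⟨w, e, hw, hwc, hwe⟩ := exists_lift hΦ.cover hΦ.surj hc.1 hyi
  have hv : RatCurve S₂ (fun x => (w x).2) := hΦ.snd_rat hc hw hwc hwe
  have hu : RatCurve S₁ (fun x => (w x).1) := by
    have h1 := hΦ.swap.snd_rat hc (w := fun x => Prod.swap (w x)) (e := e.swap)
      (continuous_swap.comp hw) (fun x => by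
        show Φ ((w x).swap).swap = c x
        rw [Prod.swap_swap]; exact hwc x) ((continuous_swap.tendsto e).comp hwe)
    exact h1
  have hbox := cover_box hΦ hgh hu hv (z := (f ∘ π) (c 0)) (fun x => by
    rw [Prod.mk.eta, hwc]; exact h0 x)
  by_contra hne
  by_cases h2 : ∀ t, (w t).2 = (w 0).2
  · by_cases h1 : ∀ t, (w t).1 = (w 0).1
    · apply hne
      rw [← hwc x, ← hwc 0]
      congr 1
      exact Prod.ext (h1 x) (h2 x)
    · push Not at h1
      obtain ⟨t, ht⟩ := h1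
      refine no_slice_curve hΦ.swap.prod hreg hX hf hdiv hπ hu ht (s₀ := (w 0).2)
        (mem_univ _) ?_
      intro y
      show (f ∘ π) (Φ ((w y).1, (w 0).2)) = (f ∘ π) (Φ ((w 0).1, (w 0).2))
      rw [hbox, hbox]
  · push Not at h2
    obtain ⟨t, ht⟩ := h2
    refine no_slice_curve hΦ.prod hreg' hX hf hdiv hπ hv ht (s₀ := (w 0).1) (mem_univ _) ?_
    intro y
    rw [hbox, hbox]

/-- The holomorphic map `q : Y → S` is a locally trivial fibre bundle over a complex space `S`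
without rational curves, with curves or surfaces as fibres: each point of `S` has an open
neighbourhood `N` such that the part of `Y` over `N` is isomorphic over `N` to a product `N × F`. -/
def SurfaceBundle.{u} {Y : Type u} [TopologicalSpace Y] (SY : ComplexSpace Y) : Prop :=
  ∃ (S : Type u) (_ : TopologicalSpace S) (_ : T2Space S) (S₁ : ComplexSpace S) (q : Y → S),
    HolMap SY S₁ q ∧ NoRatCurve S₁ ∧
    ∀ s, ∃ (F : Type u) (_ : TopologicalSpace F) (SF : ComplexSpace F) (N : Set S)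
      (Φ : S × F → Y), s ∈ N ∧ IsLocalProduct SY S₁ SF N Φ ∧ CurveOrSurface SF ∧
        (∀ t ∈ N, ∀ x, q (Φ (t, x)) = t) ∧ (∀ y, q y ∈ N → ∃ x, Φ (q y, x) = y) ∧
        ∀ t ∈ N, ∀ x x', Φ (t, x) = Φ (t, x') → x = x'

/-- `Y` has a surjective holomorphic covering by a product of two curves or surfaces. -/
def CoveredByProduct.{u} {Y : Type u} [TopologicalSpace Y] (SY : ComplexSpace Y) : Prop :=
  ∃ (S S' : Type u) (_ : TopologicalSpace S) (_ : TopologicalSpace S') (S₁ : ComplexSpace S)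
    (S₂ : ComplexSpace S') (Φ : S × S' → Y),
    IsProductCover SY S₁ S₂ Φ ∧ CurveOrSurface S₁ ∧ CurveOrSurface S₂

theorem no_contracted_of_bundle (hY : SurfaceBundle SY)
    (hX : IsNormal SX) (hf : IsModification SX SZ f B) (hdiv : NoDivisor SX (f ⁻¹' B))
    (hπ : IsFiniteCover SY SX π d R) {c : ℂ → Y} (hc : RatCurve SY c)
    (h0 : ∀ x, (f ∘ π) (c x) = (f ∘ π) (c 0)) (x : ℂ) : c x = c 0 := by
  classical
  obtain ⟨S, _, _, S₁, q, hq, hS, hloc⟩ := hY
  obtain ⟨F, _, SF, N, Φ, hsN, hΦ, hF, hΦq, hsurj, hinj⟩ := hloc (q (c 0))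
  set s : S := q (c 0) with hs
  have hqc : ∀ x, q (c x) = s := fun x => hS _ (hc.map hq) x 0
  obtain ⟨yi, hyi⟩ := hc.2.1
  have hqyi : q yi = s := by
    have h1 : Tendsto (fun x => q (c x)) (cocompact ℂ) (𝓝 (q yi)) := (hq.1.tendsto yi).comp hyi
    have h2 : Tendsto (fun x => q (c x)) (cocompact ℂ) (𝓝 s) := by
      have h3 : (fun x => q (c x)) = fun _ => s := funext hqc
      rw [h3]; exact tendsto_const_nhds
    exact tendsto_nhds_unique h1 h2
  have hex : ∀ y, q y = s → ∃ x, Φ (s, x) = y := fun y hy => by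
    have h1 := hsurj y (by rw [hy]; exact hsN)
    rwa [hy] at h1
  choose v hv using fun x => hex (c x) (hqc x)
  obtain ⟨fi, hfi⟩ := hex yi hqyi
  -- local inverses compute the fibre coordinate
  have hcoord : ∀ (x₀ : F) (r : Y → S × F) (U : Set Y), (∀ y ∈ U, Φ (r y) = y) →
      (∀ y ∈ U, (r y).1 ∈ N) → ∀ x, c x ∈ U → v x = (r (c x)).2 := by
    intro x₀ r U hr hrN x hx
    have h1 : (r (c x)).1 = s := by
      have h2 := hΦq _ (hrN _ hx) (r (c x)).2
      rw [Prod.mk.eta, hr _ hx, hqc] at h2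
      exact h2.symm
    refine hinj s hsN _ _ ?_
    rw [hv x]
    have h3 := hr _ hx
    rw [← h1, Prod.mk.eta]
    exact h3.symm
  have hvc : Continuous v := by
    refine continuous_iff_continuousAt.2 fun x => ?_
    obtain ⟨r, U, hU, hxU, hΦr, hrN, hre, hrc, -, -⟩ := hΦ.exists_local (s, v x) hsN
    rw [hv x] at hxU
    have h1 : ContinuousAt (fun t => (r (c t)).2) x := by
      have h2 : ContinuousAt r (c x) := hrc.continuousAt (hU.mem_nhds hxU)
      exact continuous_snd.continuousAt.comp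
        (ContinuousAt.comp (g := r) (f := c) (x := x) h2 hc.1.continuousAt)
    refine h1.congr ?_
    filter_upwards [hc.1.continuousAt.eventually (hU.mem_nhds hxU)] with t ht
    exact (hcoord (v x) r U hΦr hrN t ht).symm
  have hvr : RatCurve SF v := by
    refine ⟨hvc, ⟨fi, ?_⟩, ?_⟩
    · obtain ⟨r, U, hU, hxU, hΦr, hrN, hre, hrc, -, -⟩ := hΦ.exists_local (s, fi) hsN
      rw [hfi] at hxU hre
      have h1 : Tendsto (fun t => (r (c t)).2) (cocompact ℂ) (𝓝 fi) := by
        have h2 : ContinuousAt (fun y => (r y).2) yi :=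
          continuous_snd.continuousAt.comp (hrc.continuousAt (hU.mem_nhds hxU))
        have h3 : (r yi).2 = fi := by rw [hre]
        have h4 := h2.tendsto.comp hyi
        rw [h3] at h4
        exact h4
      refine h1.congr' ?_
      filter_upwards [hyi.eventually (hU.mem_nhds hxU)] with t ht
      exact (hcoord fi r U hΦr hrN t ht).symm
    · intro x k hk
      obtain ⟨r, U, hU, hxU, hΦr, hrN, hre, hrc, -, hl⟩ := hΦ.exists_local (s, v x) hsN
      rw [hv x] at hxU hre
      have h1 : SY.Hol (fun y => k (r y).2) (c x) := by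
        refine hl k _ hxU ?_
        rw [hre]; exact hk
      refine (hc.2.2 x _ h1).congr ?_
      filter_upwards [hc.1.continuousAt.eventually (hU.mem_nhds hxU)] with t ht
      rw [hcoord (v x) r U hΦr hrN t ht]
  by_contra hne
  have hvn : v x ≠ v 0 := by
    intro h
    apply hne
    rw [← hv x, ← hv 0, h]
  refine no_slice_curve hΦ hF hX hf hdiv hπ hvr hvn hsN ?_
  intro t
  rw [hv t, hv 0]
  exact h0 t

end main

end Vale.Agent.P277.H821
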