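import Vale.Agent.P277.H821.Rational

/-! # Sets containing no hypersurface; equations of curves in surfaces -/

open Topology Set Filter

namespace Vale.Agent.P277.H821

variable {X Y Z S S' : Type*} [TopologicalSpace X] [TopologicalSpace Y] [TopologicalSpace Z]
  [TopologicalSpace S] [TopologicalSpace S']
variable {SX : ComplexSpace X} {SY : ComplexSpace Y} {SZ : ComplexSpace Z} {S₁ : ComplexSpace S}
  {S₂ : ComplexSpace S'}

/-- The set `A` contains no nonempty hypersurface `{x ∈ U | k x = 0}`, `k` a holomorphic function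
on an open set `U`. For an analytic subset of a normal space this says that it contains no
divisor, i.e. has codimension at least two. -/
def NoDivisor (SX : ComplexSpace X) (A : Set X) : Prop :=
  ∀ (U : Set X) (k : X → ℂ), IsOpen U → (∀ x ∈ U, SX.Hol k x) → (∀ x ∈ U, k x = 0 → x ∈ A) →
    ∀ x ∈ U, k x ≠ 0

theorem noDivisor_preimage [CompactSpace Y] [T2Space Y] [T2Space X] (hX : IsNormal SX)
    {π : Y → X} {d : ℕ} {R : Set X} (hπ : IsFiniteCover SY SX π d R) {A : Set X}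
    (hA : NoDivisor SX A) : NoDivisor SY (π ⁻¹' A) := by
  classical
  intro U k hU hk hkA y₀ hy₀ hk0
  have hF : ((π ⁻¹' {π y₀}) \ {y₀}).Finite := (hπ.finite (π y₀)).sdiff
  obtain ⟨O₀, O₁, hO₀, hO₁, h1, h2, hd⟩ := SeparatedNhds.of_isCompact_isCompact
    (isCompact_singleton (x := y₀)) hF.isCompact disjoint_sdiff_self_right
  obtain ⟨V, hV, hxV, hVW⟩ := exists_tube hπ.hol.1 (z := π y₀) (W := (O₀ ∩ U) ∪ O₁)
    ((hO₀.inter hU).union hO₁) (by
    intro y hy
    by_cases h : y = y₀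
    · left
      rw [h]
      exact ⟨h1 rfl, hy₀⟩
    · exact Or.inr (h2 ⟨hy, h⟩))
  let h : Y → ℂ := fun y => if y ∈ O₀ then k y else 1
  have hh : ∀ y, π y ∈ V → SY.Hol h y := by
    intro y hy
    rcases hVW y hy with h3 | h3
    · refine hol_congr SY (hk y h3.2) ?_
      filter_upwards [hO₀.mem_nhds h3.1] with y' hy'
      simp [h, hy']
    · refine hol_of_eventually_const SY 1 ?_
      filter_upwards [hO₁.mem_nhds h3] with y' hy'
      have : y' ∉ O₀ := fun h4 => Set.disjoint_left.1 hd h4 hy'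
      simp [h, this]
  have hhc : ContinuousOn h (π ⁻¹' V) := fun y hy =>
    (hol_continuousAt SY (hh y hy)).continuousWithinAt
  obtain ⟨n, hn1, hn2, hn3⟩ := cover_norm hX hπ hV hh 0
  refine hA V n hV hn1 ?_ (π y₀) hxV (hn3 y₀ hxV ?_)
  · intro x hx hnx
    by_contra hxA
    have hne : ∀ y, π y = x → h y ≠ 0 := by
      intro y hy hy0
      rcases hVW y (by rw [hy]; exact hx) with h3 | h3
      · have h4 : k y = 0 := by simpa [h, h3.1] using hy0
        have h5 := hkA y h3.2 h4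
        rw [mem_preimage, hy] at h5
        exact hxA h5
      · have : y ∉ O₀ := fun h4 => Set.disjoint_left.1 hd h4 h3
        simp [h, this] at hy0
    have hK : IsCompact (π ⁻¹' {x}) := (isClosed_singleton.preimage hπ.hol.1).isCompact
    obtain ⟨y₁, hy₁, hmin⟩ := hK.exists_isMinOn (f := fun y => ‖h y‖)
      (by obtain ⟨y, hy⟩ := hπ.surj x; exact ⟨y, hy⟩)
      ((hhc.mono (by
        intro y hy
        have : π y = x := hy
        show π y ∈ V
        rw [this]; exact hx)).norm)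
    set δ := ‖h y₁‖ with hδ
    have hδ0 : 0 < δ := norm_pos_iff.2 (hne y₁ hy₁)
    have hWo : IsOpen (π ⁻¹' V ∩ (fun y => ‖h y‖) ⁻¹' Ioi (δ / 2)) :=
      hhc.norm.isOpen_inter_preimage (hV.preimage hπ.hol.1) isOpen_Ioi
    obtain ⟨V', hV', hxV', hV'W⟩ := exists_tube hπ.hol.1 (z := x) hWo (by
      intro y hy
      refine ⟨by show π y ∈ V; rw [hy]; exact hx, ?_⟩
      have h5 : δ ≤ ‖h y‖ := hmin (show y ∈ π ⁻¹' {x} from hy)
      show δ / 2 < ‖h y‖
      linarith)
    have hfr : ∃ᶠ x' in 𝓝 x, x' ∈ V' ∧ x' ∈ V ∧ x' ∉ R := by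
      have h5 : x ∈ closure (V \ R) := hπ.dense hV hx
      have h6 : ∃ᶠ x' in 𝓝 x, x' ∈ V \ R := mem_closure_iff_frequently.1 h5
      refine (h6.and_eventually (hV'.mem_nhds hxV')).mono ?_
      rintro x' ⟨⟨h7, h8⟩, h9⟩
      exact ⟨h9, h7, h8⟩
    have hc : Tendsto (fun x' => ‖n x'‖) (𝓝 x) (𝓝 ‖n x‖) :=
      (hol_continuousAt SX (hn1 x hx)).norm
    have hlow : ∃ᶠ x' in 𝓝 x, ‖n x'‖ ∈ Ici ((δ / 2) ^ d) := by
      refine hfr.mono ?_
      rintro x' ⟨h7, h8, h9⟩
      rw [hn2 x' h8 h9]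
      show (δ / 2) ^ d ≤ ‖∏ y ∈ fib hπ x', (0 - h y)‖
      have h14 : ∏ _y ∈ fib hπ x', (δ / 2) = (δ / 2) ^ d := by
        rw [Finset.prod_const, card_fib hπ h9]
      rw [norm_prod, ← h14]
      refine Finset.prod_le_prod (fun _ _ => by positivity) fun y hy => ?_
      have h10 := (hV'W y (by rw [(mem_fib hπ).1 hy]; exact h7)).2
      have h11 : δ / 2 < ‖h y‖ := h10
      rw [zero_sub, norm_neg]
      exact h11.le
    have h12 := isClosed_Ici.mem_of_frequently_of_tendsto hlow hc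
    rw [hnx, norm_zero] at h12
    have h13 : 0 < (δ / 2) ^ d := by positivity
    exact absurd h12 (not_le.2 h13)
  · have h4 : y₀ ∈ O₀ := h1 rfl
    simp [h, h4, hk0]

/-- the holomorphic inverse function theorem in one variable -/
theorem exists_local_inverse {ψ : ℂ → ℂ} {x₀ : ℂ} (hψ : AnalyticAt ℂ ψ x₀)
    (hd : deriv ψ x₀ ≠ 0) : ∃ σ : ℂ → ℂ, AnalyticAt ℂ σ (ψ x₀) ∧ σ (ψ x₀) = x₀ ∧
      ∀ᶠ w in 𝓝 (ψ x₀), ψ (σ w) = w := by
  have hs := (hψ.hasStrictDerivAt).hasStrictFDerivAt_equiv hd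
  have hc : ContDiffAt ℂ 1 ψ x₀ := hψ.contDiffAt
  refine ⟨hs.localInverse ψ _ x₀, ?_, hs.localInverse_apply_image, hs.eventually_right_inverse⟩
  have h1 : ContDiffAt ℂ 1 (hs.localInverse ψ _ x₀) (ψ x₀) :=
    hc.to_localInverse hs.hasFDerivAt one_ne_zero
  rw [Complex.analyticAt_iff_eventually_differentiableAt]
  filter_upwards [h1.eventually (by simp)] with w hw
  exact hw.differentiableAt one_ne_zero

theorem countable_level {h : ℂ → ℂ} {O : Set ℂ} (hO : IsPreconnected O)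
    (hh : AnalyticOnNhd ℂ h O) {t₁ t₂ : ℂ} (h1 : t₁ ∈ O) (h2 : t₂ ∈ O) (hne : h t₁ ≠ h t₂)
    (a : ℂ) : {t | t ∈ O ∧ h t = a}.Countable := by
  set A := {t | t ∈ O ∧ h t = a} with hA
  have hdisc : DiscreteTopology A := by
    rw [discreteTopology_subtype_iff]
    intro t ht
    have h3 : ∀ᶠ z in 𝓝[≠] t, h z ≠ a := by
      rcases (hh t ht.1).eventually_eq_or_eventually_ne (analyticAt_const (v := a)) with h3 | h3
      · exfalso
        have h4 : EqOn h (fun _ => a) O :=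
          hh.eqOn_of_preconnected_of_eventuallyEq (fun _ _ => analyticAt_const) hO ht.1 h3
        exact hne ((h4 h1).trans (h4 h2).symm)
      · exact h3
    rw [inf_principal_eq_bot]
    filter_upwards [h3] with z hz hzA
    exact hz hzA.2
  exact countable_coe_iff.1 countable_of_Lindelof_of_discrete

/-- All but countably many points of `S` are smooth points of dimension one or two. This holds if
`S` is a normal complex surface with a countable topology, or a curve. -/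
def CurveOrSurface (S₁ : ComplexSpace S) : Prop :=
  {s | ¬ (RegularAt S₁ 1 s ∨ RegularAt S₁ 2 s)}.Countable

/-- A nonconstant curve in a surface with countably many singular points passes through smooth
points, at which it is not locally constant. -/
theorem exists_regular_point (hsing : CurveOrSurface S₂) {v : ℂ → S'}
    (hvc : Continuous v)
    (hv : ∀ (x : ℂ) (h : S' → ℂ), S₂.Hol h (v x) → AnalyticAt ℂ (fun t => h (v t)) x)
    {x₁ x₂ : ℂ} (hne : v x₁ ≠ v x₂) :
    ∃ t, (RegularAt S₂ 1 (v t) ∨ RegularAt S₂ 2 (v t)) ∧ ¬ ∀ᶠ y in 𝓝 t, v y = v t := by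
  classical
  obtain ⟨x, hx⟩ : ∃ x, ¬ ∀ᶠ y in 𝓝 x, v y = v x := by
    by_contra hcon
    push Not at hcon
    exact hne ((IsLocallyConstant.iff_eventually_eq v).2 hcon |>.apply_eq_of_preconnectedSpace _ _)
  obtain ⟨N, U, φ, hU, hxU, hφc, hφi, hφh⟩ := exists_chart S₂ (v x)
  obtain ⟨ε, hε, hball⟩ := Metric.isOpen_iff.1 (hU.preimage hvc) x hxU
  have hxb : x ∈ Metric.ball x ε := Metric.mem_ball_self hε
  obtain ⟨t₁, ht₁, j, hj⟩ : ∃ t₁ ∈ Metric.ball x ε, ∃ j, φ (v t₁) j ≠ φ (v x) j := by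
    by_contra hcon
    push Not at hcon
    apply hx
    filter_upwards [Metric.ball_mem_nhds x hε] with y hy
    exact hφi (hball hy) hxU (funext fun j => hcon y hy j)
  have hpc : IsPreconnected (Metric.ball x ε) := (convex_ball x ε).isPreconnected
  have han : AnalyticOnNhd ℂ (fun t => φ (v t) j) (Metric.ball x ε) := fun t ht =>
    hv t _ (hφh _ (hball ht) j)
  have hbad : {t | t ∈ Metric.ball x ε ∧
      ¬ (RegularAt S₂ 1 (v t) ∨ RegularAt S₂ 2 (v t))}.Countable := by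
    refine (Set.Countable.biUnion hsing (t := fun σ _ =>
      {t | t ∈ Metric.ball x ε ∧ φ (v t) j = φ σ j}) fun σ _ =>
      countable_level hpc han ht₁ hxb hj (φ σ j)).mono ?_
    rintro t ⟨ht, hts⟩
    exact mem_biUnion (x := v t) hts ⟨ht, rfl⟩
  obtain ⟨t, ht, htb⟩ : ∃ t ∈ Metric.ball x ε, t ∈ {t | t ∈ Metric.ball x ε ∧
      ¬ (RegularAt S₂ 1 (v t) ∨ RegularAt S₂ 2 (v t))}ᶜ := by
    obtain ⟨t, h1, h2⟩ := (hbad.dense_compl ℝ).inter_open_nonempty _ Metric.isOpen_ball ⟨x, hxb⟩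
    exact ⟨t, h1, h2⟩
  refine ⟨t, ?_, ?_⟩
  · by_contra hn
    exact htb ⟨ht, hn⟩
  · intro hloc
    have h3 : (fun t => φ (v t) j) =ᶠ[𝓝 t] fun _ => φ (v t) j := by
      filter_upwards [hloc] with y hy
      rw [hy]
    have h4 : EqOn (fun t => φ (v t) j) (fun _ => φ (v t) j) (Metric.ball x ε) :=
      han.eqOn_of_preconnected_of_eventuallyEq (fun _ _ => analyticAt_const) hpc ht h3
    exact hj ((h4 ht₁).trans (h4 hxb).symm)

/-- A nonconstant holomorphic curve in a surface with countably many singular points contains,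
near one of its points, the zero set of a holomorphic function vanishing at that point. -/
theorem exists_equation (hsing : CurveOrSurface S₂) {v : ℂ → S'}
    (hvc : Continuous v)
    (hv : ∀ (x : ℂ) (h : S' → ℂ), S₂.Hol h (v x) → AnalyticAt ℂ (fun t => h (v t)) x)
    {x₁ x₂ : ℂ} (hne : v x₁ ≠ v x₂) :
    ∃ (x₀ : ℂ) (O : Set S') (k : S' → ℂ), IsOpen O ∧ v x₀ ∈ O ∧ (∀ s' ∈ O, S₂.Hol k s') ∧
      k (v x₀) = 0 ∧ ∀ s' ∈ O, k s' = 0 → s' ∈ range v := by
  classical
  obtain ⟨x, hregx, hx⟩ := exists_regular_point hsing hvc hv hne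
  rcases hregx with hregx | hregx
  · -- a curve: the image of `v` is a neighbourhood of `v x`
    obtain ⟨U, φ, hU, hxU, hemb, hopen, hm⟩ := hregx
    have hφc : ContinuousOn φ U := contOn_of_embedding hemb
    have hφi : InjOn φ U := injOn_of_embedding hemb
    have hφh : S₂.Hol (fun y => φ y 0) (v x) := (hm _ hxU _).2 ⟨fun w => w 0,
      (ContinuousLinearMap.proj (R := ℂ) (φ := fun _ : Fin 1 => ℂ) 0).analyticAt _,
      Eventually.of_forall fun _ => rfl⟩
    have hψ : AnalyticAt ℂ (fun t => φ (v t) 0) x := hv x _ hφh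
    have hW : ∀ᶠ t in 𝓝 x, v t ∈ U := hvc.continuousAt.eventually (hU.mem_nhds hxU)
    have hmap : 𝓝 (φ (v x) 0) ≤ map (fun t => φ (v t) 0) (𝓝 x) := by
      rcases hψ.eventually_constant_or_nhds_le_map_nhds with h1 | h1
      · exfalso
        apply hx
        filter_upwards [h1, hW] with y h2 h3
        exact hφi h3 hxU (funext fun i => by rw [Subsingleton.elim i 0]; exact h2)
      · exact h1
    have hφt : ContinuousAt (fun s' => φ s' 0) (v x) :=
      (continuousAt_apply (0 : Fin 1) _).comp (hφc.continuousAt (hU.mem_nhds hxU))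
    have e1 : ∀ᶠ s' in 𝓝 (v x), φ s' 0 ∈ (fun t => φ (v t) 0) '' {t | v t ∈ U} :=
      hφt.eventually (hmap (image_mem_map hW))
    have e0 : ∀ᶠ s' in 𝓝 (v x), s' ∈ U := hU.mem_nhds hxU
    obtain ⟨O, hO1, hO2, hO3⟩ := mem_nhds_iff.1 (e0.and e1)
    refine ⟨x, O, fun _ => 0, hO2, hO3, fun _ _ => hol_const S₂ 0, rfl, ?_⟩
    intro s' hs' _
    obtain ⟨h4, t, ht, h5⟩ := hO1 hs'
    exact ⟨t, hφi ht h4 (funext fun i => by rw [Subsingleton.elim i 0]; exact h5)⟩
  obtain ⟨U, φ, hU, hxU, hemb, hopen, hm⟩ := hregx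
  have hφc : ContinuousOn φ U := contOn_of_embedding hemb
  have hφi : InjOn φ U := injOn_of_embedding hemb
  have hproj : ∀ (i : Fin 2) (w : Cn 2), AnalyticAt ℂ (fun w : Cn 2 => w i) w := fun i w =>
    (ContinuousLinearMap.proj (R := ℂ) (φ := fun _ : Fin 2 => ℂ) i).analyticAt _
  have hφh : ∀ s' ∈ U, ∀ i, S₂.Hol (fun y => φ y i) s' := fun s' hs' i =>
    (hm s' hs' _).2 ⟨fun w => w i, hproj i _, Eventually.of_forall fun _ => rfl⟩
  have hW : IsOpen (v ⁻¹' U) := hU.preimage hvc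
  have hψ : ∀ t ∈ v ⁻¹' U, ∀ i, AnalyticAt ℂ (fun t => φ (v t) i) t := fun t ht i =>
    hv t _ (hφh _ ht i)
  obtain ⟨t, htU, i, hti⟩ : ∃ t ∈ v ⁻¹' U, ∃ i, deriv (fun t => φ (v t) i) t ≠ 0 := by
    by_contra hcon
    push Not at hcon
    obtain ⟨ε, hε, hball⟩ := Metric.isOpen_iff.1 hW x hxU
    apply hx
    filter_upwards [Metric.ball_mem_nhds x hε] with y hy
    refine hφi (hball hy) hxU (funext fun i => ?_)
    exact Metric.isOpen_ball.is_const_of_deriv_eq_zero (convex_ball x ε).isPreconnected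
      (f := fun t => φ (v t) i)
      (fun u hu => (hψ u (hball hu) i).differentiableAt.differentiableWithinAt)
      (fun u hu => hcon u (hball hu) i) hy (Metric.mem_ball_self hε)
  obtain ⟨σ, hσ, hσt, hσr⟩ := exists_local_inverse (hψ t htU i) hti
  have hσt' : σ (φ (v t) i) = t := hσt
  let j : Fin 2 := 1 - i
  have hij : ∀ l : Fin 2, l = i ∨ l = j := by
    intro l
    fin_cases l <;> fin_cases i <;> simp [j]
  let F : Cn 2 → ℂ := fun w => w j - φ (v (σ (w i))) j
  have hσw : AnalyticAt ℂ (fun w : Cn 2 => σ (w i)) (φ (v t)) :=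
    AnalyticAt.fun_comp (g := σ) (f := fun w : Cn 2 => w i) hσ (hproj i _)
  have hF : AnalyticAt ℂ F (φ (v t)) := by
    refine (hproj j _).sub ?_
    exact AnalyticAt.fun_comp (g := fun t => φ (v t) j) (f := fun w : Cn 2 => σ (w i))
      (by rw [hσt']; exact hψ t htU j) hσw
  have hφt : ContinuousAt φ (v t) := hφc.continuousAt (hU.mem_nhds htU)
  have e1 : ∀ᶠ s' in 𝓝 (v t), AnalyticAt ℂ F (φ s') := hφt.eventually hF.eventually_analyticAt
  have e2 : ∀ᶠ s' in 𝓝 (v t), φ (v (σ (φ s' i))) i = φ s' i := by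
    have h3 : ContinuousAt (fun s' => φ s' i) (v t) := (continuousAt_apply i _).comp hφt
    exact h3.eventually hσr
  have e3 : ∀ᶠ s' in 𝓝 (v t), σ (φ s' i) ∈ v ⁻¹' U := by
    have h3 : ContinuousAt (fun s' => σ (φ s' i)) (v t) :=
      ContinuousAt.comp (g := fun w : Cn 2 => σ (w i)) (f := φ) (x := v t) hσw.continuousAt hφt
    refine h3.eventually (hW.mem_nhds ?_)
    show v (σ (φ (v t) i)) ∈ U
    rw [hσt']; exact htU
  have e0 : ∀ᶠ s' in 𝓝 (v t), s' ∈ U := hU.mem_nhds htU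
  have e4 := ((e0.and e1).and e2).and e3
  obtain ⟨O, hO1, hO2, hO3⟩ := mem_nhds_iff.1 e4
  refine ⟨t, O, fun s' => F (φ s'), hO2, hO3, ?_, ?_, ?_⟩
  · intro s' hs'
    exact (hm s' (hO1 hs').1.1.1 _).2 ⟨F, (hO1 hs').1.1.2, Eventually.of_forall fun _ => rfl⟩
  · show φ (v t) j - φ (v (σ (φ (v t) i))) j = 0
    rw [hσt', sub_self]
  · intro s' hs' hk
    obtain ⟨⟨⟨h5, -⟩, h6⟩, h7⟩ := hO1 hs'
    refine ⟨σ (φ s' i), hφi h7 h5 (funext fun l => ?_)⟩
    rcases hij l with rfl | rfl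
    · exact h6
    · have h8 : φ s' j - φ (v (σ (φ s' i))) j = 0 := hk
      exact (sub_eq_zero.1 h8).symm

end Vale.Agent.P277.H821
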