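import Vale.Agent.P277.H821.Surfaces
import Vale.Agent.P277.H821.Hypersurface

/-! # Contractions of products of a curve and an arbitrary space -/

open Topology Set Filter

namespace Vale.Agent.P277.H821

variable {X Y Z S S' : Type*} [TopologicalSpace X] [TopologicalSpace Y] [TopologicalSpace Z]
  [TopologicalSpace S] [TopologicalSpace S']
variable {SX : ComplexSpace X} {SY : ComplexSpace Y} {SZ : ComplexSpace Z} {S₁ : ComplexSpace S}
  {S₂ : ComplexSpace S'}

/-- All but countably many points of `S` are smooth points of dimension one. -/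
def IsCurve (S₁ : ComplexSpace S) : Prop :=
  {s | ¬ RegularAt S₁ 1 s}.Countable

/-- A nonconstant holomorphic curve passes through points outside a given countable set, at which
it is not locally constant. -/
theorem exists_good_point {P : S → Prop} (hsing : {s | ¬ P s}.Countable) {v : ℂ → S}
    (hvc : Continuous v)
    (hv : ∀ (x : ℂ) (h : S → ℂ), S₁.Hol h (v x) → AnalyticAt ℂ (fun t => h (v t)) x)
    {x₁ x₂ : ℂ} (hne : v x₁ ≠ v x₂) :
    ∃ t, P (v t) ∧ ¬ ∀ᶠ y in 𝓝 t, v y = v t := by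
  classical
  obtain ⟨x, hx⟩ : ∃ x, ¬ ∀ᶠ y in 𝓝 x, v y = v x := by
    by_contra hcon
    push Not at hcon
    exact hne ((IsLocallyConstant.iff_eventually_eq v).2 hcon |>.apply_eq_of_preconnectedSpace _ _)
  obtain ⟨N, U, φ, hU, hxU, hφc, hφi, hφh⟩ := exists_chart S₁ (v x)
  obtain ⟨ε, hε, hball⟩ := Metric.isOpen_iff.1 (hU.preimage hvc) x hxU
  have hxb : x ∈ Metric.ball x ε := Metric.mem_ball_self hε
  obtain ⟨t₁, ht₁, j, hj⟩ : ∃ t₁ ∈ Metric.ball x ε, ∃ j, φ (v t₁) j ≠ φ (v x) j := by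
    by_contra hcon
    push Not at hcon
    apply hx
    filter_upwards [Metric.ball_mem_nhds x hε] with y hy
    exact hφi (hball hy) hxU (funext fun j => hcon y hy j)
  have hpc : IsPreconnected (Metric.ball x ε) := (convex_ball x ε).isPreconnected
  have han : AnalyticOnNhd ℂ (fun t => φ (v t) j) (Metric.ball x ε) := fun t ht =>
    hv t _ (hφh _ (hball ht) j)
  have hbad : {t | t ∈ Metric.ball x ε ∧ ¬ P (v t)}.Countable := by
    refine (Set.Countable.biUnion hsing (t := fun σ _ =>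
      {t | t ∈ Metric.ball x ε ∧ φ (v t) j = φ σ j}) fun σ _ =>
      countable_level hpc han ht₁ hxb hj (φ σ j)).mono ?_
    rintro t ⟨ht, hts⟩
    exact mem_biUnion (x := v t) hts ⟨ht, rfl⟩
  obtain ⟨t, ht, htb⟩ : ∃ t ∈ Metric.ball x ε, t ∈ {t | t ∈ Metric.ball x ε ∧ ¬ P (v t)}ᶜ := by
    obtain ⟨t, h1, h2⟩ := (hbad.dense_compl ℝ).inter_open_nonempty _ Metric.isOpen_ball ⟨x, hxb⟩
    exact ⟨t, h1, h2⟩
  refine ⟨t, ?_, ?_⟩
  · by_contra hn
    exact htb ⟨ht, hn⟩
  · intro hloc
    have h3 : (fun t => φ (v t) j) =ᶠ[𝓝 t] fun _ => φ (v t) j := by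
      filter_upwards [hloc] with y hy
      rw [hy]
    have h4 : EqOn (fun t => φ (v t) j) (fun _ => φ (v t) j) (Metric.ball x ε) :=
      han.eqOn_of_preconnected_of_eventuallyEq (fun _ _ => analyticAt_const) hpc ht h3
    exact hj ((h4 ht₁).trans (h4 hxb).symm)

/-- The image of a nonconstant rational curve in a curve has interior points. -/
theorem range_mem_nhds (hS : IsCurve S₁) {v : ℂ → S} (hv : RatCurve S₁ v) {x₁ x₂ : ℂ}
    (hne : v x₁ ≠ v x₂) : ∃ x, range v ∈ 𝓝 (v x) := by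
  obtain ⟨x, ⟨U, φ, hU, hxU, hemb, hopen, hm⟩, hx⟩ := exists_good_point hS hv.1 hv.2.2 hne
  have hφc : ContinuousOn φ U := contOn_of_embedding hemb
  have hφi : InjOn φ U := injOn_of_embedding hemb
  have hφh : S₁.Hol (fun y => φ y 0) (v x) := (hm _ hxU _).2 ⟨fun w => w 0,
    (ContinuousLinearMap.proj (R := ℂ) (φ := fun _ : Fin 1 => ℂ) 0).analyticAt _,
    Eventually.of_forall fun _ => rfl⟩
  have hψ : AnalyticAt ℂ (fun t => φ (v t) 0) x := hv.2.2 x _ hφh
  have hW : ∀ᶠ t in 𝓝 x, v t ∈ U := hv.1.continuousAt.eventually (hU.mem_nhds hxU)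
  have hmap : 𝓝 (φ (v x) 0) ≤ map (fun t => φ (v t) 0) (𝓝 x) := by
    rcases hψ.eventually_constant_or_nhds_le_map_nhds with h1 | h1
    · exfalso
      apply hx
      filter_upwards [h1, hW] with y h2 h3
      exact hφi h3 hxU (funext fun i => by rw [Subsingleton.elim i 0]; exact h2)
    · exact h1
  have hφt : ContinuousAt (fun s' => φ s' 0) (v x) :=
    (continuousAt_apply (0 : Fin 1) _).comp (hφc.continuousAt (hU.mem_nhds hxU))
  have e1 : ∀ᶠ s' in 𝓝 (v x), φ s' 0 ∈ (fun t => φ (v t) 0) '' {t | v t ∈ U} :=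
    hφt.eventually (hmap (image_mem_map hW))
  have e0 : ∀ᶠ s' in 𝓝 (v x), s' ∈ U := hU.mem_nhds hxU
  refine ⟨x, ?_⟩
  filter_upwards [e0, e1] with s' h4 h6
  obtain ⟨t, ht, h5⟩ := h6
  exact ⟨t, hφi ht h4 (funext fun i => by rw [Subsingleton.elim i 0]; exact h5)⟩

section product

variable [CompactSpace X] [CompactSpace Y] [T2Space X] [T2Space Y] [T2Space Z]
  {π : Y → X} {d : ℕ} {R : Set X} {f : X → Z} {B : Set Z}

/-- A rational curve in the product of a curve and a connected space which is contracted by a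
generically finite map lies in a slice `{s} × S'`. -/
theorem fst_const_of_curve [PreconnectedSpace S'] {Φ : S × S' ≃ₜ Y}
    (hΦ : IsProduct SY S₁ S₂ Φ) (hS : IsCurve S₁) (hf : IsModification SX SZ f B)
    (hπ : IsFiniteCover SY SX π d R) {c : ℂ → Y} (hc : RatCurve SY c) {z : Z}
    (h0 : ∀ x, (f ∘ π) (c x) = z) (x : ℂ) : (Φ.symm (c x)).1 = (Φ.symm (c 0)).1 := by
  by_contra hne
  have hgh : HolMap SY SZ (f ∘ π) := hf.hol.comp hπ.hol
  have hu : RatCurve S₁ (fun x => (Φ.symm (c x)).1) := hc.map hΦ.fst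
  have hw : RatCurve S₂ (fun x => (Φ.symm (c x)).2) := hc.map hΦ.snd
  obtain ⟨x₀, hx₀⟩ := range_mem_nhds hS hu hne
  have hbox := rat_box hΦ hgh hu hw (z := z) (fun x => by
    rw [Prod.mk.eta, Φ.apply_symm_apply]; exact h0 x)
  have hprop : ∀ s' t, (f ∘ π) (Φ ((Φ.symm (c t)).1, s')) = (f ∘ π) (Φ ((Φ.symm (c 0)).1, s')) := by
    intro s' t
    exact rat_propagate hΦ.swap hgh hu (s₀ := (Φ.symm (c 0)).2) (fun x => by
      show (f ∘ π) (Φ ((Φ.symm (c x)).1, (Φ.symm (c 0)).2)) =
        (f ∘ π) (Φ ((Φ.symm (c 0)).1, (Φ.symm (c 0)).2))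
      rw [hbox, hbox]) s' t
  have hB : ∀ s' t, (f ∘ π) (Φ ((Φ.symm (c t)).1, s')) ∈ B := by
    intro s' t
    refine mem_of_infinite hf hπ (K := range fun t => Φ ((Φ.symm (c t)).1, s')) ?_ ?_
    · refine infinite_of_rat (x := x) (x' := 0)
        (Φ.continuous.comp (hu.1.prodMk continuous_const)) ?_
      intro h
      exact hne (Prod.mk.inj (Φ.injective h)).1
    · rintro _ ⟨t', rfl⟩
      rw [hprop s' t']
      exact (hprop s' t).symm
  have hint : c x₀ ∈ interior ((f ∘ π) ⁻¹' B) := by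
    rw [mem_interior_iff_mem_nhds]
    have h1 : ContinuousAt (fun y => (Φ.symm y).1) (c x₀) :=
      (continuous_fst.comp Φ.symm.continuous).continuousAt
    filter_upwards [h1.preimage_mem_nhds hx₀] with y hy
    obtain ⟨t, ht⟩ := hy
    have h2 := hB (Φ.symm y).2 t
    have h3 : ((Φ.symm (c t)).1, (Φ.symm y).2) = Φ.symm y := Prod.ext ht rfl
    rw [h3, Φ.apply_symm_apply] at h2
    exact h2
  rw [interior_preimage hf hπ] at hint
  exact hint

/-- The connected components of the fibres of a contraction with rationally chain connected fibres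
of the product of a curve and a connected space `S'` are the sets `{s} × K`, `K` in a partition of
`S'` independent of `s`. -/
theorem components_of_curve [PreconnectedSpace S] [PreconnectedSpace S'] {Φ : S × S' ≃ₜ Y}
    (hΦ : IsProduct SY S₁ S₂ Φ) (hS : IsCurve S₁) (hf : IsModification SX SZ f B)
    (hπ : IsFiniteCover SY SX π d R) (hR : RatChain SY (f ∘ π)) :
    ∃ E : S' → S' → Prop, Equivalence E ∧ ∀ s s' v v',
      Φ (s', v') ∈ connectedComponentIn ((f ∘ π) ⁻¹' {(f ∘ π) (Φ (s, v))}) (Φ (s, v)) ↔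
        s' = s ∧ E v v' := by
  classical
  have hgh : HolMap SY SZ (f ∘ π) := hf.hol.comp hπ.hol
  set L : S' → S' → Prop := fun p q => ∃ w, RatCurve S₂ w ∧
    (∀ s x, (f ∘ π) (Φ (s, w x)) = (f ∘ π) (Φ (s, w 0))) ∧ p ∈ range w ∧ q ∈ range w with hL
  have hsym : ∀ a b, Relation.ReflTransGen L a b → Relation.ReflTransGen L b a := by
    intro a b h
    induction h with
    | refl => exact Relation.ReflTransGen.refl
    | tail _ hl ih =>
      obtain ⟨w, h1, h2, h3, h4⟩ := hl
      exact Relation.ReflTransGen.head ⟨w, h1, h2, h4, h3⟩ ih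
  refine ⟨Relation.ReflTransGen L, ⟨fun _ => Relation.ReflTransGen.refl,
    fun {a b} h => hsym a b h, fun {_ _ _} h h' => h.trans h'⟩, ?_⟩
  intro s s' v v'
  constructor
  · intro h
    have hchain := hR _ _ h
    have key : ∀ y, Relation.ReflTransGen (fun p q => ∃ c, RatCurve SY c ∧
        (∀ x, (f ∘ π) (c x) = (f ∘ π) (Φ (s, v))) ∧ p ∈ range c ∧ q ∈ range c) (Φ (s, v)) y →
        (Φ.symm y).1 = s ∧ Relation.ReflTransGen L v (Φ.symm y).2 := by
      intro y hy
      induction hy with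
      | refl => simp [Relation.ReflTransGen.refl]
      | @tail y y' _ hl ih =>
        obtain ⟨c, hc, hcz, ⟨x, rfl⟩, ⟨x', rfl⟩⟩ := hl
        have hw : RatCurve S₂ (fun x => (Φ.symm (c x)).2) := hc.map hΦ.snd
        have h1 : ∀ t, (Φ.symm (c t)).1 = s := fun t => by
          rw [fst_const_of_curve hΦ hS hf hπ hc hcz t,
            ← fst_const_of_curve hΦ hS hf hπ hc hcz x, ih.1]
        refine ⟨h1 x', ih.2.tail ⟨fun x => (Φ.symm (c x)).2, hw, ?_, ⟨x, rfl⟩, ⟨x', rfl⟩⟩⟩
        intro s₁ t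
        refine rat_propagate hΦ hgh hw (s₀ := s) ?_ s₁ t
        intro t
        have h2 : ∀ t, Φ (s, (Φ.symm (c t)).2) = c t := fun t => by
          rw [← h1 t, Prod.mk.eta, Φ.apply_symm_apply]
        rw [h2, h2, hcz, hcz]
    have h2 := key _ hchain
    rw [Φ.symm_apply_apply] at h2
    exact h2
  · rintro ⟨rfl, h⟩
    have key : ∀ v', Relation.ReflTransGen L v v' → (f ∘ π) (Φ (s', v')) = (f ∘ π) (Φ (s', v)) ∧
        Φ (s', v') ∈ connectedComponentIn ((f ∘ π) ⁻¹' {(f ∘ π) (Φ (s', v))}) (Φ (s', v)) := by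
      intro v' h'
      induction h' with
      | refl => exact ⟨rfl, mem_connectedComponentIn rfl⟩
      | @tail p q _ hl ih =>
        obtain ⟨w, hw, hwc, ⟨x, rfl⟩, ⟨x', rfl⟩⟩ := hl
        have hall : ∀ t, (f ∘ π) (Φ (s', w t)) = (f ∘ π) (Φ (s', v)) := fun t => by
          rw [hwc s' t, ← hwc s' x, ih.1]
        refine ⟨hall x', ?_⟩
        have hpre : IsPreconnected (range fun t => Φ (s', w t)) :=
          isPreconnected_range (Φ.continuous.comp (continuous_const.prodMk hw.1))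
        have hsub : (range fun t => Φ (s', w t)) ⊆ (f ∘ π) ⁻¹' {(f ∘ π) (Φ (s', v))} := by
          rintro _ ⟨t, rfl⟩
          exact hall t
        have h3 := hpre.subset_connectedComponentIn (x := Φ (s', w x)) ⟨x, rfl⟩ hsub
        rw [connectedComponentIn_eq ih.2]
        exact h3 ⟨x', rfl⟩
    exact (key v' h).2

end product

/-- The part of `Y` over the open set `N` is trivial over `N`: `T y t` is the point over `t` with
the same fibre coordinate as `y` (see `IsBundle`). -/
structure IsTransport (SY : ComplexSpace Y) (S₁ : ComplexSpace S) (q : Y → S) (N : Set S)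
    (T : Y → S → Y) : Prop where
  isOpen : IsOpen N
  cont : ContinuousOn (fun p : Y × S => T p.1 p.2) ((q ⁻¹' N) ×ˢ N)
  map : ∀ y t, q y ∈ N → t ∈ N → q (T y t) = t ∧ T y (q y) = y ∧
    (∀ t' ∈ N, T (T y t) t' = T y t') ∧
    ∀ h, SY.Hol h (T y t) → SY.Hol (fun y' => h (T y' t)) y ∧ S₁.Hol (fun t' => h (T y t')) t

/-- The connected component of the fibre of `g` through `y`. -/
def FibreComponent (g : Y → Z) (y : Y) : Set Y := connectedComponentIn (g ⁻¹' {g y}) y

theorem transport_mem [CompactSpace Y] [T2Space Y] [T2Space Z] {g : Y → Z} {d : ℕ}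
    (hgh : HolMap SY SZ g) (hcp : CountProp SY g d) {q : Y → S} (hqc : Continuous q)
    (hover : IsOver g q) {N : Set S} {T : Y → S → Y} (hT : IsTransport SY S₁ q N T)
    (hN : IsPreconnected N) {y y' : Y} {t : S} (hy : q y ∈ N) (ht : t ∈ N)
    (hy' : y' ∈ FibreComponent g y) : T y' t ∈ FibreComponent g (T y t) := by
  set K := connectedComponentIn (g ⁻¹' {g y}) y with hK
  have hyK : y ∈ K := mem_connectedComponentIn rfl
  have hKg : ∀ u ∈ K, g u = g y := fun u hu =>
    (connectedComponentIn_subset (g ⁻¹' {g y}) y hu : u ∈ g ⁻¹' {g y})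
  have hqK : ∀ u ∈ K, q u = q y := hover y
  have hcont : ∀ u, q u ∈ N → ∀ t ∈ N, ContinuousAt (fun p : Y × S => T p.1 p.2) (u, t) :=
    fun u hu t ht =>
      hT.cont.continuousAt (((hT.isOpen.preimage hqc).prod hT.isOpen).mem_nhds ⟨hu, ht⟩)
  have hKN : ∀ u ∈ K, q u ∈ N := fun u hu => by rw [hqK u hu]; exact hy
  have hcont1 : ∀ u, q u ∈ N → ∀ t ∈ N, ContinuousAt (fun y => T y t) u := by
    intro u hu t ht
    have h2 : ContinuousAt (fun y : Y => ((y, t) : Y × S)) u := by fun_prop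
    exact ContinuousAt.comp (g := fun r : Y × S => T r.1 r.2)
      (f := fun y : Y => ((y, t) : Y × S)) (x := u) (hcont u hu t ht) h2
  have hcont2 : ∀ u, q u ∈ N → ∀ t ∈ N, ContinuousAt (fun t => T u t) t := by
    intro u hu t ht
    have h2 : ContinuousAt (fun t : S => ((u, t) : Y × S)) t := by fun_prop
    exact ContinuousAt.comp (g := fun r : Y × S => T r.1 r.2)
      (f := fun t : S => ((u, t) : Y × S)) (x := t) (hcont u hu t ht) h2
  have himg : ∀ t ∈ N, (∀ u ∈ K, g (T u t) = g (T y t)) → ∀ u ∈ K,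
      T u t ∈ connectedComponentIn (g ⁻¹' {g (T y t)}) (T y t) := by
    intro t ht hall u hu
    have hpre : IsPreconnected ((fun u => T u t) '' K) :=
      isPreconnected_connectedComponentIn.image _ fun u hu =>
        (hcont1 u (hKN u hu) t ht).continuousWithinAt
    refine hpre.subset_connectedComponentIn ⟨y, hyK, rfl⟩ ?_ ⟨u, hu, rfl⟩
    rintro _ ⟨u, hu, rfl⟩
    exact hall u hu
  set A : Set S := {t | t ∈ N ∧ ∀ u ∈ K, g (T u t) = g (T y t)} with hA
  have hAo : IsOpen A := by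
    rw [isOpen_iff_mem_nhds]
    rintro t₁ ⟨ht₁, hall⟩
    have hq1 : q (T y t₁) = t₁ := (hT.map y t₁ hy ht₁).1
    have hK1q : ∀ u ∈ connectedComponentIn (g ⁻¹' {g (T y t₁)}) (T y t₁), q u = t₁ := by
      intro u hu
      rw [hover _ u hu, hq1]
    have hev := const_transport hgh hcp (T y t₁) (A := fun t y => T y t) (p₀ := t₁) (by
        intro u hu
        have h2 : ContinuousAt (fun p : S × Y => ((p.2, p.1) : Y × S)) (t₁, u) := by fun_prop
        exact ContinuousAt.comp (g := fun r : Y × S => T r.1 r.2)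
          (f := fun p : S × Y => ((p.2, p.1) : Y × S)) (x := (t₁, u))
          (hcont u (by rw [hK1q u hu]; exact ht₁) t₁ ht₁) h2) (by
        intro u hu
        have h1 := (hT.map u t₁ (by rw [hK1q u hu]; exact ht₁) ht₁).2.1
        rwa [hK1q u hu] at h1) (by
        filter_upwards [hT.isOpen.mem_nhds ht₁] with t ht u hu h hh
        exact ((hT.map u t (by rw [hK1q u hu]; exact ht₁) ht).2.2.2 h hh).1)
    filter_upwards [hev, hT.isOpen.mem_nhds ht₁] with t h1 htN
    refine ⟨htN, fun u hu => ?_⟩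
    have h2 := h1 _ (himg t₁ ht₁ hall u hu)
    have h3 : T (T u t₁) t = T u t := (hT.map u t₁ (hKN u hu) ht₁).2.2.1 t htN
    have h4 : T (T y t₁) t = T y t := (hT.map y t₁ hy ht₁).2.2.1 t htN
    simp only [h3, h4] at h2
    exact h2
  have hAc : closure A ∩ N ⊆ A := by
    rintro t₀ ⟨ht₀, ht₀N⟩
    refine ⟨ht₀N, fun u hu => ?_⟩
    have hne : (𝓝[A] t₀).NeBot := mem_closure_iff_nhdsWithin_neBot.1 ht₀
    have h1 : Tendsto (fun t => g (T u t)) (𝓝[A] t₀) (𝓝 (g (T u t₀))) :=
      ((hgh.1.tendsto _).comp (hcont2 u (hKN u hu) t₀ ht₀N)).mono_left nhdsWithin_le_nhds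
    have h2 : Tendsto (fun t => g (T y t)) (𝓝[A] t₀) (𝓝 (g (T y t₀))) :=
      ((hgh.1.tendsto _).comp (hcont2 y hy t₀ ht₀N)).mono_left nhdsWithin_le_nhds
    refine tendsto_nhds_unique_of_eventuallyEq h1 h2 ?_
    filter_upwards [self_mem_nhdsWithin] with t ht
    exact ht.2 u hu
  have hyA : q y ∈ A := by
    refine ⟨hy, fun u hu => ?_⟩
    have h1 : T u (q y) = u := by
      have h1 := (hT.map u (q y) (hKN u hu) hy).2.1
      rwa [hqK u hu] at h1
    rw [h1, (hT.map y (q y) hy hy).2.1]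
    exact hKg u hu
  have hNA : N ⊆ A := hN.subset_of_closure_inter_subset hAo ⟨q y, hy, hyA⟩ hAc
  exact himg t ht (hNA ht).2 y' hy'

/-- Over a connected open set over which `q` is trivial, the contraction `g` over `S` is a product:
the transport from one fibre of `q` to another one maps the connected components of the fibres
of `g` onto each other. -/
theorem transport_iff [CompactSpace Y] [T2Space Y] [T2Space Z] {g : Y → Z} {d : ℕ}
    (hgh : HolMap SY SZ g) (hcp : CountProp SY g d) {q : Y → S} (hqc : Continuous q)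
    (hover : IsOver g q) {N : Set S} {T : Y → S → Y} (hT : IsTransport SY S₁ q N T)
    (hN : IsPreconnected N) {y y' : Y} {t : S} (hy : q y ∈ N) (ht : t ∈ N) :
    y' ∈ FibreComponent g y ↔ q y' = q y ∧ T y' t ∈ FibreComponent g (T y t) := by
  constructor
  · intro h
    exact ⟨hover y y' h, transport_mem hgh hcp hqc hover hT hN hy ht h⟩
  · rintro ⟨h1, h2⟩
    have hy' : q y' ∈ N := by rw [h1]; exact hy
    have h3 := transport_mem hgh hcp hqc hover hT hN (t := q y)
      (by rw [(hT.map y t hy ht).1]; exact ht) hy h2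
    rw [(hT.map y' t hy' ht).2.2.1 (q y) hy, (hT.map y t hy ht).2.2.1 (q y) hy,
      (hT.map y t hy ht).2.1, ← h1, (hT.map y' t hy' ht).2.1] at h3
    exact h3

end Vale.Agent.P277.H821
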