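import Mathlib

/-!
# P277: complex spaces, small bimeromorphic morphisms, finite quotients, group actions

Reduced complex spaces are given by local models: `S.Hol h x` says that the function `h` is
holomorphic on a neighbourhood of `x`.
-/

open Topology Set Filter

namespace Vale.Agent.P277.H821

/-- `ℂ^N` -/
abbrev Cn (N : ℕ) : Type := Fin N → ℂ

/-- `A` is an analytic subset of `Ω` in `ℂ^N`: near each point of `Ω` it is the common zero set of
finitely many analytic functions. -/
def IsAnalyticSubset {N : ℕ} (Ω A : Set (Cn N)) : Prop :=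
  A ⊆ Ω ∧ ∀ w ∈ Ω, ∃ (V : Set (Cn N)) (r : ℕ) (F : Fin r → Cn N → ℂ),
    IsOpen V ∧ w ∈ V ∧ (∀ i, AnalyticOnNhd ℂ (F i) V) ∧ ∀ u ∈ V, (u ∈ A ↔ ∀ i, F i u = 0)

/-- A reduced complex space with underlying topological space `X`: near each point there is a
topological embedding `φ` of an open set `U` onto an analytic subset of an open set of `ℂ^N`
such that a function is holomorphic at `y ∈ U` iff near `y` it is the restriction of an analytic
function of the ambient space. -/
structure ComplexSpace (X : Type*) [TopologicalSpace X] where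
  /-- `Hol h x`: the function `h` is holomorphic near `x` -/
  Hol : (X → ℂ) → X → Prop
  /-- local models -/
  model : ∀ x : X, ∃ (N : ℕ) (U : Set X) (φ : X → Cn N) (Ω : Set (Cn N)),
    IsOpen U ∧ x ∈ U ∧ IsOpen Ω ∧ IsEmbedding (U.domRestrict φ) ∧ IsAnalyticSubset Ω (φ '' U) ∧
    ∀ y ∈ U, ∀ h : X → ℂ, Hol h y ↔ ∃ F : Cn N → ℂ, AnalyticAt ℂ F (φ y) ∧ h =ᶠ[𝓝 y] F ∘ φ

section defs

variable {X Y Z : Type*} [TopologicalSpace X] [TopologicalSpace Y] [TopologicalSpace Z]

/-- Holomorphic maps: continuous, and pulling back holomorphic functions. -/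
def HolMap (SX : ComplexSpace X) (SY : ComplexSpace Y) (f : X → Y) : Prop :=
  Continuous f ∧ ∀ (x : X) (h : Y → ℂ), SY.Hol h (f x) → SX.Hol (h ∘ f) x

/-- Isomorphisms of complex spaces. -/
def IsIso (SX : ComplexSpace X) (SY : ComplexSpace Y) (f : X → Y) : Prop :=
  HolMap SX SY f ∧ ∃ g : Y → X, HolMap SY SX g ∧ (∀ x, g (f x) = x) ∧ ∀ y, f (g y) = y

/-- `B` is an analytic subset of the open set `U`. -/
def AnalyticIn (S : ComplexSpace X) (U B : Set X) : Prop :=
  ∀ x ∈ U, ∃ (V : Set X) (r : ℕ) (F : Fin r → X → ℂ),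
    IsOpen V ∧ x ∈ V ∧ (∀ i, ∀ y ∈ V, S.Hol (F i) y) ∧ ∀ y ∈ V, (y ∈ B ↔ ∀ i, F i y = 0)

/-- Normality of a reduced complex space: the Riemann extension theorem holds. -/
def IsNormal (S : ComplexSpace X) : Prop :=
  ∀ (U B : Set X) (h : X → ℂ), IsOpen U → AnalyticIn S U B → U ⊆ closure (U \ B) →
    (∀ x ∈ U \ B, S.Hol h x) → (∀ x ∈ U, ∃ C : ℝ, ∀ᶠ y in 𝓝 x, y ∉ B → ‖h y‖ ≤ C) →
    ∃ H : X → ℂ, (∀ x ∈ U, S.Hol H x) ∧ ∀ x ∈ U \ B, H x = h x

/-- `f` is a (proper) bimeromorphic morphism which is an isomorphism over the complement of the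
analytic set `B`, whose preimage is nowhere dense. -/
structure IsModification (SX : ComplexSpace X) (SZ : ComplexSpace Z) (f : X → Z) (B : Set Z) :
    Prop where
  hol : HolMap SX SZ f
  surj : Function.Surjective f
  analytic : AnalyticIn SZ univ B
  nowhereDense : interior (f ⁻¹' B) = ∅
  inj : InjOn f (f ⁻¹' B)ᶜ
  iso : ∀ x, f x ∉ B → ∀ h : X → ℂ, SX.Hol h x → ∃ H : Z → ℂ, SZ.Hol H (f x) ∧ h =ᶠ[𝓝 x] H ∘ f

/-- The set `B` has dimension at most `d` (Chevalley dimension): each point `x` of `B` is isolated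
in the set of points of `B` where `d` suitable holomorphic functions take their value at `x`. -/
def DimLE (S : ComplexSpace X) (d : ℕ) (B : Set X) : Prop :=
  ∀ x ∈ B, ∃ q : Fin d → X → ℂ, (∀ i, S.Hol (q i) x) ∧
    ∀ᶠ y in 𝓝 x, y ∈ B → (∀ i, q i y = q i x) → y = x

/-- `f` is a small bimeromorphic morphism of fourfolds: it is an isomorphism over the complement
of an analytic set `B` of dimension at most one whose preimage is nowhere dense and has dimension
at most two. -/
def IsSmall (SX : ComplexSpace X) (SZ : ComplexSpace Z) (f : X → Z) : Prop :=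
  ∃ B : Set Z, IsModification SX SZ f B ∧ DimLE SX 2 (f ⁻¹' B) ∧ DimLE SZ 1 B

/-- `x` is a smooth point of dimension `n`. -/
def RegularAt (S : ComplexSpace X) (n : ℕ) (x : X) : Prop :=
  ∃ (U : Set X) (φ : X → Cn n), IsOpen U ∧ x ∈ U ∧ IsEmbedding (U.domRestrict φ) ∧ IsOpen (φ '' U) ∧
    ∀ y ∈ U, ∀ h : X → ℂ, S.Hol h y ↔ ∃ F : Cn n → ℂ, AnalyticAt ℂ F (φ y) ∧ h =ᶠ[𝓝 y] F ∘ φ

/-- Irreducible of dimension `n`: the smooth points of dimension `n` form a connected dense set. -/
def IrreducibleOfDim (S : ComplexSpace X) (n : ℕ) : Prop :=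
  IsPreconnected {x | RegularAt S n x} ∧ Dense {x | RegularAt S n x}

/-- `π : Y → X` is a finite surjective holomorphic map of degree `d`, unramified over the
complement of the nowhere dense analytic set `R`, whose preimage is nowhere dense. -/
structure IsFiniteCover (SY : ComplexSpace Y) (SX : ComplexSpace X) (π : Y → X) (d : ℕ)
    (R : Set X) : Prop where
  hol : HolMap SY SX π
  surj : Function.Surjective π
  finite : ∀ x, (π ⁻¹' {x}).Finite
  analytic : AnalyticIn SX univ R
  nowhereDense : interior (π ⁻¹' R) = ∅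
  degree : ∀ x, x ∉ R → (π ⁻¹' {x}).ncard = d
  inj : ∀ y, π y ∉ R → ∃ W ∈ 𝓝 y, InjOn π W
  iso : ∀ y, π y ∉ R → ∀ h : Y → ℂ, SY.Hol h y → ∃ H : X → ℂ, SX.Hol H (π y) ∧ h =ᶠ[𝓝 y] H ∘ π

/-- A connected topological group acts continuously and by holomorphic maps, and the only closed
invariant nowhere dense set of dimension at most two is empty. This holds if the action is
transitive. -/
def ThickAction (S : ComplexSpace X) : Prop :=
  ∃ (H : Type) (_ : Group H) (_ : TopologicalSpace H) (_ : IsTopologicalGroup H)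
    (_ : ConnectedSpace H) (a : H → X → X), Continuous (fun p : H × X => a p.1 p.2) ∧
    (∀ x, a 1 x = x) ∧ (∀ p q x, a (p * q) x = a p (a q x)) ∧ (∀ p, HolMap S S (a p)) ∧
    ∀ A : Set X, IsClosed A → (∀ p, ∀ x ∈ A, a p x ∈ A) → interior A = ∅ → DimLE S 2 A → A = ∅

/-- The complex torus `ℂ^k / Λ` acts holomorphically and effectively; the action is given on
`ℂ^k`. -/
structure IsTorusAction (S : ComplexSpace X) (k : ℕ) (Λ : AddSubgroup (Cn k))
    (a : Cn k → X → X) : Prop where
  discrete : ∃ ε > 0, ∀ v ∈ Λ, ‖v‖ < ε → v = 0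
  cocompact : ∃ K : Set (Cn k), IsCompact K ∧ ∀ v, ∃ l ∈ Λ, v - l ∈ K
  continuous : Continuous (fun p : Cn k × X => a p.1 p.2)
  zero_act : ∀ x, a 0 x = x
  add_act : ∀ v w x, a (v + w) x = a v (a w x)
  hol_act : ∀ v, HolMap S S (a v)
  hol_orbit : ∀ (x : X) (v : Cn k) (h : X → ℂ), S.Hol h (a v x) →
    AnalyticAt ℂ (fun w => h (a w x)) v
  effective : ∀ v, (∀ x, a v x = x) ↔ v ∈ Λ

/-- `Y` is topologically a product `F × T` with `F` compact, a connected topological group `H` acts
on `Y` by holomorphic maps through a transitive action `b` on `F`, and for each point `x` of `F`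
there is a two-dimensional linear family of complex one-parameter subgroups of `H`, acting
analytically, none of which fixes `x`. This is the case if `Y = F × T` as complex spaces, where
`T` is any complex space and `F` is a compact complex manifold of dimension at least two
homogeneous under a connected complex Lie group `H`. -/
def HomogeneousFactor (S : ComplexSpace Y) : Prop :=
  ∃ (F T H : Type) (_ : TopologicalSpace F) (_ : CompactSpace F) (_ : TopologicalSpace T)
    (Φ : F × T ≃ₜ Y) (_ : Group H) (_ : TopologicalSpace H) (_ : IsTopologicalGroup H)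
    (_ : ConnectedSpace H) (b : H → F → F), Continuous (fun p : H × F => b p.1 p.2) ∧
    (∀ x, b 1 x = x) ∧ (∀ p q x, b (p * q) x = b p (b q x)) ∧
    (∀ p, HolMap S S (fun y => Φ (b p (Φ.symm y).1, (Φ.symm y).2))) ∧
    (∀ x x', ∃ p, b p x = x') ∧
    ∀ x, ∃ e : Cn 2 → H, Continuous e ∧
      (∀ (s t : ℂ) (v : Cn 2), e ((s + t) • v) = e (s • v) * e (t • v)) ∧
      (∀ (y : Y) (v : Cn 2) (h : Y → ℂ), S.Hol h (Φ (b (e v) (Φ.symm y).1, (Φ.symm y).2)) →
        AnalyticAt ℂ (fun w => h (Φ (b (e w) (Φ.symm y).1, (Φ.symm y).2))) v) ∧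
      ∀ w : Cn 2, w ≠ 0 → ∃ ζ : ℂ, b (e (ζ • w)) x ≠ x

end defs

end Vale.Agent.P277.H821
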