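import Vale.Agent.P277.H821.Basic

/-! # Descent of holomorphic functions along modifications and finite quotients -/

open Topology Set Filter

namespace Vale.Agent.P277.H821

variable {X Y Z : Type*} [TopologicalSpace X] [TopologicalSpace Y] [TopologicalSpace Z]

theorem exists_tube [CompactSpace Y] [T2Space Z] {g : Y → Z} (hg : Continuous g) {z : Z}
    {W : Set Y} (hW : IsOpen W) (h : ∀ y, g y = z → y ∈ W) :
    ∃ U : Set Z, IsOpen U ∧ z ∈ U ∧ ∀ y, g y ∈ U → y ∈ W := by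
  refine ⟨(g '' Wᶜ)ᶜ, (hg.isClosedMap _ hW.isClosed_compl).isOpen_compl, ?_, ?_⟩
  · rintro ⟨y, hy, hyz⟩; exact hy (h y hyz)
  · intro y hy; by_contra hn; exact hy ⟨y, hn, rfl⟩

variable {SX : ComplexSpace X} {SY : ComplexSpace Y} {SZ : ComplexSpace Z}

theorem IsModification.dense {f : X → Z} {B : Set Z} (hf : IsModification SX SZ f B)
    {U : Set Z} (hU : IsOpen U) : U ⊆ closure (U \ B) := by
  intro z hz
  rw [mem_closure_iff]
  intro V hV hzV
  by_contra hn
  obtain ⟨x, hx⟩ := hf.surj z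
  have h1 : f ⁻¹' (V ∩ U) ⊆ interior (f ⁻¹' B) := by
    apply interior_maximal
    · intro x' hx'
      by_contra hx''
      exact hn ⟨f x', hx'.1, hx'.2, hx''⟩
    · exact (hV.inter hU).preimage hf.hol.1
  rw [hf.nowhereDense] at h1
  exact h1 (show f x ∈ V ∩ U by rw [hx]; exact ⟨hzV, hz⟩)

theorem descent [CompactSpace X] [T2Space Z] (hZ : IsNormal SZ) {f : X → Z} {B : Set Z}
    (hf : IsModification SX SZ f B) {U : Set Z} (hU : IsOpen U) {h : X → ℂ}
    (hh : ∀ x, f x ∈ U → SX.Hol h x) :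
    ∃ H : Z → ℂ, (∀ z ∈ U, SZ.Hol H z) ∧ ∀ x, f x ∈ U → h x = H (f x) := by
  classical
  have hfU : IsOpen (f ⁻¹' U) := hU.preimage hf.hol.1
  have hcont : ContinuousOn h (f ⁻¹' U) := fun x hx =>
    (hol_continuousAt SX (hh x hx)).continuousWithinAt
  set H0 : Z → ℂ := fun z => h (Function.surjInv hf.surj z) with hH0
  have hs : ∀ z, f (Function.surjInv hf.surj z) = z := Function.surjInv_eq hf.surj
  have hB : AnalyticIn SZ U B := fun z hz => hf.analytic z (mem_univ _)
  have hol0 : ∀ z ∈ U \ B, SZ.Hol H0 z := by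
    rintro z ⟨hzU, hzB⟩
    set x := Function.surjInv hf.surj z with hx
    have hxz : f x = z := hs z
    obtain ⟨H, hH, he⟩ := hf.iso x (by rw [hxz]; exact hzB) h (hh x (by
      show f x ∈ U; rw [hxz]; exact hzU))
    rw [hxz] at hH
    refine hol_congr SZ hH ?_
    obtain ⟨W, hW1, hW2, hW3⟩ := mem_nhds_iff.1 he
    obtain ⟨V, hV, hzV, hVW⟩ := exists_tube hf.hol.1 (z := z) hW2 (by
      intro x' hx'
      have : x' = x := hf.inj (by simpa [hx'] using hzB) (by simpa [hxz] using hzB)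
        (by rw [hx', hxz])
      rw [this]; exact hW3)
    filter_upwards [hV.mem_nhds hzV] with z' hz'
    have h1 : Function.surjInv hf.surj z' ∈ W := hVW _ (by rw [hs]; exact hz')
    have h2 := hW1 h1
    simp only [mem_ofPred_eq, Function.comp] at h2
    simp only [hH0]
    rw [h2, hs]
  have hbd : ∀ z ∈ U, ∃ C : ℝ, ∀ᶠ y in 𝓝 z, y ∉ B → ‖H0 y‖ ≤ C := by
    intro z hz
    have hK : IsCompact (f ⁻¹' {z}) := (isClosed_singleton.preimage hf.hol.1).isCompact
    obtain ⟨C, hC⟩ := hK.exists_bound_of_continuousOn (hcont.mono (by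
      intro x hx
      have : f x = z := hx
      show f x ∈ U
      rw [this]; exact hz))
    have hWo : IsOpen (f ⁻¹' U ∩ h ⁻¹' (Metric.ball 0 (C + 1))) :=
      hcont.isOpen_inter_preimage hfU Metric.isOpen_ball
    obtain ⟨V, hV, hzV, hVW⟩ := exists_tube hf.hol.1 (z := z) hWo (by
      intro x hx
      refine ⟨by show f x ∈ U; rw [hx]; exact hz, ?_⟩
      have := hC x hx
      show h x ∈ Metric.ball 0 (C + 1)
      rw [mem_ball_zero_iff]
      linarith)
    refine ⟨C + 1, ?_⟩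
    filter_upwards [hV.mem_nhds hzV] with z' hz' _
    have h1 := (hVW _ (show f (Function.surjInv hf.surj z') ∈ V by rw [hs]; exact hz')).2
    have h2 : h (Function.surjInv hf.surj z') ∈ Metric.ball 0 (C + 1) := h1
    rw [mem_ball_zero_iff] at h2
    exact h2.le
  obtain ⟨H, hH1, hH2⟩ := hZ U B H0 hU hB (hf.dense hU) hol0 hbd
  refine ⟨H, hH1, ?_⟩
  intro x hx
  have hg : ∀ x', f x' ∈ U → f x' ∉ B → h x' = H (f x') := by
    intro x' h1 h2
    rw [hH2 _ ⟨h1, h2⟩]
    simp only [hH0]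
    congr 1
    exact hf.inj (by simpa using h2) (by simpa [hs] using h2) (by rw [hs])
  have hfreq : ∃ᶠ x' in 𝓝 x, h x' = (H ∘ f) x' := by
    have h1 : ∃ᶠ x' in 𝓝 x, x' ∈ (f ⁻¹' B)ᶜ := by
      rw [← mem_closure_iff_frequently, closure_compl, hf.nowhereDense]
      simp
    have h2 : ∀ᶠ x' in 𝓝 x, x' ∈ f ⁻¹' U := hfU.mem_nhds hx
    exact (h1.and_eventually h2).mono fun x' ⟨a, b⟩ => hg x' b a
  have c1 : Tendsto h (𝓝 x) (𝓝 (h x)) := hol_continuousAt SX (hh x hx)
  have c2 : Tendsto (H ∘ f) (𝓝 x) (𝓝 ((H ∘ f) x)) :=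
    (hol_continuousAt SZ (hH1 _ hx)).comp hf.hol.1.continuousAt
  exact tendsto_nhds_unique_of_frequently_eq c1 c2 hfreq

theorem AnalyticIn.isClosed {S : ComplexSpace X} {B : Set X} (hB : AnalyticIn S univ B) :
    IsClosed B := by
  rw [← isOpen_compl_iff, isOpen_iff_mem_nhds]
  intro x hx
  obtain ⟨V, r, F, hV, hxV, hF, hFB⟩ := hB x (mem_univ x)
  have h1 : ¬ ∀ i, F i x = 0 := fun h => hx ((hFB x hxV).2 h)
  push Not at h1
  obtain ⟨i, hi⟩ := h1
  filter_upwards [hV.mem_nhds hxV, (hol_continuousAt S (hF i x hxV)).eventually_ne hi]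
    with y hy hy2
  intro hyB
  exact hy2 ((hFB y hy).1 hyB i)

/-- Holomorphic functions take at most `d` values on each fibre of `g`. -/
def CountProp (SY : ComplexSpace Y) (g : Y → Z) (d : ℕ) : Prop :=
  ∀ (U : Set Z) (h : Y → ℂ) (c : Fin (d + 1) → Y) (z : Z), IsOpen U → z ∈ U →
    (∀ y, g y ∈ U → SY.Hol h y) → (∀ i, g (c i) = z) → ¬ Function.Injective fun i => h (c i)

theorem countProp_modification [CompactSpace X] [T2Space Z] (hZ : IsNormal SZ) {f : X → Z}
    {B : Set Z} (hf : IsModification SX SZ f B) : CountProp SX f 1 := by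
  intro U h c z hU hz hh hc hinj
  obtain ⟨H, -, hH⟩ := descent hZ hf hU hh
  have h0 : h (c 0) = h (c 1) := by
    rw [hH (c 0) (by rw [hc]; exact hz), hH (c 1) (by rw [hc]; exact hz), hc, hc]
  exact absurd (hinj h0) (by simp)

/-- Holomorphic functions take finitely many values on each fibre of `g`. -/
def FinProp (SY : ComplexSpace Y) (g : Y → Z) : Prop :=
  ∀ (U : Set Z) (h : Y → ℂ) (z : Z), IsOpen U → z ∈ U →
    (∀ y, g y ∈ U → SY.Hol h y) → (h '' (g ⁻¹' {z})).Finite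

omit [TopologicalSpace X] in
theorem CountProp.finProp {g : Y → Z} {d : ℕ} (hc : CountProp SY g d) : FinProp SY g := by
  intro U h z hU hz hh
  by_contra hinf
  obtain ⟨t, ht, htc⟩ := Set.Infinite.exists_subset_card_eq hinf (d + 1)
  let e : Fin (d + 1) ≃ t := (Fintype.equivFinOfCardEq (by simp [htc])).symm
  have h1 : ∀ i, ∃ y, g y = z ∧ h y = (e i : ℂ) := fun i => by
    obtain ⟨y, hy, hye⟩ := ht (e i).2
    exact ⟨y, hy, hye⟩
  choose c hc1 hc2 using h1
  refine hc U h c z hU hz hh hc1 ?_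
  intro i j hij
  simp only [hc2] at hij
  exact e.injective (Subtype.ext hij)

end Vale.Agent.P277.H821
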