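import Vale.Agent.P277.H821.CoverProduct

/-! # Bundles with homogeneous fibres over bases without rational curves -/

open Topology Set Filter

namespace Vale.Agent.P277.H821

variable {X Y Z S : Type*} [TopologicalSpace X] [TopologicalSpace Y] [TopologicalSpace Z]
  [TopologicalSpace S]
variable {SX : ComplexSpace X} {SY : ComplexSpace Y} {SZ : ComplexSpace Z} {S₁ : ComplexSpace S}

/-- In a holomorphic family of maps, a contracted rational curve stays contracted. -/
theorem rat_family {P : Type*} [TopologicalSpace P] [T2Space Z] {g : Y → Z}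
    (hg : HolMap SY SZ g) {c : ℂ → Y} (hc : RatCurve SY c) {yi : Y}
    (hyi : Tendsto c (cocompact ℂ) (𝓝 yi)) {A : P → Y → Y} {p₀ : P}
    (hA : ∀ y ∈ insert yi (range c), ContinuousAt (fun r : P × Y => A r.1 r.2) (p₀, y))
    (hrat : ∀ᶠ p in 𝓝 p₀, RatCurve SY (fun x => A p (c x)) ∧
      Tendsto (fun x => A p (c x)) (cocompact ℂ) (𝓝 (A p yi)))
    (h0 : ∀ x, g (A p₀ (c x)) = g (A p₀ (c 0))) :
    ∀ᶠ p in 𝓝 p₀, ∀ x, g (A p (c x)) = g (A p (c 0)) := by
  obtain ⟨M, U₀, φ, hU₀, hzU₀, hφc, hφi, hφh⟩ := exists_chart SZ (g (A p₀ (c 0)))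
  have hinf : g (A p₀ yi) = g (A p₀ (c 0)) := by
    have h1 : Tendsto (fun x => g (A p₀ (c x))) (cocompact ℂ) (𝓝 (g (A p₀ yi))) :=
      (hg.1.tendsto _).comp hrat.self_of_nhds.2
    have h2 : Tendsto (fun x => g (A p₀ (c x))) (cocompact ℂ) (𝓝 (g (A p₀ (c 0)))) := by
      have h3 : (fun x => g (A p₀ (c x))) = fun _ => g (A p₀ (c 0)) := funext h0
      rw [h3]; exact tendsto_const_nhds
    exact tendsto_nhds_unique h1 h2
  have hP : IsCompact (insert yi (range c)) := hyi.isCompact_insert_range_of_cocompact hc.1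
  have h4 : ∀ᶠ p in 𝓝 p₀, ∀ y ∈ insert yi (range c), g (A p y) ∈ U₀ := by
    refine hP.eventually_forall_of_forall_eventually ?_
    intro y hy
    have h5 : ContinuousAt (fun r : P × Y => g (A r.1 r.2)) (p₀, y) :=
      hg.1.continuousAt.comp (hA y hy)
    refine h5.eventually (hU₀.mem_nhds ?_)
    rcases hy with rfl | ⟨x, rfl⟩
    · show g (A p₀ y) ∈ U₀
      rw [hinf]; exact hzU₀
    · show g (A p₀ (c x)) ∈ U₀
      rw [h0 x]; exact hzU₀
  filter_upwards [h4, hrat] with p hp hr x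
  have h5 := rat_const hr.1 hr.2 hg hφi hφh (fun x => hp _ (Or.inr ⟨x, rfl⟩)) (hp _ (Or.inl rfl))
  rw [h5 x, h5 0]

theorem infinite_of_rat' [T2Space Y] {c : ℂ → Y} (hc : Continuous c) {x x' : ℂ}
    (h : c x ≠ c x') : (range c).Infinite :=
  (isPreconnected_range hc).infinite_of_nontrivial ⟨c x, ⟨x, rfl⟩, c x', ⟨x', rfl⟩, h⟩

section main

variable [CompactSpace X] [CompactSpace Y] [T2Space X] [T2Space Y] [T2Space Z]
  {π : Y → X} {d : ℕ} {R : Set X} {f : X → Z} {B : Set Z}

/-- The locally trivial holomorphic fibre bundle `q : Y → S` has homogeneous fibres and its base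
`S` contains no rational curve. -/
def HomogeneousBundle.{u} {Y : Type u} [TopologicalSpace Y] (SY : ComplexSpace Y) : Prop :=
  ∃ (S : Type u) (_ : TopologicalSpace S) (_ : T2Space S) (S₁ : ComplexSpace S) (q : Y → S),
    IsBundle SY S₁ q ∧ NoRatCurve S₁ ∧ HomogeneousFibres SY q

theorem no_contracted_of_homogeneous (hY : HomogeneousBundle SY)
    (hf : IsModification SX SZ f B) (hπ : IsFiniteCover SY SX π d R) {c : ℂ → Y}
    (hc : RatCurve SY c) (h0 : ∀ x, (f ∘ π) (c x) = (f ∘ π) (c 0)) (x₁ : ℂ) : c x₁ = c 0 := by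
  classical
  by_contra hne
  obtain ⟨S, _, _, S₁, q, hq, hS, hhom⟩ := hY
  have hgh : HolMap SY SZ (f ∘ π) := hf.hol.comp hπ.hol
  set g : Y → Z := f ∘ π with hg
  obtain ⟨N, T, hN, hsN, hTc, hT⟩ := hq.triv (q (c 0))
  obtain ⟨N', H, _, _, _, _, a, hN', hsN', hac, ha⟩ := hhom (q (c 0))
  set s : S := q (c 0) with hs
  have hqc : ∀ x, q (c x) = s := fun x => hS _ (hc.map hq.hol) x 0
  obtain ⟨yi, hyi⟩ := hc.2.1
  have hqyi : q yi = s := by
    have h1 : Tendsto (fun x => q (c x)) (cocompact ℂ) (𝓝 (q yi)) :=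
      (hq.hol.1.tendsto yi).comp hyi
    have h2 : Tendsto (fun x => q (c x)) (cocompact ℂ) (𝓝 s) := by
      have h3 : (fun x => q (c x)) = fun _ => s := funext hqc
      rw [h3]; exact tendsto_const_nhds
    exact tendsto_nhds_unique h1 h2
  have hqK : ∀ y ∈ insert yi (range c), q y ∈ N := by
    rintro y (rfl | ⟨x, rfl⟩)
    · rw [hqyi]; exact hsN
    · rw [hqc]; exact hsN
  have hTat : ∀ y, q y ∈ N → ∀ t ∈ N, ContinuousAt (fun r : Y × S => T r.1 r.2) (y, t) :=
    fun y hy t ht => hTc.continuousAt (((hN.preimage hq.hol.1).prod hN).mem_nhds ⟨hy, ht⟩)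
  have hTs : ∀ x, T (c x) s = c x := by
    intro x
    have h1 := (hT (c x) s (by rw [hqc]; exact hsN) hsN).2.1
    rwa [hqc] at h1
  -- transported curves
  have hTy : ∀ y, q y ∈ N → ∀ t ∈ N, ContinuousAt (fun y => T y t) y := by
    intro y hy t ht
    have h2 : ContinuousAt (fun y : Y => ((y, t) : Y × S)) y := by fun_prop
    exact ContinuousAt.comp (g := fun r : Y × S => T r.1 r.2)
      (f := fun y : Y => ((y, t) : Y × S)) (x := y) (hTat y hy t ht) h2
  have hct : ∀ t ∈ N, RatCurve SY (fun x => T (c x) t) ∧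
      Tendsto (fun x => T (c x) t) (cocompact ℂ) (𝓝 (T yi t)) := by
    intro t ht
    have hlim : Tendsto (fun x => T (c x) t) (cocompact ℂ) (𝓝 (T yi t)) :=
      (hTy yi (by rw [hqyi]; exact hsN) t ht).tendsto.comp hyi
    refine ⟨⟨?_, ⟨_, hlim⟩, ?_⟩, hlim⟩
    · refine continuous_iff_continuousAt.2 fun x => ?_
      exact ContinuousAt.comp (g := fun y => T y t) (f := c) (x := x)
        (hTy (c x) (by rw [hqc]; exact hsN) t ht) hc.1.continuousAt
    · intro x h hh
      exact hc.2.2 x (fun y => h (T y t)) ((hT (c x) t (by rw [hqc]; exact hsN) ht).2.2.2 h hh).1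
  have e1 : ∀ᶠ t in 𝓝 s, t ∈ N := hN.mem_nhds hsN
  have hev : ∀ᶠ t in 𝓝 s, ∀ x, g (T (c x) t) = g (T (c 0) t) := by
    refine rat_family hgh hc hyi (A := fun t y => T y t) (p₀ := s) ?_ ?_ ?_
    · intro y hy
      have h2 : ContinuousAt (fun r : S × Y => ((r.2, r.1) : Y × S)) (s, y) := by fun_prop
      exact ContinuousAt.comp (g := fun r : Y × S => T r.1 r.2)
        (f := fun r : S × Y => ((r.2, r.1) : Y × S)) (x := (s, y)) (hTat y (hqK y hy) s hsN) h2
    · filter_upwards [e1] with t ht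
      exact hct t ht
    · intro x
      show g (T (c x) s) = g (T (c 0) s)
      rw [hTs, hTs]
      exact h0 x
  have hall : ∀ᶠ t in 𝓝 s, ∀ y, q y = t → g y ∈ B := by
    filter_upwards [hev, e1, hN'.mem_nhds hsN'] with t ht htN htN' y hy
    obtain ⟨hcr, hclim⟩ := hct t htN
    have hqt : ∀ x, q (T (c x) t) = t := fun x =>
      (hT (c x) t (by rw [hqc]; exact hsN) htN).1
    have hqti : q (T yi t) = t := (hT yi t (by rw [hqyi]; exact hsN) htN).1
    have hcne : T (c x₁) t ≠ T (c 0) t := by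
      intro h
      have h1 := (hT (c x₁) t (by rw [hqc]; exact hsN) htN).2.2.1 s hsN
      have h2 := (hT (c 0) t (by rw [hqc]; exact hsN) htN).2.2.1 s hsN
      rw [hTs] at h1 h2
      exact hne (by rw [← h1, ← h2, h])
    have hqK' : ∀ y ∈ insert (T yi t) (range fun x => T (c x) t), q y ∈ N' := by
      rintro y (rfl | ⟨x, rfl⟩)
      · rw [hqti]; exact htN'
      · show q (T (c x) t) ∈ N'
        rw [hqt]; exact htN'
    have haat : ∀ y, q y ∈ N' → ∀ p : H, ContinuousAt (fun r : H × Y => a r.1 r.2) (p, y) :=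
      fun y hy p => hac.continuousAt
        ((isOpen_univ.prod (hN'.preimage hq.hol.1)).mem_nhds ⟨mem_univ _, hy⟩)
    have hay : ∀ y, q y ∈ N' → ∀ p : H, ContinuousAt (a p) y := by
      intro y hy p
      have h2 : ContinuousAt (fun y : Y => ((p, y) : H × Y)) y := by fun_prop
      exact ContinuousAt.comp (g := fun r : H × Y => a r.1 r.2)
        (f := fun y : Y => ((p, y) : H × Y)) (x := y) (haat y hy p) h2
    have hqtN : ∀ x, q (T (c x) t) ∈ N' := fun x => by rw [hqt]; exact htN'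
    have hcp : ∀ p : H, RatCurve SY (fun x => a p (T (c x) t)) ∧
        Tendsto (fun x => a p (T (c x) t)) (cocompact ℂ) (𝓝 (a p (T yi t))) := by
      intro p
      have hlim : Tendsto (fun x => a p (T (c x) t)) (cocompact ℂ) (𝓝 (a p (T yi t))) :=
        (hay (T yi t) (by rw [hqti]; exact htN') p).tendsto.comp hclim
      refine ⟨⟨?_, ⟨_, hlim⟩, ?_⟩, hlim⟩
      · refine continuous_iff_continuousAt.2 fun x => ?_
        exact ContinuousAt.comp (g := a p) (f := fun x => T (c x) t) (x := x)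
          (hay _ (hqtN x) p) hcr.1.continuousAt
      · intro x h hh
        exact hcr.2.2 x (fun y => h (a p y)) ((ha _ (hqtN x)).2.2.2.1 p h hh)
    set P : Set H := {p | ∀ x, g (a p (T (c x) t)) = g (a p (T (c 0) t))} with hP
    have hgp : ∀ x, Continuous fun p : H => g (a p (T (c x) t)) := by
      intro x
      refine continuous_iff_continuousAt.2 fun p => ?_
      have h2 : ContinuousAt (fun p : H => ((p, T (c x) t) : H × Y)) p := by fun_prop
      exact hgh.1.continuousAt.comp (ContinuousAt.comp (g := fun r : H × Y => a r.1 r.2)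
        (f := fun p : H => ((p, T (c x) t) : H × Y)) (x := p) (haat _ (hqtN x) p) h2)
    have hPc : IsClosed P := by
      have : P = ⋂ x, {p | g (a p (T (c x) t)) = g (a p (T (c 0) t))} := by ext p; simp [hP]
      rw [this]
      exact isClosed_iInter fun x => isClosed_eq (hgp x) (hgp 0)
    have hPo : IsOpen P := by
      rw [isOpen_iff_mem_nhds]
      intro p hp
      exact rat_family hgh hcr hclim (A := a) (p₀ := p)
        (fun y hy => haat y (hqK' y hy) p) (Eventually.of_forall hcp) hp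
    have hPu : P = univ := IsClopen.eq_univ ⟨hPc, hPo⟩ ⟨1, fun x => by
      rw [(ha _ (hqtN x)).1, (ha _ (hqtN 0)).1]
      exact ht x⟩
    obtain ⟨p, hp⟩ := (ha _ (hqtN 0)).2.2.2.2 y (by rw [hy, hqt])
    have hpP : p ∈ P := hPu ▸ mem_univ p
    rw [← hp]
    refine mem_of_infinite hf hπ (K := range fun x => a p (T (c x) t)) ?_ ?_
    · refine infinite_of_rat' (hcp p).1.1 (x := x₁) (x' := 0) ?_
      intro h
      have h1 := (ha _ (hqtN x₁)).2.1 p⁻¹ p
      have h2 := (ha _ (hqtN 0)).2.1 p⁻¹ p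
      rw [inv_mul_cancel, (ha _ (hqtN x₁)).1] at h1
      rw [inv_mul_cancel, (ha _ (hqtN 0)).1] at h2
      have h' : a p (T (c x₁) t) = a p (T (c 0) t) := h
      rw [h'] at h1
      exact hcne (h1.trans h2.symm)
    · rintro _ ⟨x, rfl⟩
      exact hpP x
  have h4 : c 0 ∈ interior (g ⁻¹' B) := by
    rw [mem_interior_iff_mem_nhds]
    filter_upwards [(hq.hol.1.tendsto (c 0)).eventually hall] with y hy
    exact hy y rfl
  rw [interior_preimage hf hπ] at h4
  exact h4

end main

end Vale.Agent.P277.H821
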