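import Vale.Agent.P277.H821.Basic

/-! # Identity theorem for holomorphic self-maps of irreducible spaces -/

open Topology Set Filter

namespace Vale.Agent.P277.H821

variable {Y : Type*} [TopologicalSpace Y] {SY : ComplexSpace Y}

theorem eq_id_near_regular [T2Space Y] {n : ℕ} {b : Y → Y} (hb : HolMap SY SY b) {y : Y}
    (hreg : RegularAt SY n y) (hy : y ∈ closure (interior {y | b y = y})) :
    y ∈ interior {y | b y = y} := by
  classical
  have hfix : IsClosed {y | b y = y} := isClosed_eq hb.1 continuous_id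
  have hby : b y = y := hfix.closure_subset_iff.2 interior_subset hy
  obtain ⟨U, φ, hU, hyU, hemb, hφU, hm⟩ := hreg
  have hφc : ContinuousOn φ U := contOn_of_embedding hemb
  have hφi : InjOn φ U := injOn_of_embedding hemb
  have hcoord : ∀ y' ∈ U, ∀ j, SY.Hol (fun y => φ y j) y' := by
    intro y' hy' j
    refine (hm y' hy' _).2 ⟨fun w => w j, ?_, Eventually.of_forall fun y => rfl⟩
    exact (ContinuousLinearMap.proj (R := ℂ) (φ := fun _ : Fin n => ℂ) j).analyticAt _
  -- the chart is open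
  have hopen : ∀ O ⊆ U, IsOpen O → IsOpen (φ '' O) := by
    intro O hOU hO
    have h1 : IsOpen (Subtype.val ⁻¹' O : Set U) := hO.preimage continuous_subtype_val
    obtain ⟨O', hO', hOO⟩ := hemb.isOpen_iff.1 h1
    have h2 : φ '' O = O' ∩ φ '' U := by
      ext w
      constructor
      · rintro ⟨u, hu, rfl⟩
        refine ⟨?_, ⟨u, hOU hu, rfl⟩⟩
        have h3 : (⟨u, hOU hu⟩ : U) ∈ (Subtype.val ⁻¹' O : Set U) := hu
        rw [← hOO] at h3
        exact h3
      · rintro ⟨hw, ⟨u, hu, rfl⟩⟩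
        refine ⟨u, ?_, rfl⟩
        have h3 : (⟨u, hu⟩ : U) ∈ (U.domRestrict φ) ⁻¹' O' := hw
        rw [hOO] at h3
        exact h3
    rw [h2]
    exact hO'.inter hφU
  set U' : Set Y := U ∩ b ⁻¹' U with hU'
  have hU'o : IsOpen U' := hU.inter (hU.preimage hb.1)
  have hyU' : y ∈ U' := ⟨hyU, by show b y ∈ U; rw [hby]; exact hyU⟩
  have hφU' : IsOpen (φ '' U') := hopen U' inter_subset_left hU'o
  obtain ⟨r, hr, hball⟩ := Metric.isOpen_iff.1 hφU' (φ y) ⟨y, hyU', rfl⟩
  have hch : ∀ w ∈ Metric.ball (φ y) r, ∃ u, u ∈ U' ∧ φ u = w := fun w hw => hball hw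
  have : Nonempty Y := ⟨y⟩
  choose! ψ hψU hψ using hch
  set D := Metric.ball (φ y) r with hD
  set YD : Set Y := U' ∩ φ ⁻¹' D with hYD
  have hYDo : IsOpen YD := (hφc.mono inter_subset_left).isOpen_inter_preimage hU'o
    Metric.isOpen_ball
  have hyYD : y ∈ YD := ⟨hyU', Metric.mem_ball_self hr⟩
  have hψφ : ∀ u ∈ YD, ψ (φ u) = u := fun u hu =>
    hφi (hψU _ hu.2).1 hu.1.1 (hψ _ hu.2)
  have hψc : ∀ w ∈ D, ∀ V : Set Y, V ∈ 𝓝 (ψ w) → ∀ᶠ w' in 𝓝 w, ψ w' ∈ V := by
    intro w hw V hV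
    have hwYD : ψ w ∈ YD := ⟨hψU w hw, by show φ (ψ w) ∈ D; rw [hψ w hw]; exact hw⟩
    have h1 : IsOpen (φ '' (interior V ∩ YD)) :=
      hopen _ (fun u hu => hu.2.1.1) (isOpen_interior.inter hYDo)
    have h2 : w ∈ φ '' (interior V ∩ YD) :=
      ⟨ψ w, ⟨mem_interior_iff_mem_nhds.2 hV, hwYD⟩, hψ w hw⟩
    filter_upwards [h1.mem_nhds h2] with w' hw'
    obtain ⟨u, hu, rfl⟩ := hw'
    rw [hψφ u hu.2]
    exact interior_subset hu.1
  have hG : ∀ j, ∀ w ∈ D, φ (b (ψ w)) j - w j = 0 := by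
    intro j
    have hGan : AnalyticOnNhd ℂ (fun w => φ (b (ψ w)) j - w j) D := by
      intro w hw
      have h1 : SY.Hol (fun y' => φ (b y') j) (ψ w) :=
        hb.2 (ψ w) (fun y => φ y j) (hcoord _ (hψU w hw).2 j)
      obtain ⟨F, hF, hFe⟩ := (hm (ψ w) (hψU w hw).1 _).1 h1
      rw [hψ w hw] at hF
      have h2 : AnalyticAt ℂ (fun w' : Cn n => F w' - w' j) w :=
        hF.sub ((ContinuousLinearMap.proj (R := ℂ) (φ := fun _ : Fin n => ℂ) j).analyticAt _)
      refine h2.congr ?_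
      filter_upwards [hψc w hw _ hFe, Metric.isOpen_ball.mem_nhds hw] with w' hw' hw'D
      have h3 : φ (b (ψ w')) j = F (φ (ψ w')) := hw'
      rw [hψ w' hw'D] at h3
      simp only [h3]
    have hconv : IsPreconnected D := (convex_ball _ _).isPreconnected
    obtain ⟨u, huYD, huE⟩ := mem_closure_iff.1 hy YD hYDo hyYD
    have h4 : (fun w => φ (b (ψ w)) j - w j) =ᶠ[𝓝 (φ u)] 0 := by
      have h5 := hψc (φ u) huYD.2 (interior {y | b y = y}) (by
        rw [hψφ u huYD]; exact isOpen_interior.mem_nhds huE)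
      filter_upwards [h5, Metric.isOpen_ball.mem_nhds huYD.2] with w' hw' hw'D
      have h6 : b (ψ w') = ψ w' := (interior_subset hw' : ψ w' ∈ {y | b y = y})
      simp only [h6, hψ w' hw'D, Pi.zero_apply, sub_self]
    intro w hw
    exact hGan.eqOn_zero_of_preconnected_of_eventuallyEq_zero hconv huYD.2 h4 hw
  rw [mem_interior]
  refine ⟨YD, ?_, hYDo, hyYD⟩
  intro u hu
  have h7 : φ (b (ψ (φ u))) = φ u := by
    funext j
    have := hG j (φ u) hu.2
    linear_combination this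
  rw [hψφ u hu] at h7
  exact hφi hu.1.2 hu.1.1 h7

/-- A holomorphic self-map of an irreducible space which is the identity on a nonempty open set
is the identity. -/
theorem eq_id_of_eqOn_open [T2Space Y] {n : ℕ} (hirr : IrreducibleOfDim SY n) {b : Y → Y}
    (hb : HolMap SY SY b) {O : Set Y} (hO : IsOpen O) (hne : O.Nonempty)
    (h : ∀ y ∈ O, b y = y) (y : Y) : b y = y := by
  have hfix : IsClosed {y | b y = y} := isClosed_eq hb.1 continuous_id
  set E := interior {y | b y = y} with hE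
  have hOE : O ⊆ E := interior_maximal h hO
  obtain ⟨hconn, hdense⟩ := hirr
  have hsub : {x | RegularAt SY n x} ⊆ E ∪ (closure E)ᶜ := by
    intro x hx
    by_cases hxE : x ∈ closure E
    · exact Or.inl (eq_id_near_regular hb hx hxE)
    · exact Or.inr hxE
  obtain ⟨x₀, hx₀O, hx₀⟩ := hdense.inter_open_nonempty O hO hne
  have hsub2 : {x | RegularAt SY n x} ⊆ E := by
    intro x hx
    rcases hsub hx with h1 | h1
    · exact h1
    · exfalso
      obtain ⟨x', -, hx'1, hx'2⟩ := hconn E (closure E)ᶜ isOpen_interior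
        isClosed_closure.isOpen_compl hsub ⟨x₀, hx₀, hOE hx₀O⟩ ⟨x, hx, h1⟩
      exact hx'2 (subset_closure hx'1)
  have h2 : closure {x | RegularAt SY n x} ⊆ {y | b y = y} :=
    hfix.closure_subset_iff.2 (hsub2.trans interior_subset)
  exact h2 (hdense y)

end Vale.Agent.P277.H821
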