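import Mathlib

/-! # Zeros of functions of two variables are not isolated; closed subgroups of `ℂ^k` -/

open Topology Set Filter

namespace Vale.Agent.P277.H821

theorem nonisolated_zero {F : ℂ × ℂ → ℂ} (hF : AnalyticAt ℂ F ((0 : ℂ), (0 : ℂ)))
    (h0 : F ((0 : ℂ), (0 : ℂ)) = 0) : ∃ᶠ p in 𝓝[≠] ((0 : ℂ), (0 : ℂ)), F p = 0 := by
  by_contra hcon
  rw [not_frequently, eventually_nhdsWithin_iff] at hcon
  have h1 := hcon.and hF.eventually_analyticAt
  obtain ⟨ρ, hρ, hball⟩ := Metric.eventually_nhds_iff_ball.1 h1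
  set r := ρ / 2 with hr
  have hr0 : 0 < r := by positivity
  have hin : ∀ s t : ℂ, ‖s‖ ≤ r → ‖t‖ ≤ r → ((s, t) : ℂ × ℂ) ∈ Metric.ball ((0 : ℂ), (0 : ℂ)) ρ := by
    intro s t hs ht
    rw [Metric.mem_ball, dist_eq_norm]
    have : ((s, t) : ℂ × ℂ) - (0, 0) = (s, t) := by simp
    rw [this, Prod.norm_mk]
    exact lt_of_le_of_lt (max_le hs ht) (by rw [hr]; linarith)
  have hne : ∀ s t : ℂ, ‖s‖ ≤ r → ‖t‖ ≤ r → (s ≠ 0 ∨ t ≠ 0) → F (s, t) ≠ 0 := by
    intro s t hs ht h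
    refine (hball _ (hin s t hs ht)).1 ?_
    simp only [mem_compl_iff, mem_singleton_iff, Prod.mk.injEq, not_and_or]
    exact h
  have han : ∀ s t : ℂ, ‖s‖ ≤ r → ‖t‖ ≤ r → AnalyticAt ℂ F (s, t) := fun s t hs ht =>
    (hball _ (hin s t hs ht)).2
  have hK : IsCompact (Metric.sphere (0 : ℂ) r) := isCompact_sphere 0 r
  have hc : ContinuousOn (fun t : ℂ => ‖F (0, t)‖) (Metric.sphere (0 : ℂ) r) := by
    intro t ht
    rw [mem_sphere_zero_iff_norm] at ht
    have h2 : ContinuousAt F (0, t) := (han 0 t (by simp [hr0.le]) ht.le).continuousAt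
    have h3 : ContinuousAt (fun t : ℂ => ‖F (0, t)‖) t :=
      (h2.comp (f := fun t : ℂ => ((0 : ℂ), t)) (by fun_prop)).norm
    exact h3.continuousWithinAt
  obtain ⟨t₀, ht₀, hmin⟩ := hK.exists_isMinOn (NormedSpace.sphere_nonempty.2 hr0.le) hc
  set m := ‖F (0, t₀)‖ with hm
  have ht₀' : ‖t₀‖ = r := mem_sphere_zero_iff_norm.1 ht₀
  have hm0 : 0 < m := by
    refine norm_pos_iff.2 (hne 0 t₀ (by simp [hr0.le]) ht₀'.le (Or.inr ?_))
    intro h
    rw [h, norm_zero] at ht₀'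
    exact hr0.ne ht₀'
  have e1 : ∀ᶠ s in 𝓝 (0 : ℂ), ∀ t ∈ Metric.sphere (0 : ℂ) r, m / 2 < ‖F (s, t)‖ := by
    refine hK.eventually_forall_of_forall_eventually ?_
    intro t ht
    have ht' : ‖t‖ = r := mem_sphere_zero_iff_norm.1 ht
    have h2 : ContinuousAt F (0, t) := (han 0 t (by simp [hr0.le]) ht'.le).continuousAt
    have h3 : m / 2 < ‖F (0, t)‖ := by
      have : m ≤ ‖F (0, t)‖ := hmin ht
      linarith
    exact h2.norm.eventually (lt_mem_nhds h3)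
  have e2 : ∀ᶠ s in 𝓝 (0 : ℂ), ‖F (s, 0)‖ < m / 2 := by
    have h2 : ContinuousAt F (0, 0) := hF.continuousAt
    have h3 : ContinuousAt (fun s : ℂ => ‖F (s, 0)‖) 0 :=
      (h2.comp (f := fun s : ℂ => (s, (0 : ℂ))) (by fun_prop)).norm
    exact h3.eventually (gt_mem_nhds (by simp only [h0, norm_zero]; positivity))
  have e3 : ∀ᶠ s in 𝓝 (0 : ℂ), ‖s‖ < r := by
    filter_upwards [Metric.ball_mem_nhds (0 : ℂ) hr0] with s hs
    exact mem_ball_zero_iff.1 hs
  have e4 : ∀ᶠ s in 𝓝[≠] (0 : ℂ), s ≠ 0 := self_mem_nhdsWithin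
  obtain ⟨s, ⟨h1s, h2s, h3s⟩, h4s⟩ :=
    (((e1.and (e2.and e3)).filter_mono nhdsWithin_le_nhds).and e4).exists
  have hd : DiffContOnCl ℂ (fun t => (F (s, t))⁻¹) (Metric.ball (0 : ℂ) r) := by
    apply DifferentiableOn.diffContOnCl
    intro t ht
    rw [closure_ball _ hr0.ne', mem_closedBall_zero_iff] at ht
    have h5 : DifferentiableAt ℂ F (s, t) := (han s t h3s.le ht).differentiableAt
    have h6 : DifferentiableAt ℂ (fun t => F (s, t)) t :=
      DifferentiableAt.comp t (f := fun t : ℂ => (s, t)) h5 (by fun_prop)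
    exact (h6.inv (hne s t h3s.le ht (Or.inl h4s))).differentiableWithinAt
  have hfin := Complex.norm_le_of_forall_mem_frontier_norm_le Metric.isBounded_ball hd
    (C := 2 / m) (z := 0) (by
      intro t ht
      rw [frontier_ball _ hr0.ne'] at ht
      have h7 := h1s t ht
      rw [norm_inv]
      rw [inv_le_comm₀ (by linarith) (by positivity)]
      rw [inv_div]
      exact h7.le)
    (subset_closure (Metric.mem_ball_self hr0))
  rw [norm_inv, inv_le_comm₀ (norm_pos_iff.2 (hne s 0 h3s.le (by simp [hr0.le]) (Or.inl h4s)))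
    (by positivity), inv_div] at hfin
  linarith

/-- A closed set stable under integer multiples, in a finite-dimensional space, with arbitrarily
small nonzero elements contains a real line. -/
theorem exists_real_line {E : Type*} [NormedAddCommGroup E] [NormedSpace ℝ E]
    [FiniteDimensional ℝ E] (S : Set E) (hS : IsClosed S) (hZ : ∀ v ∈ S, ∀ m : ℤ, m • v ∈ S)
    (hsmall : ∀ ε > 0, ∃ v ∈ S, v ≠ 0 ∧ ‖v‖ < ε) :
    ∃ w : E, w ≠ 0 ∧ ∀ t : ℝ, t • w ∈ S := by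
  choose v hvS hv0 hvn using fun n : ℕ => hsmall (1 / ((n : ℝ) + 1)) (by positivity)
  have hvpos : ∀ n, 0 < ‖v n‖ := fun n => norm_pos_iff.2 (hv0 n)
  have hlim : Tendsto (fun n => ‖v n‖) atTop (𝓝 0) :=
    squeeze_zero (fun n => norm_nonneg _) (fun n => (hvn n).le) tendsto_one_div_add_atTop_nhds_zero_nat
  let w : ℕ → E := fun n => (‖v n‖)⁻¹ • v n
  have hw : ∀ n, w n ∈ Metric.sphere (0 : E) 1 := by
    intro n
    rw [mem_sphere_zero_iff_norm, norm_smul, norm_inv, norm_norm]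
    exact inv_mul_cancel₀ (hvpos n).ne'
  have : ProperSpace E := FiniteDimensional.proper_real E
  obtain ⟨w₀, hw₀, φ, hφ, hlimw⟩ := (isCompact_sphere (0 : E) 1).tendsto_subseq hw
  refine ⟨w₀, ?_, ?_⟩
  · intro h
    rw [mem_sphere_zero_iff_norm, h, norm_zero] at hw₀
    exact zero_ne_one hw₀
  intro t
  have hm : ∀ n, ((⌊t / ‖v n‖⌋ : ℝ) * ‖v n‖) • w n ∈ S := by
    intro n
    have h1 : ((⌊t / ‖v n‖⌋ : ℝ) * ‖v n‖) • w n = ⌊t / ‖v n‖⌋ • v n := by
      simp only [w]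
      rw [smul_smul, mul_assoc, mul_inv_cancel₀ (hvpos n).ne', mul_one, Int.cast_smul_eq_zsmul]
    rw [h1]
    exact hZ _ (hvS n) _
  have hlim2 : Tendsto (fun n => (⌊t / ‖v n‖⌋ : ℝ) * ‖v n‖) atTop (𝓝 t) := by
    rw [tendsto_iff_norm_sub_tendsto_zero]
    refine squeeze_zero (fun n => norm_nonneg _) (fun n => ?_) hlim
    have h1 := Int.floor_le (t / ‖v n‖)
    have h2 := Int.lt_floor_add_one (t / ‖v n‖)
    rw [le_div_iff₀ (hvpos n)] at h1
    rw [div_lt_iff₀ (hvpos n)] at h2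
    rw [Real.norm_eq_abs, abs_le]
    constructor <;> nlinarith [hvpos n]
  have hlim3 : Tendsto (fun n => ((⌊t / ‖v (φ n)‖⌋ : ℝ) * ‖v (φ n)‖) • w (φ n)) atTop
      (𝓝 (t • w₀)) := (hlim2.comp hφ.tendsto_atTop).smul hlimw
  exact hS.mem_of_tendsto hlim3 (Eventually.of_forall fun n => hm _)

end Vale.Agent.P277.H821
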