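import Vale.Agent.P277.H821.Blanchard
import Vale.Agent.P277.H821.TwoVar

/-! # A two-parameter family of one-parameter groups contains one preserving a given positive
dimensional component of a fibre -/

open Topology Set Filter

namespace Vale.Agent.P277.H821

variable {X Y Z : Type*} [TopologicalSpace X] [TopologicalSpace Y] [TopologicalSpace Z]
variable {SX : ComplexSpace X} {SY : ComplexSpace Y} {SZ : ComplexSpace Z}
variable [CompactSpace X] [CompactSpace Y] [T2Space X] [T2Space Y] [T2Space Z]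
variable {π : Y → X} {d : ℕ} {R : Set X} {f : X → Z} {B : Set Z}

theorem isCompact_component {g : Y → Z} (hg : Continuous g) {z : Z} {y : Y} (hy : g y = z) :
    IsCompact (connectedComponentIn (g ⁻¹' {z}) y) := by
  have hCc : IsCompact (g ⁻¹' {z}) := (isClosed_singleton.preimage hg).isCompact
  have : CompactSpace (g ⁻¹' {z} : Set Y) := isCompact_iff_compactSpace.1 hCc
  rw [connectedComponentIn_eq_image (show y ∈ g ⁻¹' {z} from hy)]
  exact isClosed_connectedComponent.isCompact.image continuous_subtype_val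

/-- A family of holomorphic self-maps indexed by `ℂ^k` which is a one-parameter group on each
line and depends analytically on the parameter. -/
structure IsFamily (SY : ComplexSpace Y) (k : ℕ) (e : Cn k → Y → Y) : Prop where
  continuous : Continuous (fun p : Cn k × Y => e p.1 p.2)
  zero_act : ∀ y, e 0 y = y
  add_act : ∀ (s t : ℂ) (v : Cn k) (y : Y), e ((s + t) • v) y = e (s • v) (e (t • v) y)
  hol_act : ∀ v, HolMap SY SY (e v)
  hol_orbit : ∀ (y : Y) (v : Cn k) (h : Y → ℂ), SY.Hol h (e v y) →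
    AnalyticAt ℂ (fun w => h (e w y)) v

omit [T2Space Y] in
theorem IsFamily.bl [CompactSpace Z] {k : ℕ} {e : Cn k → Y → Y} (he : IsFamily SY k e)
    {g : Y → Z} (hg : HolMap SY SZ g) (hO : FinProp SY g) (v : Cn k) : Bl g (e v) := by
  have h1 := blanchard_vec (E := ℂ) (a := fun ζ : ℂ => e (ζ • v)) hg hO ?_ ?_ ?_ ?_ 1
  · simpa using h1
  · have : Continuous fun p : ℂ × Y => ((p.1 • v, p.2) : Cn k × Y) := by fun_prop
    exact he.continuous.comp this
  · intro y; simp only [zero_smul]; exact he.zero_act y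
  · intro s t y; exact he.add_act s t v y
  · intro ζ; exact he.hol_act _

theorem exists_line_stab [CompactSpace Z] (hX : IsNormal SX) (hZ : IsNormal SZ)
    (hf : IsModification SX SZ f B) (hdim : DimLE SZ 1 B)
    (hπ : IsFiniteCover SY SX π d R) {c₀ : Y}
    (hc₀ : (connectedComponentIn ((f ∘ π) ⁻¹' {(f ∘ π) c₀}) c₀).Infinite) {k : ℕ}
    (hk : 2 ≤ k) {a : Cn k → Y → Y} (ha : IsFamily SY k a) :
    ∃ w : Cn k, w ≠ 0 ∧ ∀ ζ : ℂ, ∀ u ∈ connectedComponentIn ((f ∘ π) ⁻¹' {(f ∘ π) c₀}) c₀,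
      a (ζ • w) u ∈ connectedComponentIn ((f ∘ π) ⁻¹' {(f ∘ π) c₀}) c₀ := by
  classical
  set g : Y → Z := f ∘ π with hg
  have hgh : HolMap SY SZ g := hf.hol.comp hπ.hol
  have hcp : CountProp SY g d := countProp_cover hX hZ hf hπ
  have hBl : ∀ v, Bl g (a v) := fun v => ha.bl hgh hcp.finProp v
  set z₀ : Z := g c₀ with hz₀
  set K₀ := connectedComponentIn (g ⁻¹' {z₀}) c₀ with hK₀
  have hcK : c₀ ∈ K₀ := mem_connectedComponentIn rfl
  have hKg : ∀ y ∈ K₀, g y = z₀ := fun y hy =>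
    (connectedComponentIn_subset (g ⁻¹' {z₀}) c₀ hy : y ∈ g ⁻¹' {z₀})
  have hKc : IsCompact K₀ := isCompact_component hgh.1 rfl
  -- continuity of orbit maps
  have horb : ∀ y, Continuous fun v => a v y := fun y =>
    ha.continuous.comp (Continuous.prodMk_left y)
  -- stabiliser
  have hstab : ∀ v, ∀ u ∈ K₀, a v u ∈ K₀ → ∀ u' ∈ K₀, a v u' ∈ K₀ := by
    intro v u hu hvu u' hu'
    have h1 : IsPreconnected (a v '' K₀) :=
      isPreconnected_connectedComponentIn.image _ (ha.hol_act v).1.continuousOn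
    have h2 : a v '' K₀ ⊆ g ⁻¹' {z₀} := by
      rintro _ ⟨u₁, hu₁, rfl⟩
      have h3 := hBl v K₀ isPreconnected_connectedComponentIn
        (fun y hy y' hy' => (hKg y hy).trans (hKg y' hy').symm) u₁ hu₁ u hu
      show g (a v u₁) = z₀
      rw [h3]; exact hKg _ hvu
    have h3 := h1.subset_connectedComponentIn (mem_image_of_mem _ hu) h2
    rw [← connectedComponentIn_eq hvu] at h3
    exact h3 ⟨u', hu', rfl⟩
  have hadd1 : ∀ (s t : ℂ) (v : Cn k) (y : Y), a ((s + t) • v) y = a (s • v) (a (t • v) y) :=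
    ha.add_act
  have hneg : ∀ v y, a (-v) (a v y) = y := by
    intro v y
    have h1 := hadd1 (-1) 1 v y
    rw [neg_add_cancel, zero_smul, ha.zero_act, neg_smul, one_smul] at h1
    exact h1.symm
  set S : Set (Cn k) := {v | a v c₀ ∈ K₀} with hS
  have hSK : ∀ v ∈ S, ∀ u ∈ K₀, a v u ∈ K₀ := fun v hv u hu => hstab v c₀ hcK hv u hu
  have hSneg : ∀ v ∈ S, -v ∈ S := by
    intro v hv
    show a (-v) c₀ ∈ K₀
    refine hstab (-v) (a v c₀) hv ?_ c₀ hcK
    rw [hneg]; exact hcK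
  have hSnat : ∀ v ∈ S, ∀ m : ℕ, m • v ∈ S := by
    intro v hv m
    induction m with
    | zero =>
      show a ((0 : ℕ) • v) c₀ ∈ K₀
      rw [zero_smul, ha.zero_act]; exact hcK
    | succ m ih =>
      show a ((m + 1) • v) c₀ ∈ K₀
      have h1 := hadd1 (m : ℂ) 1 v c₀
      rw [one_smul] at h1
      have h2 : ((m : ℂ) + 1) • v = (m + 1) • v := by
        rw [← Nat.cast_smul_eq_nsmul ℂ]; push_cast; rfl
      have h3 : (m : ℂ) • v = m • v := Nat.cast_smul_eq_nsmul ℂ m v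
      rw [h2, h3] at h1
      rw [h1]
      exact hSK _ ih _ hv
  have hSint : ∀ v ∈ S, ∀ m : ℤ, m • v ∈ S := by
    intro v hv m
    obtain ⟨n, rfl | rfl⟩ := m.eq_nat_or_neg
    · rw [natCast_zsmul]; exact hSnat v hv n
    · rw [neg_smul, natCast_zsmul]; exact hSneg _ (hSnat v hv n)
  have hSclosed : IsClosed S := hKc.isClosed.preimage (horb c₀)
  -- the orbit stays in `B`
  have hainj : ∀ v, Function.Injective (a v) := by
    intro v y y' h
    rw [← hneg v y, h, hneg]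
  have hzB : ∀ v, g (a v c₀) ∈ B := fun v => mem_of_bl hf hπ hc₀ (hBl v) (hainj v)
  have hz₀B : z₀ ∈ B := by
    have := hzB 0
    rwa [ha.zero_act] at this
  obtain ⟨q, hq1, hq2⟩ := hdim z₀ hz₀B
  set u : Cn k → ℂ := fun v => q 0 (g (a v c₀)) with hu
  have hu_an : AnalyticAt ℂ u 0 := by
    refine ha.hol_orbit c₀ 0 (q 0 ∘ g) ?_
    refine hgh.2 _ (q 0) ?_
    rw [ha.zero_act]
    exact hq1 0
  have hu0 : u 0 = q 0 z₀ := by simp only [hu, ha.zero_act]; rfl
  have hu_iff : ∀ᶠ v in 𝓝 (0 : Cn k), u v = u 0 → v ∈ S := by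
    have t1 : Tendsto (fun v => a v c₀) (𝓝 0) (𝓝 c₀) := by
      have := (horb c₀).tendsto 0
      rwa [ha.zero_act] at this
    have t2 : Tendsto (fun v => g (a v c₀)) (𝓝 0) (𝓝 z₀) := (hgh.1.tendsto c₀).comp t1
    filter_upwards [t2.eventually hq2,
      t1.eventually (hcp.component_nhds hgh.1 z₀ (g ⁻¹' {z₀}) rfl (y₀ := c₀) rfl)] with v h1 h2 h3
    have h4 : g (a v c₀) = z₀ := by
      refine h1 (hzB v) fun i => ?_
      have : i = 0 := Subsingleton.elim _ _
      subst this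
      rw [← hu0, ← h3]
    exact h2 h4
  have hu_S : ∀ v ∈ S, u v = u 0 := by
    intro v hv
    rw [hu0]
    show q 0 (g (a v c₀)) = q 0 z₀
    rw [hKg _ hv]
  -- small elements of S
  let i0 : Fin k := ⟨0, by omega⟩
  let i1 : Fin k := ⟨1, by omega⟩
  let L : ℂ × ℂ →L[ℂ] Cn k :=
    (ContinuousLinearMap.fst ℂ ℂ ℂ).smulRight (Pi.single i0 (1 : ℂ) : Cn k) +
    (ContinuousLinearMap.snd ℂ ℂ ℂ).smulRight (Pi.single i1 (1 : ℂ) : Cn k)
  have hL : ∀ p : ℂ × ℂ, L p = p.1 • (Pi.single i0 (1 : ℂ) : Cn k) + p.2 • Pi.single i1 (1 : ℂ) :=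
    fun p => rfl
  have hL0 : L 0 = 0 := map_zero L
  have hi01 : i0 ≠ i1 := by simp [i0, i1, Fin.ext_iff]
  have hLinj : ∀ p, L p = 0 → p = 0 := by
    intro p hp
    have h1 := congrFun hp i0
    have h2 := congrFun hp i1
    rw [hL] at h1 h2
    simp [hi01, hi01.symm] at h1 h2
    exact Prod.ext h1 h2
  have hsmall : ∀ ε > 0, ∃ v ∈ S, v ≠ 0 ∧ ‖v‖ < ε := by
    intro ε hε
    have hF : AnalyticAt ℂ (fun p : ℂ × ℂ => u (L p) - u 0) ((0 : ℂ), (0 : ℂ)) := by
      refine AnalyticAt.sub ?_ analyticAt_const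
      refine AnalyticAt.comp (g := u) (f := fun p => L p) ?_ (L.analyticAt _)
      have : L ((0 : ℂ), (0 : ℂ)) = 0 := hL0
      rw [this]; exact hu_an
    have h0 : (fun p : ℂ × ℂ => u (L p) - u 0) ((0 : ℂ), (0 : ℂ)) = 0 := by
      have : L ((0 : ℂ), (0 : ℂ)) = 0 := hL0
      simp only [this, sub_self]
    have h1 := nonisolated_zero hF h0
    have t1 : Tendsto (fun p => L p) (𝓝 ((0 : ℂ), (0 : ℂ))) (𝓝 0) := by
      have := L.continuous.tendsto ((0 : ℂ), (0 : ℂ))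
      rwa [show L ((0 : ℂ), (0 : ℂ)) = 0 from hL0] at this
    have h2 : ∀ᶠ v in 𝓝 (0 : Cn k), ‖v‖ < ε := by
      filter_upwards [Metric.ball_mem_nhds (0 : Cn k) hε] with v hv
      exact mem_ball_zero_iff.1 hv
    have h3 := (t1.eventually (hu_iff.and h2)).filter_mono
      (nhdsWithin_le_nhds (s := {((0 : ℂ), (0 : ℂ))}ᶜ))
    have h4 : ∀ᶠ p in 𝓝[≠] ((0 : ℂ), (0 : ℂ)), p ≠ ((0 : ℂ), (0 : ℂ)) := self_mem_nhdsWithin
    obtain ⟨p, hp1, ⟨hp2, hp3⟩, hp4⟩ := (h1.and_eventually (h3.and h4)).exists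
    exact ⟨L p, hp2 (sub_eq_zero.1 hp1), fun h => hp4 (hLinj p h), hp3⟩
  obtain ⟨w, hw0, hw⟩ := exists_real_line S hSclosed hSint hsmall
  refine ⟨w, hw0, ?_⟩
  -- the complex line
  have hwC : ∀ ζ : ℂ, ζ • w ∈ S := by
    let M : ℂ →L[ℂ] Cn k := (ContinuousLinearMap.id ℂ ℂ).smulRight w
    have hM : ∀ ζ : ℂ, M ζ = ζ • w := fun ζ => rfl
    have hψ : AnalyticAt ℂ (fun ζ : ℂ => u (M ζ) - u 0) 0 := by
      refine AnalyticAt.sub ?_ analyticAt_const
      refine AnalyticAt.comp (g := u) (f := fun ζ => M ζ) ?_ (M.analyticAt _)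
      rw [map_zero]; exact hu_an
    have hfreq : ∃ᶠ ζ in 𝓝[≠] (0 : ℂ), u (M ζ) - u 0 = 0 := by
      have t1 : Tendsto (fun n : ℕ => (((1 / ((n : ℝ) + 1) : ℝ)) : ℂ)) atTop (𝓝[≠] 0) := by
        rw [tendsto_nhdsWithin_iff]
        constructor
        · have := (Complex.continuous_ofReal.tendsto 0).comp
            (tendsto_one_div_add_atTop_nhds_zero_nat (𝕜 := ℝ))
          rw [Complex.ofReal_zero] at this
          exact this
        · refine Eventually.of_forall fun n => ?_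
          have : (1 / ((n : ℝ) + 1) : ℝ) ≠ 0 := by positivity
          show ((1 / ((n : ℝ) + 1) : ℝ) : ℂ) ≠ 0
          exact Complex.ofReal_ne_zero.2 this
      refine t1.frequently (Eventually.frequently (Eventually.of_forall fun n => ?_))
      have h1 : M (((1 / ((n : ℝ) + 1) : ℝ)) : ℂ) ∈ S := by
        have h2 := hw (1 / ((n : ℝ) + 1))
        have h3 : M (((1 / ((n : ℝ) + 1) : ℝ)) : ℂ) = (1 / ((n : ℝ) + 1) : ℝ) • w := by
          rw [hM]
          exact Complex.coe_smul _ _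
        rw [h3]; exact h2
      rw [hu_S _ h1, sub_self]
    have hev := hψ.frequently_zero_iff_eventually_zero.1 hfreq
    have t2 : Tendsto (fun ζ => M ζ) (𝓝 0) (𝓝 0) := by
      have := M.continuous.tendsto 0
      rwa [map_zero] at this
    have hevS : ∀ᶠ ζ in 𝓝 (0 : ℂ), ζ • w ∈ S := by
      filter_upwards [hev, t2.eventually hu_iff] with ζ h1 h2
      exact h2 (sub_eq_zero.1 h1)
    intro ζ
    have t3 : Tendsto (fun n : ℕ => (((1 / ((n : ℝ) + 1) : ℝ)) : ℂ) * ζ) atTop (𝓝 0) := by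
      have := ((Complex.continuous_ofReal.tendsto 0).comp
        (tendsto_one_div_add_atTop_nhds_zero_nat (𝕜 := ℝ))).mul_const ζ
      simpa using this
    obtain ⟨m, hm⟩ := (t3.eventually hevS).exists
    have h5 : (m + 1) • (((((1 / ((m : ℝ) + 1) : ℝ)) : ℂ) * ζ) • w) = ζ • w := by
      rw [← Nat.cast_smul_eq_nsmul ℂ, smul_smul, ← mul_assoc]
      have h6 : ((m + 1 : ℕ) : ℂ) * (((1 / ((m : ℝ) + 1) : ℝ)) : ℂ) = 1 := by
        push_cast
        have : ((m : ℂ) + 1) ≠ 0 := by exact_mod_cast Nat.succ_ne_zero m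
        field_simp
      rw [h6, one_mul]
    rw [← h5]
    exact hSnat _ hm _
  intro ζ u' hu'
  exact hSK _ (hwC ζ) u' hu'

/-- Liouville: if the points `a (ζ • w) y` stay over a chart on which the coordinates are bounded,
their image in `Z` is constant. -/
theorem liouville_line {k : ℕ} {a : Cn k → Y → Y} (ha : IsFamily SY k a) {g : Y → Z}
    (hgh : HolMap SY SZ g) {N : ℕ} {U₀ : Set Z} {φ : Z → Cn N} (hφi : InjOn φ U₀)
    (hφh : ∀ y ∈ U₀, ∀ j, SZ.Hol (fun y => φ y j) y) {z₀ : Z} {w : Cn k} {y : Y}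
    (hin : ∀ ζ : ℂ, g (a (ζ • w) y) ∈ U₀ ∩ φ ⁻¹' Metric.ball (φ z₀) 1) (ζ : ℂ) :
    g (a (ζ • w) y) = g y := by
  have hj : ∀ j, φ (g (a (ζ • w) y)) j = φ (g (a ((0 : ℂ) • w) y)) j := by
    intro j
    let M : ℂ →L[ℂ] Cn k := (ContinuousLinearMap.id ℂ ℂ).smulRight w
    have hd : Differentiable ℂ (fun ζ : ℂ => φ (g (a (M ζ) y)) j) := by
      intro ζ'
      have h1 : AnalyticAt ℂ (fun v => φ (g (a v y)) j) (M ζ') := by
        refine ha.hol_orbit y (M ζ') ((fun z => φ z j) ∘ g) ?_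
        exact hgh.2 _ _ (hφh _ (hin ζ').1 j)
      exact (AnalyticAt.comp (g := fun v => φ (g (a v y)) j) (f := fun ζ => M ζ) h1
        (M.analyticAt _)).differentiableAt
    have hb : Bornology.IsBounded (range fun ζ : ℂ => φ (g (a (M ζ) y)) j) := by
      rw [isBounded_iff_forall_norm_le]
      refine ⟨‖φ z₀‖ + 1, ?_⟩
      rintro _ ⟨ζ', rfl⟩
      have h1 : φ (g (a (ζ' • w) y)) ∈ Metric.ball (φ z₀) 1 := (hin ζ').2
      rw [Metric.mem_ball, dist_eq_norm] at h1
      have h2 : ‖φ (g (a (ζ' • w) y))‖ ≤ ‖φ z₀‖ + 1 := by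
        have := norm_sub_norm_le (φ (g (a (ζ' • w) y))) (φ z₀)
        linarith
      exact (norm_le_pi_norm _ j).trans h2
    exact hd.apply_eq_apply_of_bounded hb ζ 0
  have h3 := hφi (hin ζ).1 (hin 0).1 (funext hj)
  rw [h3, zero_smul, ha.zero_act]

end Vale.Agent.P277.H821
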