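import Vale.Agent.P277.H821.Line

/-! # Small contractions of products with a homogeneous factor of dimension at least two -/

open Topology Set Filter

namespace Vale.Agent.P277.H821

variable {X Y Z : Type*} [TopologicalSpace X] [TopologicalSpace Y] [TopologicalSpace Z]
variable {SX : ComplexSpace X} {SY : ComplexSpace Y} {SZ : ComplexSpace Z}
variable [CompactSpace X] [CompactSpace Y] [T2Space X] [T2Space Y] [T2Space Z]
variable {π : Y → X} {d : ℕ} {R : Set X} {f : X → Z} {B : Set Z}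

theorem injective_of_product [CompactSpace Z] (hX : IsNormal SX) (hZ : IsNormal SZ)
    (hf : IsModification SX SZ f B) (hdim : DimLE SZ 1 B)
    (hπ : IsFiniteCover SY SX π d R) (hY : HomogeneousFactor SY) :
    Function.Injective f := by
  classical
  by_contra hinj
  obtain ⟨c₀, hc₀⟩ := exists_infinite_component hX hZ hf hπ hinj
  obtain ⟨F, T, H, _, _, _, Φ, _, _, _, _, b, hb, hone, hmul, hhol, htr, hfam⟩ := hY
  set x₀ : F := (Φ.symm c₀).1 with hx₀
  set t₀ : T := (Φ.symm c₀).2 with ht₀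
  obtain ⟨e, hec, headd, hean, hemove⟩ := hfam x₀
  let act : H → Y → Y := fun p y => Φ (b p (Φ.symm y).1, (Φ.symm y).2)
  have hactc : Continuous fun p : H × Y => act p.1 p.2 := by
    have h1 : Continuous fun p : H × Y => b p.1 (Φ.symm p.2).1 :=
      hb.comp (by fun_prop : Continuous fun p : H × Y => ((p.1, (Φ.symm p.2).1) : H × F))
    exact Φ.continuous.comp (h1.prodMk (by fun_prop))
  have hact1 : ∀ y, act 1 y = y := by
    intro y
    simp only [act, hone, Prod.mk.eta, Homeomorph.apply_symm_apply]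
  have hactm : ∀ p q y, act (p * q) y = act p (act q y) := by
    intro p q y
    simp only [act, Homeomorph.symm_apply_apply, hmul]
  have he0 : e 0 = 1 := by
    have h1 := headd 0 0 0
    rw [smul_zero, smul_zero] at h1
    exact (mul_eq_left.1 h1.symm)
  have hfamily : IsFamily SY 2 (fun v y => act (e v) y) :=
    { continuous := hactc.comp (by fun_prop : Continuous fun p : Cn 2 × Y => ((e p.1, p.2) : H × Y))
      zero_act := fun y => by simp only [he0, hact1]
      add_act := fun s t v y => by simp only [headd, hactm]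
      hol_act := fun v => hhol (e v)
      hol_orbit := fun y v h hh => hean y v h hh }
  obtain ⟨w, hw0, hwK⟩ := exists_line_stab hX hZ hf hdim hπ hc₀ le_rfl hfamily
  set g : Y → Z := f ∘ π with hg
  have hgh : HolMap SY SZ g := hf.hol.comp hπ.hol
  set z₀ : Z := g c₀ with hz₀
  set K₀ := connectedComponentIn (g ⁻¹' {z₀}) c₀ with hK₀
  have hcK : c₀ ∈ K₀ := mem_connectedComponentIn rfl
  have hKg : ∀ y ∈ K₀, g y = z₀ := fun y hy =>
    (connectedComponentIn_subset (g ⁻¹' {z₀}) c₀ hy : y ∈ g ⁻¹' {z₀})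
  have hKc : IsCompact K₀ := isCompact_component hgh.1 rfl
  obtain ⟨N, U₀, φ, hU₀, hzU₀, hφc, hφi, hφh⟩ := exists_chart SZ z₀
  set U₁ : Set Z := U₀ ∩ φ ⁻¹' Metric.ball (φ z₀) 1 with hU₁
  have hU₁o : IsOpen U₁ := hφc.isOpen_inter_preimage hU₀ Metric.isOpen_ball
  have hz₀U₁ : z₀ ∈ U₁ := ⟨hzU₀, Metric.mem_ball_self one_pos⟩
  set P : Set F := {x | Φ (x, t₀) ∈ K₀} with hP
  have hPc : IsCompact P :=
    (hKc.isClosed.preimage (by fun_prop : Continuous fun x : F => Φ (x, t₀))).isCompact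
  have hopen : IsOpen {p : F × T | g (Φ p) ∈ U₁} := hU₁o.preimage (hgh.1.comp Φ.continuous)
  obtain ⟨V', N', hV', hN', hPV, htN, hVN⟩ := generalized_tube_lemma hPc
    (isCompact_singleton (x := t₀)) hopen (by
    rintro ⟨x, t⟩ ⟨hx, ht⟩
    rw [mem_singleton_iff] at ht
    dsimp only at ht
    subst ht
    show g (Φ (x, t₀)) ∈ U₁
    rw [hKg _ hx]
    exact hz₀U₁)
  have horbP : ∀ ζ : ℂ, b (e (ζ • w)) x₀ ∈ P := by
    intro ζ
    exact hwK ζ c₀ hcK
  -- all points over `N'` lie over `B`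
  have hall : ∀ t ∈ N', ∀ x : F, g (Φ (x, t)) ∈ B := by
    intro t ht x
    set y : Y := Φ (x₀, t) with hy
    have hsy : Φ.symm y = (x₀, t) := by simp [hy]
    have hacty : ∀ p, act p y = Φ (b p x₀, t) := by
      intro p
      simp only [act, hsy]
    have hgy : ∀ ζ : ℂ, g (act (e (ζ • w)) y) = g y := fun ζ =>
      liouville_line hfamily hgh hφi hφh (z₀ := z₀) (fun ζ => by
        show g (act (e (ζ • w)) y) ∈ U₁
        rw [hacty]
        exact hVN (show (b (e (ζ • w)) x₀, t) ∈ V' ×ˢ N' from ⟨hPV (horbP ζ), ht⟩)) ζ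
    have hpre : IsPreconnected (range fun ζ : ℂ => act (e (ζ • w)) y) := by
      refine isPreconnected_range ?_
      exact hactc.comp (by fun_prop : Continuous fun ζ : ℂ => ((e (ζ • w), y) : H × Y))
    have hmem : y ∈ range fun ζ : ℂ => act (e (ζ • w)) y :=
      ⟨0, by simp only [zero_smul, he0, hact1]⟩
    have hinf : (range fun ζ : ℂ => act (e (ζ • w)) y).Infinite := by
      obtain ⟨ζ, hζ⟩ := hemove w hw0
      refine hpre.infinite_of_nontrivial ⟨act (e (ζ • w)) y, ⟨ζ, rfl⟩, y, hmem, ?_⟩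
      intro h1
      rw [hacty, hy] at h1
      have h2 := Φ.injective h1
      exact hζ (Prod.mk.inj h2).1
    have hsub : (range fun ζ : ℂ => act (e (ζ • w)) y) ⊆
        connectedComponentIn (g ⁻¹' {g y}) y := by
      refine hpre.subset_connectedComponentIn hmem ?_
      rintro _ ⟨ζ, rfl⟩
      exact hgy ζ
    obtain ⟨p, hp⟩ := htr x₀ x
    have hainj : Function.Injective (act p) := by
      intro u v huv
      have : act (p⁻¹ * p) u = act (p⁻¹ * p) v := by rw [hactm, hactm, huv]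
      simpa [hact1] using this
    have h3 := mem_of_bl hf hπ (y₀ := y) (hinf.mono hsub) (blanchard_group hgh
      (countProp_cover hX hZ hf hπ).finProp hactc hact1 hactm hhol p) hainj
    rw [hacty, hp] at h3
    exact h3
  have hO : IsOpen (Φ '' (univ ×ˢ N')) := Φ.isOpenMap _ (isOpen_univ.prod hN')
  have hsubO : Φ '' (univ ×ˢ N') ⊆ g ⁻¹' B := by
    rintro _ ⟨⟨x, t⟩, ⟨-, ht⟩, rfl⟩
    exact hall t ht x
  have hcO : c₀ ∈ Φ '' (univ ×ˢ N') :=
    ⟨(x₀, t₀), ⟨mem_univ _, htN rfl⟩, by simp [hx₀, ht₀]⟩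
  have h4 : c₀ ∈ interior (g ⁻¹' B) := interior_maximal hsubO hO hcO
  rw [interior_preimage hf hπ] at h4
  exact h4

end Vale.Agent.P277.H821
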