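import Vale.Agent.P277.H821.Bundle

/-! # Contractions with rationally chain connected fibres: products of surfaces -/

open Topology Set Filter

namespace Vale.Agent.P277.H821

variable {X Y Z S S' : Type*} [TopologicalSpace X] [TopologicalSpace Y] [TopologicalSpace Z]
  [TopologicalSpace S] [TopologicalSpace S']
variable {SX : ComplexSpace X} {SY : ComplexSpace Y} {SZ : ComplexSpace Z} {S₁ : ComplexSpace S}
  {S₂ : ComplexSpace S'}

/-- A rational curve in `Y` (possibly constant), given on the complex line: a holomorphic map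
`c : ℂ → Y` with a limit at infinity. (By Riemann's extension theorem these are the restrictions
to `ℂ` of the holomorphic maps from the projective line to `Y`.) -/
def RatCurve (SY : ComplexSpace Y) (c : ℂ → Y) : Prop :=
  Continuous c ∧ (∃ y, Tendsto c (cocompact ℂ) (𝓝 y)) ∧
    ∀ (x : ℂ) (h : Y → ℂ), SY.Hol h (c x) → AnalyticAt ℂ (fun t => h (c t)) x

/-- The connected components of the fibres of `g` are rationally chain connected. -/
def RatChain (SY : ComplexSpace Y) (g : Y → Z) : Prop :=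
  ∀ y₀, ∀ y ∈ connectedComponentIn (g ⁻¹' {g y₀}) y₀,
    Relation.ReflTransGen (fun p q => ∃ c, RatCurve SY c ∧ (∀ x, g (c x) = g y₀) ∧
      p ∈ range c ∧ q ∈ range c) y₀ y

/-- `S` contains no rational curve -/
def NoRatCurve (S₁ : ComplexSpace S) : Prop :=
  ∀ c, RatCurve S₁ c → ∀ x y, c x = c y

/-- `Y` is, via `Φ`, the product of the complex spaces `S` and `S'`: the holomorphic functions on
`Y` near `Φ (s, s')` are the analytic functions of finitely many holomorphic functions on `S` near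
`s` and on `S'` near `s'`. -/
def IsProduct (SY : ComplexSpace Y) (S₁ : ComplexSpace S) (S₂ : ComplexSpace S')
    (Φ : S × S' ≃ₜ Y) : Prop :=
  ∀ (s : S) (s' : S') (h : Y → ℂ), SY.Hol h (Φ (s, s')) ↔
    ∃ (n n' : ℕ) (a : S → Cn n) (a' : S' → Cn n') (F : Cn n × Cn n' → ℂ),
      (∀ i, S₁.Hol (fun t => a t i) s) ∧ (∀ i, S₂.Hol (fun t => a' t i) s') ∧
      AnalyticAt ℂ F (a s, a' s') ∧ ∀ᶠ p in 𝓝 (s, s'), h (Φ p) = F (a p.1, a' p.2)

theorem RatCurve.map {c : ℂ → Y} (hc : RatCurve SY c) {f : Y → Z} (hf : HolMap SY SZ f) :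
    RatCurve SZ (fun x => f (c x)) := by
  obtain ⟨h1, ⟨y, h2⟩, h3⟩ := hc
  refine ⟨hf.1.comp h1, ⟨f y, (hf.1.tendsto y).comp h2⟩, ?_⟩
  intro x h hh
  exact h3 x (fun y => h (f y)) (hf.2 _ _ hh)

theorem RatCurve.shift {c : ℂ → Y} (hc : RatCurve SY c) (t : ℂ) :
    RatCurve SY (fun x => c (x + t)) := by
  obtain ⟨h1, ⟨y, h2⟩, h3⟩ := hc
  refine ⟨h1.comp (by fun_prop), ⟨y, h2.comp ?_⟩, ?_⟩
  · exact (Homeomorph.addRight t).isClosedEmbedding.tendsto_cocompact
  · intro x h hh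
    have h4 := h3 (x + t) h hh
    exact AnalyticAt.fun_comp (g := fun t => h (c t)) (f := fun x => x + t) h4 (by fun_prop)

/-- Liouville's theorem -/
theorem rat_const {c : ℂ → Y} (hc : RatCurve SY c) {y : Y}
    (hy : Tendsto c (cocompact ℂ) (𝓝 y)) {g : Y → Z} (hg : HolMap SY SZ g) {U₀ : Set Z} {M : ℕ}
    {φ : Z → Cn M} (hφi : InjOn φ U₀) (hφh : ∀ z ∈ U₀, ∀ j, SZ.Hol (fun z => φ z j) z)
    (hU : ∀ x, g (c x) ∈ U₀) (hUy : g y ∈ U₀) (x : ℂ) : g (c x) = g y := by
  refine hφi (hU x) hUy (funext fun j => ?_)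
  have h1 : Differentiable ℂ fun t => φ (g (c t)) j := fun t =>
    (hc.2.2 t (fun y => φ (g y) j) (hg.2 _ _ (hφh _ (hU t) j))).differentiableAt
  have h2 : Tendsto (fun t => φ (g (c t)) j) (cocompact ℂ) (𝓝 (φ (g y) j)) := by
    have h3 : ContinuousAt (fun y => φ (g y) j) y :=
      hol_continuousAt SY (hg.2 _ _ (hφh _ hUy j))
    exact h3.tendsto.comp hy
  exact congrFun (h1.eq_const_of_tendsto_cocompact h2) x

theorem hol_comp_vec (S₀ : ComplexSpace X) {x : X} {n : ℕ} {a : X → Cn n} {G : Cn n → ℂ}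
    (ha : ∀ i, S₀.Hol (fun t => a t i) x) (hG : AnalyticAt ℂ G (a x)) :
    S₀.Hol (fun t => G (a t)) x := by
  obtain ⟨N, U, φ, Ω, hU, hx, -, -, -, hm⟩ := S₀.model x
  choose A hA1 hA2 using fun i => (hm x hx _).1 (ha i)
  have h1 : AnalyticAt ℂ (fun w => fun i => A i w) (φ x) := AnalyticAt.pi fun i => hA1 i
  have h2 : (fun i => A i (φ x)) = a x := funext fun i => (hA2 i).self_of_nhds.symm
  refine (hm x hx _).2 ⟨fun w => G (fun i => A i w), ?_, ?_⟩
  · exact AnalyticAt.fun_comp (g := G) (f := fun w => fun i => A i w) (by rw [h2]; exact hG) h1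
  · filter_upwards [eventually_all.2 hA2] with y hy
    simp only [Function.comp] at hy ⊢
    congr 1
    exact funext fun i => hy i

namespace IsProduct

variable {Φ : S × S' ≃ₜ Y}

theorem swap (h : IsProduct SY S₁ S₂ Φ) :
    IsProduct SY S₂ S₁ ((Homeomorph.prodComm S' S).trans Φ) := by
  intro s' s k
  have hΦ : ((Homeomorph.prodComm S' S).trans Φ) (s', s) = Φ (s, s') := rfl
  rw [hΦ, h s s' k]
  constructor
  · rintro ⟨n, n', a, a', F, h1, h2, h3, h4⟩
    refine ⟨n', n, a', a, fun p => F (p.2, p.1), h2, h1, ?_, ?_⟩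
    · exact AnalyticAt.fun_comp (g := F) (f := fun p : Cn n' × Cn n => (p.2, p.1)) h3
        (analyticAt_snd.prod analyticAt_fst)
    · have := (continuous_swap.tendsto (s', s)).eventually h4
      exact this
  · rintro ⟨n, n', a, a', F, h1, h2, h3, h4⟩
    refine ⟨n', n, a', a, fun p => F (p.2, p.1), h2, h1, ?_, ?_⟩
    · exact AnalyticAt.fun_comp (g := F) (f := fun p : Cn n' × Cn n => (p.2, p.1)) h3
        (analyticAt_snd.prod analyticAt_fst)
    · have := (continuous_swap.tendsto (s, s')).eventually h4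
      exact this

theorem slice (h : IsProduct SY S₁ S₂ Φ) (s' : S') : HolMap S₁ SY (fun s => Φ (s, s')) := by
  refine ⟨Φ.continuous.comp (by fun_prop), ?_⟩
  intro s k hk
  obtain ⟨n, n', a, a', F, h1, h2, h3, h4⟩ := (h s s' k).1 hk
  have h5 : S₁.Hol (fun t => F (a t, a' s')) s :=
    hol_comp_vec S₁ (G := fun w => F (w, a' s')) h1
      (AnalyticAt.fun_comp (g := F) (f := fun w : Cn n => (w, a' s')) h3
        (analyticAt_id.prod analyticAt_const))
  refine hol_congr S₁ h5 ?_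
  have h6 : Tendsto (fun t : S => (t, s')) (𝓝 s) (𝓝 (s, s')) :=
    (by fun_prop : Continuous fun t : S => (t, s')).tendsto s
  filter_upwards [h6.eventually h4] with t ht
  exact ht.symm

theorem fst (h : IsProduct SY S₁ S₂ Φ) : HolMap SY S₁ (fun y => (Φ.symm y).1) := by
  refine ⟨continuous_fst.comp Φ.symm.continuous, ?_⟩
  intro y k hk
  have hy : Φ ((Φ.symm y).1, (Φ.symm y).2) = y := by simp
  rw [← hy, h]
  refine ⟨1, 0, fun t _ => k t, fun _ => 0, fun p => p.1 0, fun i => hk, fun i => i.elim0, ?_, ?_⟩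
  · exact ((ContinuousLinearMap.proj (R := ℂ) (φ := fun _ : Fin 1 => ℂ) 0).comp
      (ContinuousLinearMap.fst ℂ (Cn 1) (Cn 0))).analyticAt _
  · exact Eventually.of_forall fun p => by simp

theorem snd (h : IsProduct SY S₁ S₂ Φ) : HolMap SY S₂ (fun y => (Φ.symm y).2) := h.swap.fst

theorem pair (h : IsProduct SY S₁ S₂ Φ) {u : ℂ → S} {v : ℂ → S'} (hu : RatCurve S₁ u)
    (hv : RatCurve S₂ v) : RatCurve SY (fun x => Φ (u x, v x)) := by
  obtain ⟨u1, ⟨su, u2⟩, u3⟩ := hu
  obtain ⟨v1, ⟨sv, v2⟩, v3⟩ := hv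
  refine ⟨Φ.continuous.comp (u1.prodMk v1), ⟨Φ (su, sv), ?_⟩, ?_⟩
  · exact (Φ.continuous.tendsto (su, sv)).comp (u2.prodMk_nhds v2)
  · intro x k hk
    obtain ⟨n, n', a, a', F, h1, h2, h3, h4⟩ := (h _ _ k).1 hk
    have h5 : AnalyticAt ℂ (fun t => (a (u t), a' (v t))) x :=
      (AnalyticAt.pi fun i => u3 x _ (h1 i)).prod (AnalyticAt.pi fun i => v3 x _ (h2 i))
    have h6 : AnalyticAt ℂ (fun t => F (a (u t), a' (v t))) x :=
      AnalyticAt.fun_comp (g := F) (f := fun t => (a (u t), a' (v t))) h3 h5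
    refine h6.congr ?_
    have h7 : Tendsto (fun t => (u t, v t)) (𝓝 x) (𝓝 (u x, v x)) :=
      (u1.prodMk v1).tendsto x
    filter_upwards [h7.eventually h4] with t ht
    exact ht.symm

end IsProduct

theorem ratCurve_const (SY : ComplexSpace Y) (y : Y) : RatCurve SY (fun _ => y) :=
  ⟨continuous_const, ⟨y, tendsto_const_nhds⟩, fun _ _ _ => analyticAt_const⟩

/-- If a rational curve `(u, v)` in a product is contracted, so is `u(ℙ¹) × v(ℙ¹)`. -/
theorem rat_box {Φ : S × S' ≃ₜ Y} (hΦ : IsProduct SY S₁ S₂ Φ) {g : Y → Z}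
    (hg : HolMap SY SZ g) [T2Space Z] {u : ℂ → S} {v : ℂ → S'} (hu : RatCurve S₁ u)
    (hv : RatCurve S₂ v) {z : Z} (hz : ∀ x, g (Φ (u x, v x)) = z) (x y : ℂ) :
    g (Φ (u x, v y)) = z := by
  obtain ⟨su, u2⟩ := hu.2.1
  obtain ⟨sv, v2⟩ := hv.2.1
  have hgc : Continuous fun p : S × S' => g (Φ p) := hg.1.comp Φ.continuous
  have hinf : g (Φ (su, sv)) = z := by
    have h1 : Tendsto (fun x => g (Φ (u x, v x))) (cocompact ℂ) (𝓝 (g (Φ (su, sv)))) :=
      (hgc.tendsto (su, sv)).comp (u2.prodMk_nhds v2)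
    have h2 : Tendsto (fun x => g (Φ (u x, v x))) (cocompact ℂ) (𝓝 z) := by
      simp only [hz]; exact tendsto_const_nhds
    exact tendsto_nhds_unique h1 h2
  obtain ⟨M, U₀, φ, hU₀, hzU₀, hφc, hφi, hφh⟩ := exists_chart SZ z
  set T : Set ℂ := {t | ∀ x, g (Φ (u x, v (x + t))) = z} with hT
  have hTc : IsClosed T := by
    have : T = ⋂ x, {t | g (Φ (u x, v (x + t))) = z} := by ext t; simp [hT]
    rw [this]
    refine isClosed_iInter fun x => isClosed_eq ?_ continuous_const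
    exact hgc.comp (continuous_const.prodMk (hv.1.comp (by fun_prop)))
  have hTo : IsOpen T := by
    rw [isOpen_iff_mem_nhds]
    intro t₀ ht₀
    have hO : IsOpen {p : S × S' | g (Φ p) ∈ U₀} := hU₀.preimage hgc
    have h1 : ∀ᶠ p in 𝓝 su ×ˢ 𝓝 sv, g (Φ p) ∈ U₀ := by
      rw [← nhds_prod_eq]
      exact hO.mem_nhds (show g (Φ (su, sv)) ∈ U₀ by rw [hinf]; exact hzU₀)
    obtain ⟨A, hA, A', hA', hAA⟩ := eventually_prod_iff.1 h1
    have h2 := (u2.eventually hA).and (v2.eventually hA')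
    obtain ⟨R, -, hR⟩ := (Metric.hasBasis_cobounded_compl_closedBall (0 : ℂ)).mem_iff.1
      (by rw [Metric.cobounded_eq_cocompact]; exact h2)
    have h3 : ∀ᶠ t in 𝓝 t₀, ∀ x ∈ Metric.closedBall (0 : ℂ) (R + ‖t₀‖ + 1),
        g (Φ (u x, v (x + t))) ∈ U₀ := by
      refine (isCompact_closedBall _ _).eventually_forall_of_forall_eventually ?_
      intro x _
      have h4 : Continuous fun p : ℂ × ℂ => g (Φ (u p.2, v (p.2 + p.1))) :=
        hgc.comp ((hu.1.comp continuous_snd).prodMk (hv.1.comp (by fun_prop)))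
      refine h4.continuousAt.eventually (hU₀.mem_nhds ?_)
      show g (Φ (u x, v (x + t₀))) ∈ U₀
      rw [ht₀ x]; exact hzU₀
    filter_upwards [h3, Metric.ball_mem_nhds t₀ one_pos] with t ht ht1 x
    have hall : ∀ x, g (Φ (u x, v (x + t))) ∈ U₀ := by
      intro x
      by_cases hx : x ∈ Metric.closedBall (0 : ℂ) (R + ‖t₀‖ + 1)
      · exact ht x hx
      · have hx1 : R + ‖t₀‖ + 1 < ‖x‖ := by simpa using hx
        have hx2 : ‖t‖ < ‖t₀‖ + 1 := by
          have h5 : ‖t - t₀‖ < 1 := by simpa [dist_eq_norm] using ht1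
          calc ‖t‖ = ‖t₀ + (t - t₀)‖ := by congr 1; ring
            _ ≤ ‖t₀‖ + ‖t - t₀‖ := norm_add_le _ _
            _ < ‖t₀‖ + 1 := by linarith
        have hx3 : ‖x‖ ≤ ‖x + t‖ + ‖t‖ := by
          calc ‖x‖ = ‖(x + t) - t‖ := by congr 1; ring
            _ ≤ ‖x + t‖ + ‖t‖ := norm_sub_le _ _
        have hxa : x ∈ (Metric.closedBall (0 : ℂ) R)ᶜ := by
          have h6 : R < ‖x‖ := by
            have := norm_nonneg t₀
            linarith
          simpa using h6
        have hxb : x + t ∈ (Metric.closedBall (0 : ℂ) R)ᶜ := by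
          have h6 : R < ‖x + t‖ := by linarith
          simpa using h6
        exact hAA (hR hxa).1 (hR hxb).2
    have hlim : Tendsto (fun x => Φ (u x, v (x + t))) (cocompact ℂ) (𝓝 (Φ (su, sv))) := by
      refine (Φ.continuous.tendsto (su, sv)).comp (u2.prodMk_nhds (v2.comp ?_))
      exact (Homeomorph.addRight t).isClosedEmbedding.tendsto_cocompact
    rw [rat_const (hΦ.pair hu (hv.shift t)) hlim hg hφi hφh hall (by rw [hinf]; exact hzU₀) x, hinf]
  have hTu : T = univ := IsClopen.eq_univ ⟨hTc, hTo⟩ ⟨0, fun x => by simpa using hz x⟩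
  have h8 : y - x ∈ T := hTu ▸ mem_univ _
  have h9 := h8 x
  rwa [add_sub_cancel] at h9

/-- A contracted rational curve in a slice of a product is contracted in all slices. -/
theorem rat_propagate {Φ : S × S' ≃ₜ Y} (hΦ : IsProduct SY S₁ S₂ Φ) {g : Y → Z}
    (hg : HolMap SY SZ g) [T2Space Z] [PreconnectedSpace S] {v : ℂ → S'} (hv : RatCurve S₂ v)
    {s₀ : S} (h0 : ∀ x, g (Φ (s₀, v x)) = g (Φ (s₀, v 0))) (s : S) (x : ℂ) :
    g (Φ (s, v x)) = g (Φ (s, v 0)) := by
  obtain ⟨sv, v2⟩ := hv.2.1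
  have hgc : Continuous fun p : S × S' => g (Φ p) := hg.1.comp Φ.continuous
  set V : Set S := {s | ∀ x, g (Φ (s, v x)) = g (Φ (s, v 0))} with hV
  have hVc : IsClosed V := by
    have : V = ⋂ x, {s | g (Φ (s, v x)) = g (Φ (s, v 0))} := by ext t; simp [hV]
    rw [this]
    exact isClosed_iInter fun x => isClosed_eq (hgc.comp (by fun_prop)) (hgc.comp (by fun_prop))
  have hVo : IsOpen V := by
    rw [isOpen_iff_mem_nhds]
    intro s₁ hs₁
    obtain ⟨M, U₀, φ, hU₀, hzU₀, hφc, hφi, hφh⟩ := exists_chart SZ (g (Φ (s₁, v 0)))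
    have hinf : g (Φ (s₁, sv)) = g (Φ (s₁, v 0)) := by
      have h1 : Tendsto (fun x => g (Φ (s₁, v x))) (cocompact ℂ) (𝓝 (g (Φ (s₁, sv)))) :=
        (hgc.tendsto (s₁, sv)).comp (tendsto_const_nhds.prodMk_nhds v2)
      have h2 : Tendsto (fun x => g (Φ (s₁, v x))) (cocompact ℂ) (𝓝 (g (Φ (s₁, v 0)))) := by
        have h3 : (fun x => g (Φ (s₁, v x))) = fun _ => g (Φ (s₁, v 0)) := funext hs₁
        rw [h3]; exact tendsto_const_nhds
      exact tendsto_nhds_unique h1 h2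
    have hP : IsCompact (insert sv (range v)) := v2.isCompact_insert_range_of_cocompact hv.1
    have hev : ∀ᶠ s in 𝓝 s₁, ∀ d ∈ insert sv (range v), g (Φ (s, d)) ∈ U₀ := by
      refine hP.eventually_forall_of_forall_eventually ?_
      intro d hd
      refine hgc.continuousAt.eventually (hU₀.mem_nhds ?_)
      rcases hd with rfl | ⟨x, rfl⟩
      · show g (Φ (s₁, d)) ∈ U₀
        rw [hinf]; exact hzU₀
      · show g (Φ (s₁, v x)) ∈ U₀
        rw [hs₁ x]; exact hzU₀
    filter_upwards [hev] with s hs x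
    have hlim : Tendsto (fun x => Φ (s, v x)) (cocompact ℂ) (𝓝 (Φ (s, sv))) :=
      (Φ.continuous.tendsto (s, sv)).comp (tendsto_const_nhds.prodMk_nhds v2)
    have h5 := rat_const (hΦ.pair (ratCurve_const S₁ s) hv) hlim hg hφi hφh
      (fun x => hs _ (Or.inr ⟨x, rfl⟩)) (hs _ (Or.inl rfl))
    rw [h5 x, h5 0]
  have hVu : V = univ := IsClopen.eq_univ ⟨hVc, hVo⟩ ⟨s₀, h0⟩
  have h8 : s ∈ V := hVu ▸ mem_univ _
  exact h8 x

end Vale.Agent.P277.H821
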