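import Vale.Agent.P277.H821.Rational

/-! # Small contractions of products of spaces of dimension at least two -/

open Topology Set Filter

namespace Vale.Agent.P277.H821

variable {X Y Z S S' : Type*} [TopologicalSpace X] [TopologicalSpace Y] [TopologicalSpace Z]
  [TopologicalSpace S] [TopologicalSpace S']
variable {SX : ComplexSpace X} {SY : ComplexSpace Y} {SZ : ComplexSpace Z} {S₁ : ComplexSpace S}
  {S₂ : ComplexSpace S'}

/-- If the fibres of `g` are rationally chain connected, a map to a space without rational curves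
is constant on their connected components. -/
theorem isOver_of_noRat {g : Y → Z} (hR : RatChain SY g) {q : Y → S} (hq : HolMap SY S₁ q)
    (hS : NoRatCurve S₁) : IsOver g q := by
  intro y₀ y hy
  have h := hR y₀ y hy
  clear hy
  induction h with
  | refl => rfl
  | tail _ hl ih =>
    obtain ⟨c, hc, -, ⟨x, rfl⟩, ⟨x', rfl⟩⟩ := hl
    rw [← ih]
    exact hS _ (hc.map hq) x' x

section product

variable [CompactSpace X] [CompactSpace Y] [T2Space X] [T2Space Y] [T2Space Z]
  {π : Y → X} {d : ℕ} {R : Set X} {f : X → Z} {B : Set Z}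

theorem infinite_of_rat {c : ℂ → Y} (hc : Continuous c) {x x' : ℂ} (h : c x ≠ c x') :
    (range c).Infinite :=
  (isPreconnected_range hc).infinite_of_nontrivial ⟨c x, ⟨x, rfl⟩, c x', ⟨x', rfl⟩, h⟩

/-- In a product of connected spaces with first factor of dimension at least two, no rational
curve is contracted which is not contracted by the second projection. -/
theorem no_vertical [PreconnectedSpace S] [PreconnectedSpace S'] {Φ : S × S' ≃ₜ Y}
    (hΦ : IsProduct SY S₁ S₂ Φ) (hS : DimGETwo S₁)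
    (hX : IsNormal SX) (hZ : IsNormal SZ) (hf : IsModification SX SZ f B) (hdim : DimLE SZ 1 B)
    (hπ : IsFiniteCover SY SX π d R) (hR : RatChain SY (f ∘ π)) {v : ℂ → S'}
    (hv : RatCurve S₂ v) {x₀ : ℂ} (hvn : v x₀ ≠ v 0) {s₀ : S}
    (h0 : ∀ x, (f ∘ π) (Φ (s₀, v x)) = (f ∘ π) (Φ (s₀, v 0))) : False := by
  classical
  set g : Y → Z := f ∘ π with hg
  have hgh : HolMap SY SZ g := hf.hol.comp hπ.hol
  have hcp : CountProp SY g d := countProp_cover hX hZ hf hπ
  have hv1 : ∀ s x, g (Φ (s, v x)) = g (Φ (s, v 0)) := fun s x =>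
    rat_propagate hΦ hgh hv h0 s x
  have hinf : ∀ s, (range fun x => Φ (s, v x)).Infinite := by
    intro s
    refine infinite_of_rat (x := x₀) (x' := 0) (Φ.continuous.comp (continuous_const.prodMk hv.1)) ?_
    intro h
    have h1 := Φ.injective h
    exact hvn (Prod.mk.inj h1).2
  have hB : ∀ s, g (Φ (s, v 0)) ∈ B := by
    intro s
    refine mem_of_infinite hf hπ (hinf s) ?_
    rintro _ ⟨x, rfl⟩
    exact hv1 s x
  -- all points lie over `B`
  have hall : ∀ s₁ s', g (Φ (s₁, s')) ∈ B := by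
    intro s₁ s'
    obtain ⟨p, hp1, hp2⟩ := hdim _ (hB s₁)
    have hsl : HolMap S₁ SY (fun s => Φ (s, v 0)) := hΦ.slice (v 0)
    have hsl' : HolMap S₁ SZ (g ∘ fun s => Φ (s, v 0)) := HolMap.comp hgh hsl
    have hfr := hS s₁ (fun s => p 0 (g (Φ (s, v 0)))) (hsl'.2 s₁ _ (hp1 0))
    have e2 : ∀ᶠ s in 𝓝 s₁, g (Φ (s, v 0)) ∈ B →
        (∀ i, p i (g (Φ (s, v 0))) = p i (g (Φ (s₁, v 0)))) →
        g (Φ (s, v 0)) = g (Φ (s₁, v 0)) := (hsl'.1.tendsto s₁).eventually hp2
    have e3 : ∀ᶠ s in 𝓝 s₁, Φ (s, v 0) ∈ g ⁻¹' {g (Φ (s₁, v 0))} →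
        Φ (s, v 0) ∈ connectedComponentIn (g ⁻¹' {g (Φ (s₁, v 0))}) (Φ (s₁, v 0)) :=
      (hsl.1.tendsto s₁).eventually (hcp.component_nhds hgh.1 _ _ rfl rfl)
    have e4 := (e2.and e3).filter_mono (nhdsWithin_le_nhds (s := {s₁}ᶜ))
    obtain ⟨s, hs, ⟨h2, h3⟩, hss⟩ := (hfr.and_eventually (e4.and self_mem_nhdsWithin)).exists
    have h5 : g (Φ (s, v 0)) = g (Φ (s₁, v 0)) := by
      refine h2 (hB s) fun i => ?_
      have h6 : i = 0 := Subsingleton.elim _ _
      rw [h6]
      exact hs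
    have hchain := hR _ _ (h3 h5)
    -- a link of the chain leaves the slice over `s₁`
    have hgood : (Φ.symm (Φ (s, v 0))).1 = s₁ ∨ ∃ c, RatCurve SY c ∧
        (∀ x, g (c x) = g (Φ (s₁, v 0))) ∧ ∃ x x', (Φ.symm (c x)).1 = s₁ ∧
          (Φ.symm (c x')).1 ≠ s₁ := by
      clear h3 h5 hs h2 hss
      generalize Φ (s, v 0) = y at hchain
      induction hchain with
      | refl => left; simp
      | @tail y y' _ hl ih =>
        rcases ih with ih | ih
        · obtain ⟨c, hc, hcz, ⟨x, hx⟩, ⟨x', hx'⟩⟩ := hl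
          by_cases h : (Φ.symm y').1 = s₁
          · exact Or.inl h
          · exact Or.inr ⟨c, hc, hcz, x, x', by rw [hx]; exact ih, by rw [hx']; exact h⟩
        · exact Or.inr ih
    rcases hgood with h7 | ⟨c, hc, hcz, x, x', hx, hx'⟩
    · rw [Φ.symm_apply_apply] at h7
      exact absurd h7 hss
    · have hu : RatCurve S₁ (fun x => (Φ.symm (c x)).1) := hc.map hΦ.fst
      have hw : RatCurve S₂ (fun x => (Φ.symm (c x)).2) := hc.map hΦ.snd
      have hbox := rat_box hΦ hgh hu hw (z := g (Φ (s₁, v 0))) (fun x => by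
        rw [Prod.mk.eta, Φ.apply_symm_apply]; exact hcz x)
      have hprop := rat_propagate hΦ.swap hgh hu (s₀ := (Φ.symm (c 0)).2) (fun x => by
        show g (Φ ((Φ.symm (c x)).1, (Φ.symm (c 0)).2)) = g (Φ ((Φ.symm (c 0)).1, (Φ.symm (c 0)).2))
        rw [hbox, hbox]) s'
      have hprop' : ∀ t, g (Φ ((Φ.symm (c t)).1, s')) = g (Φ ((Φ.symm (c 0)).1, s')) :=
        fun t => hprop t
      refine mem_of_infinite hf hπ (K := range fun t => Φ ((Φ.symm (c t)).1, s')) ?_ ?_
      · refine infinite_of_rat (x := x) (x' := x')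
          (Φ.continuous.comp (hu.1.prodMk continuous_const)) ?_
        intro h
        have h1 := (Prod.mk.inj (Φ.injective h)).1
        exact hx' (h1 ▸ hx)
      · rintro _ ⟨t, rfl⟩
        have h9 := hprop' x
        rw [hx] at h9
        rw [show (f ∘ π) (Φ ((Φ.symm (c t)).1, s')) = _ from hprop' t, ← h9]
  have h4 : Φ (s₀, v 0) ∈ interior (g ⁻¹' B) := by
    have h5 : g ⁻¹' B = univ := by
      rw [eq_univ_iff_forall]
      intro y
      have h6 := hall (Φ.symm y).1 (Φ.symm y).2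
      rwa [Prod.mk.eta, Φ.apply_symm_apply] at h6
    rw [h5, interior_univ]
    exact mem_univ _
  rw [interior_preimage hf hπ] at h4
  exact h4

theorem injective_of_surfaces [PreconnectedSpace S] [PreconnectedSpace S'] {Φ : S × S' ≃ₜ Y}
    (hΦ : IsProduct SY S₁ S₂ Φ) (hS : DimGETwo S₁) (hS' : DimGETwo S₂)
    (hX : IsNormal SX) (hZ : IsNormal SZ) (hf : IsModification SX SZ f B) (hdim : DimLE SZ 1 B)
    (hπ : IsFiniteCover SY SX π d R) (hR : RatChain SY (f ∘ π)) : Function.Injective f := by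
  classical
  by_contra hinj
  obtain ⟨y₀, hy₀⟩ := exists_infinite_component hX hZ hf hπ hinj
  have hgh : HolMap SY SZ (f ∘ π) := hf.hol.comp hπ.hol
  obtain ⟨y, hy, hyne⟩ : ∃ y ∈ connectedComponentIn ((f ∘ π) ⁻¹' {(f ∘ π) y₀}) y₀, y ≠ y₀ := by
    by_contra hcon
    push Not at hcon
    exact hy₀ ((finite_singleton y₀).subset fun y hy => hcon y hy)
  have hchain := hR y₀ y hy
  have hgood : y = y₀ ∨ ∃ c, RatCurve SY c ∧ (∀ x, (f ∘ π) (c x) = (f ∘ π) y₀) ∧
      ∃ x x', c x ≠ c x' := by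
    clear hy hyne
    induction hchain with
    | refl => exact Or.inl rfl
    | @tail y y' _ hl ih =>
      rcases ih with ih | ih
      · obtain ⟨c, hc, hcz, ⟨x, hx⟩, ⟨x', hx'⟩⟩ := hl
        by_cases h : y' = y₀
        · exact Or.inl h
        · exact Or.inr ⟨c, hc, hcz, x, x', by rw [hx, hx', ih]; exact fun h' => h h'.symm⟩
      · exact Or.inr ih
  rcases hgood with h7 | ⟨c, hc, hcz, x, x', hxx⟩
  · exact hyne h7
  have hu : RatCurve S₁ (fun x => (Φ.symm (c x)).1) := hc.map hΦ.fst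
  have hw : RatCurve S₂ (fun x => (Φ.symm (c x)).2) := hc.map hΦ.snd
  have hbox := rat_box hΦ hgh hu hw (z := (f ∘ π) y₀) (fun x => by
    rw [Prod.mk.eta, Φ.apply_symm_apply]; exact hcz x)
  by_cases hv : ∀ t, (Φ.symm (c t)).2 = (Φ.symm (c 0)).2
  · by_cases hv' : ∀ t, (Φ.symm (c t)).1 = (Φ.symm (c 0)).1
    · apply hxx
      apply Φ.symm.injective
      exact Prod.ext ((hv' x).trans (hv' x').symm) ((hv x).trans (hv x').symm)
    · push Not at hv'
      obtain ⟨t, ht⟩ := hv'
      refine no_vertical hΦ.swap hS' hX hZ hf hdim hπ hR hu ht (s₀ := (Φ.symm (c 0)).2) ?_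
      intro x
      show (f ∘ π) (Φ ((Φ.symm (c x)).1, (Φ.symm (c 0)).2)) =
        (f ∘ π) (Φ ((Φ.symm (c 0)).1, (Φ.symm (c 0)).2))
      rw [hbox, hbox]
  · push Not at hv
    obtain ⟨t, ht⟩ := hv
    refine no_vertical hΦ hS hX hZ hf hdim hπ hR hw ht (s₀ := (Φ.symm (c 0)).1) ?_
    intro x
    rw [hbox, hbox]

end product

/-- `Y` is a product of two connected complex spaces, both of dimension at least two at every
point. -/
def ProductOfSurfaces.{u} {Y : Type u} [TopologicalSpace Y] (SY : ComplexSpace Y) : Prop :=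
  ∃ (S S' : Type u) (_ : TopologicalSpace S) (_ : TopologicalSpace S') (_ : ConnectedSpace S)
    (_ : ConnectedSpace S') (S₁ : ComplexSpace S) (S₂ : ComplexSpace S') (Φ : S × S' ≃ₜ Y),
    IsProduct SY S₁ S₂ Φ ∧ DimGETwo S₁ ∧ DimGETwo S₂

/-- `Y` is a locally trivial holomorphic fibre bundle over a complex space `S` which contains no
rational curve, and either `S` has dimension at least two at every point or the fibres are
homogeneous. -/
def BundleOverNoRat.{u} {Y : Type u} [TopologicalSpace Y] (SY : ComplexSpace Y) : Prop :=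
  ∃ (S : Type u) (_ : TopologicalSpace S) (S₁ : ComplexSpace S) (q : Y → S),
    IsBundle SY S₁ q ∧ NoRatCurve S₁ ∧ (DimGETwo S₁ ∨ HomogeneousFibres SY q)

end Vale.Agent.P277.H821
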