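import Vale.Agent.P277.H821.Line
import Vale.Agent.P277.H821.Ident

/-! # Small contractions of spaces with an action of a torus of dimension at least two -/

open Topology Set Filter

namespace Vale.Agent.P277.H821

variable {X Y Z : Type*} [TopologicalSpace X] [TopologicalSpace Y] [TopologicalSpace Z]
variable {SX : ComplexSpace X} {SY : ComplexSpace Y} {SZ : ComplexSpace Z}
variable [CompactSpace X] [CompactSpace Y] [T2Space X] [T2Space Y] [T2Space Z]
variable {π : Y → X} {d : ℕ} {R : Set X} {f : X → Z} {B : Set Z}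

omit [CompactSpace Y] [T2Space Y] in
theorem IsTorusAction.isFamily {k : ℕ} {Λ : AddSubgroup (Cn k)} {a : Cn k → Y → Y}
    (ha : IsTorusAction SY k Λ a) : IsFamily SY k a where
  continuous := ha.continuous
  zero_act := ha.zero_act
  add_act := fun s t v y => by rw [add_smul, ha.add_act]
  hol_act := ha.hol_act
  hol_orbit := ha.hol_orbit

theorem injective_of_torus [CompactSpace Z] (hX : IsNormal SX) (hZ : IsNormal SZ)
    (hf : IsModification SX SZ f B) (hdim : DimLE SZ 1 B)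
    (hπ : IsFiniteCover SY SX π d R) {n : ℕ} (hirr : IrreducibleOfDim SY n) {k : ℕ}
    (hk : 2 ≤ k) {Λ : AddSubgroup (Cn k)} {a : Cn k → Y → Y} (ha : IsTorusAction SY k Λ a) :
    Function.Injective f := by
  classical
  by_contra hinj
  obtain ⟨c₀, hc₀⟩ := exists_infinite_component hX hZ hf hπ hinj
  obtain ⟨w, hw0, hwK⟩ := exists_line_stab hX hZ hf hdim hπ hc₀ hk ha.isFamily
  set g : Y → Z := f ∘ π with hg
  have hgh : HolMap SY SZ g := hf.hol.comp hπ.hol
  set z₀ : Z := g c₀ with hz₀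
  set K₀ := connectedComponentIn (g ⁻¹' {z₀}) c₀ with hK₀
  have hcK : c₀ ∈ K₀ := mem_connectedComponentIn rfl
  have hKg : ∀ y ∈ K₀, g y = z₀ := fun y hy =>
    (connectedComponentIn_subset (g ⁻¹' {z₀}) c₀ hy : y ∈ g ⁻¹' {z₀})
  have hKc : IsCompact K₀ := isCompact_component hgh.1 rfl
  have horb : ∀ y, Continuous fun v => a v y := fun y =>
    ha.continuous.comp (Continuous.prodMk_left y)
  -- Liouville
  obtain ⟨N, U₀, φ, hU₀, hzU₀, hφc, hφi, hφh⟩ := exists_chart SZ z₀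
  set U₁ : Set Z := U₀ ∩ φ ⁻¹' Metric.ball (φ z₀) 1 with hU₁
  have hU₁o : IsOpen U₁ := hφc.isOpen_inter_preimage hU₀ Metric.isOpen_ball
  have hz₀U₁ : z₀ ∈ U₁ := ⟨hzU₀, Metric.mem_ball_self one_pos⟩
  obtain ⟨K, hK, hKΛ⟩ := ha.cocompact
  -- the closed set of parameters preserving `K₀`
  set S : Set (Cn k) := {v | ∀ u ∈ K₀, a v u ∈ K₀} with hS
  have hSclosed : IsClosed S := by
    have : S = ⋂ u ∈ K₀, (fun v => a v u) ⁻¹' K₀ := by
      ext v; simp [hS]
    rw [this]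
    exact isClosed_biInter fun u _ => hKc.isClosed.preimage (horb u)
  have hSΛ : ∀ v ∈ S, ∀ l ∈ Λ, ∀ y, a (v - l) y = a v y := by
    intro v _ l hl y
    have h1 : v = (v - l) + l := by abel
    conv_rhs => rw [h1]
    rw [ha.add_act, (ha.effective l).2 hl]
  have hSKc : IsCompact (S ∩ K) := hK.inter_left hSclosed
  have hopen : IsOpen {p : Cn k × Y | g (a p.1 p.2) ∈ U₁} :=
    hU₁o.preimage (hgh.1.comp ha.continuous)
  obtain ⟨V', W', hV', hW', hSV, hKW, hVW⟩ := generalized_tube_lemma hSKc hKc hopen (by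
    rintro ⟨v, y⟩ ⟨hv, hy⟩
    show g (a v y) ∈ U₁
    rw [hKg _ (hv.1 y hy)]
    exact hz₀U₁)
  have hSW : ∀ v ∈ S, ∀ y ∈ W', g (a v y) ∈ U₁ := by
    intro v hv y hy
    obtain ⟨l, hl, hlK⟩ := hKΛ v
    have h1 : v - l ∈ S := fun u hu => by
      rw [hSΛ v hv l hl]; exact hv u hu
    rw [← hSΛ v hv l hl]
    exact hVW (show (v - l, y) ∈ V' ×ˢ W' from ⟨hSV ⟨h1, hlK⟩, hy⟩)
  have hgconst : ∀ y ∈ W', ∀ ζ : ℂ, g (a (ζ • w) y) = g y := fun y hy ζ =>
    liouville_line ha.isFamily hgh hφi hφh (z₀ := z₀) (fun ζ => hSW _ (hwK ζ) y hy) ζ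
  -- generic points
  set O : Set Y := W' \ (g ⁻¹' B) with hO
  have hBc : IsClosed (g ⁻¹' B) := hf.analytic.isClosed.preimage hgh.1
  have hOo : IsOpen O := hW'.sdiff hBc
  have hOne : O.Nonempty := by
    by_contra hemp
    rw [not_nonempty_iff_eq_empty, hO, sdiff_eq_empty] at hemp
    have h1 : c₀ ∈ interior (g ⁻¹' B) := interior_maximal hemp hW' (hKW hcK)
    rw [interior_preimage hf hπ] at h1
    exact h1
  have hfixO : ∀ ζ : ℂ, ∀ y ∈ O, a (ζ • w) y = y := by
    intro ζ y hy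
    have hfin : {y' | g y' = g y}.Finite := finite_generic_fibre hf hπ hy.2
    have hpre : IsPreconnected (range fun ζ : ℂ => a (ζ • w) y) :=
      isPreconnected_range ((horb y).comp (by fun_prop))
    have hsub : (range fun ζ : ℂ => a (ζ • w) y) ⊆ {y' | g y' = g y} := by
      rintro _ ⟨ζ', rfl⟩
      exact hgconst y hy.1 ζ'
    by_contra hne
    refine (hpre.infinite_of_nontrivial ⟨a (ζ • w) y, ⟨ζ, rfl⟩, y, ⟨0, ?_⟩, hne⟩)
      (hfin.subset hsub)
    simp only [zero_smul, ha.zero_act]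
  have hΛ : ∀ ζ : ℂ, ζ • w ∈ Λ := by
    intro ζ
    rw [← ha.effective]
    exact eq_id_of_eqOn_open hirr (ha.hol_act _) hOo hOne (hfixO ζ)
  obtain ⟨ε, hε, hdisc⟩ := ha.discrete
  have hwpos : 0 < ‖w‖ := norm_pos_iff.2 hw0
  have h1 := hdisc _ (hΛ ((ε / (2 * ‖w‖) : ℝ) : ℂ)) (by
    rw [norm_smul, Complex.norm_real, Real.norm_of_nonneg (by positivity)]
    have : ε / (2 * ‖w‖) * ‖w‖ = ε / 2 := by field_simp
    rw [this]; linarith)
  rcases smul_eq_zero.1 h1 with h2 | h2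
  · have h3 : (ε / (2 * ‖w‖) : ℝ) = 0 := by exact_mod_cast h2
    have h4 : 0 < ε / (2 * ‖w‖) := by positivity
    exact h4.ne' h3
  · exact hw0 h2

end Vale.Agent.P277.H821
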