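import Vale.Agent.P277.H821.Blanchard
import Vale.Agent.P277.H821.Line

/-! # Maps to complex tori are constant on the fibres of contractions with `R¹ g_* O = 0` -/

open Topology Set Filter

namespace Vale.Agent.P277.H821

variable {X Y Z S : Type*} [TopologicalSpace X] [TopologicalSpace Y] [TopologicalSpace Z]
  [TopologicalSpace S]
variable {SX : ComplexSpace X} {SY : ComplexSpace Y} {SZ : ComplexSpace Z} {SS : ComplexSpace S}

/-- `R¹ g_* O_Y = 0`, in Čech form: for each finite open cover of a fibre of `g` (hence of a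
neighbourhood of it), each holomorphic Čech `1`-cocycle is a coboundary over a neighbourhood of
the fibre. -/
def R1Vanishes (SY : ComplexSpace Y) (g : Y → Z) : Prop :=
  ∀ (z : Z) (n : ℕ) (V : Fin n → Set Y) (h : Fin n → Fin n → Y → ℂ),
    (∀ i, IsOpen (V i)) → (∀ y, g y = z → ∃ i, y ∈ V i) →
    (∀ i j, ∀ y ∈ V i ∩ V j, SY.Hol (h i j) y) →
    (∀ i j k, ∀ y ∈ V i ∩ V j ∩ V k, h i j y + h j k y = h i k y) →
    ∃ (U : Set Z) (k : Fin n → Y → ℂ), IsOpen U ∧ z ∈ U ∧
      (∀ i, ∀ y ∈ V i, g y ∈ U → SY.Hol (k i) y) ∧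
      ∀ i j, ∀ y ∈ V i ∩ V j, g y ∈ U → h i j y = k i y - k j y

/-- `α` is a holomorphic map to the complex torus `ℂ^m / Λ`, where `Λ` is the lattice spanned by
the real basis `b` of `ℂ^m`: locally it lifts to a holomorphic map to `ℂ^m`. -/
def HolToTorus (SY : ComplexSpace Y) {m : ℕ} {ι : Type*} (b : Module.Basis ι ℝ (Cn m))
    (α : Y → Cn m ⧸ Submodule.span ℤ (Set.range b)) : Prop :=
  ∀ y, ∃ V ∈ 𝓝 y, ∃ a : Y → Cn m, ∀ y' ∈ V,
    (∀ j, SY.Hol (fun u => a u j) y') ∧ Submodule.Quotient.mk (a y') = α y'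

theorem HolToTorus.comp {m : ℕ} {ι : Type*} {b : Module.Basis ι ℝ (Cn m)}
    {β : S → Cn m ⧸ Submodule.span ℤ (Set.range b)} (hβ : HolToTorus SS b β) {q : Y → S}
    (hq : HolMap SY SS q) : HolToTorus SY b (fun y => β (q y)) := by
  intro y
  obtain ⟨V, hV, a, ha⟩ := hβ (q y)
  refine ⟨q ⁻¹' V, hq.1.continuousAt.preimage_mem_nhds hV, a ∘ q, ?_⟩
  intro y' hy'
  exact ⟨fun j => hq.2 y' _ ((ha _ hy').1 j), (ha _ hy').2⟩

theorem hol_comp (S : ComplexSpace X) {x : X} {h : X → ℂ} {F : ℂ → ℂ} (hh : S.Hol h x)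
    (hF : AnalyticAt ℂ F (h x)) : S.Hol (fun y => F (h y)) x := by
  obtain ⟨N, U, φ, Ω, hU, hx, -, -, -, hm⟩ := S.model x
  obtain ⟨G, hG, hG2⟩ := (hm x hx h).1 hh
  have hGx : h x = G (φ x) := hG2.self_of_nhds
  refine (hm x hx _).2 ⟨fun w => F (G w), ?_, ?_⟩
  · exact AnalyticAt.comp' (by rwa [← hGx]) hG
  · filter_upwards [hG2] with y hy
    simp only [Function.comp] at hy ⊢
    rw [hy]

/-- A function holomorphic near a connected component of a fibre is constant on it. -/
theorem const_near_component [CompactSpace Y] [T2Space Y] [T2Space Z] {g : Y → Z} {d : ℕ}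
    (hg : Continuous g) (hcp : CountProp SY g d) {z : Z} {y₀ : Y} (hy₀ : g y₀ = z) {h : Y → ℂ}
    (hh : ∀ y ∈ connectedComponentIn (g ⁻¹' {z}) y₀, SY.Hol h y) :
    ∀ y ∈ connectedComponentIn (g ⁻¹' {z}) y₀, h y = h y₀ := by
  classical
  set C : Set Y := g ⁻¹' {z} with hC
  set K := connectedComponentIn C y₀ with hK
  have hKC : K ⊆ C := connectedComponentIn_subset _ _
  have hy₀C : y₀ ∈ C := hy₀
  have hCcl : IsClosed C := isClosed_singleton.preimage hg
  have hKc : IsCompact K := isCompact_component hg hy₀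
  have hKo : ∀ y ∈ K, ∀ᶠ y' in 𝓝 y, y' ∈ C → y' ∈ K := by
    intro y hy
    have h1 := hcp.component_nhds hg z C hC (hKC hy)
    rw [← connectedComponentIn_eq hy] at h1
    exact h1
  have hD : IsCompact (C \ K) := by
    refine hCcl.isCompact.of_isClosed_subset ?_ sdiff_subset
    rw [← isOpen_compl_iff, isOpen_iff_mem_nhds]
    intro y hy
    by_cases hyC : y ∈ C
    · have hyK : y ∈ K := by
        by_contra h
        exact hy ⟨hyC, h⟩
      filter_upwards [hKo y hyK] with y' hy' h'
      exact h'.2 (hy' h'.1)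
    · filter_upwards [hCcl.isOpen_compl.mem_nhds hyC] with y' hy' h'
      exact hy' h'.1
  obtain ⟨O1, O2, hO1, hO2, hKO, hDO, hO⟩ :=
    SeparatedNhds.of_isCompact_isCompact hKc hD disjoint_sdiff_self_right
  have hW1 : K ⊆ interior {y | SY.Hol h y} := fun y hy =>
    mem_interior_iff_mem_nhds.2 (hol_eventually SY (hh y hy))
  obtain ⟨U, hU, hzU, hUW⟩ := exists_tube hg (z := z) (W := (interior {y | SY.Hol h y} ∩ O1) ∪ O2)
    ((isOpen_interior.inter hO1).union hO2) (by
    intro y hy
    by_cases h1 : y ∈ K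
    · exact Or.inl ⟨hW1 h1, hKO h1⟩
    · exact Or.inr (hDO ⟨hy, h1⟩))
  let k : Y → ℂ := O1.indicator h
  have hk : ∀ y, g y ∈ U → SY.Hol k y := by
    intro y hy
    rcases hUW y hy with h1 | h1
    · refine hol_congr SY (interior_subset h1.1) ?_
      filter_upwards [hO1.mem_nhds h1.2] with y' hy'
      simp [k, hy']
    · refine hol_of_eventually_const SY 0 ?_
      filter_upwards [hO2.mem_nhds h1] with y' hy'
      have : y' ∉ O1 := fun h3 => Set.disjoint_left.1 hO h3 hy'
      simp [k, this]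
  have hfin := hcp.finProp U k z hU hzU hk
  have hkK : ∀ y ∈ K, k y = h y := fun y hy => by simp [k, hKO hy]
  have hfinK : (h '' K).Finite := hfin.subset (by
    rintro _ ⟨y, hy, rfl⟩
    exact ⟨y, hKC hy, hkK y hy⟩)
  have hcont : ContinuousOn h K := fun y hy =>
    (hol_continuousAt SY (hh y hy)).continuousWithinAt
  intro y hy
  by_contra hne
  exact ((isPreconnected_connectedComponentIn.image h hcont).infinite_of_nontrivial
    ⟨h y, ⟨y, hy, rfl⟩, h y₀, ⟨y₀, mem_connectedComponentIn hy₀C, rfl⟩, hne⟩) hfinK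

/-- If `R¹ g_* O_Y = 0`, holomorphic maps to complex tori are constant on the connected
components of the fibres of `g`. -/
theorem torus_const [CompactSpace Y] [T2Space Y] [T2Space Z] {g : Y → Z} {d : ℕ}
    (hg : Continuous g) (hcp : CountProp SY g d) (hR : R1Vanishes SY g) {m : ℕ} {ι : Type*}
    [Fintype ι] {b : Module.Basis ι ℝ (Cn m)} {α : Y → Cn m ⧸ Submodule.span ℤ (Set.range b)}
    (hα : HolToTorus SY b α) {z : Z} {y₀ : Y} (hy₀ : g y₀ = z) :
    ∀ y ∈ connectedComponentIn (g ⁻¹' {z}) y₀, α y = α y₀ := by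
  classical
  set C : Set Y := g ⁻¹' {z} with hC
  have hCc : IsCompact C := (isClosed_singleton.preimage hg).isCompact
  choose V' hV' a' ha' using hα
  obtain ⟨t, -, ht⟩ := hCc.elim_nhds_subcover (fun y => interior (V' y))
    (fun y _ => interior_mem_nhds.2 (hV' y))
  let e := t.equivFin
  let n := t.card
  let V : Fin n → Set Y := fun i => interior (V' (e.symm i))
  let a : Fin n → Y → Cn m := fun i => a' (e.symm i)
  have hV : ∀ i, IsOpen (V i) := fun i => isOpen_interior
  have hcov : ∀ y, g y = z → ∃ i, y ∈ V i := by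
    intro y hy
    have := ht (show y ∈ C from hy)
    simp only [mem_iUnion] at this
    obtain ⟨x, hx, hxy⟩ := this
    exact ⟨e ⟨x, hx⟩, by simpa [V] using hxy⟩
  have ha : ∀ i, ∀ y ∈ V i, ∀ j, SY.Hol (fun u => a i u j) y := fun i y hy =>
    (ha' _ y (interior_subset hy)).1
  have haα : ∀ i, ∀ y ∈ V i, Submodule.Quotient.mk (a i y) = α y := fun i y hy =>
    (ha' _ y (interior_subset hy)).2
  have hac : ∀ i, ∀ y ∈ V i, ContinuousAt (a i) y := fun i y hy =>
    continuousAt_pi.2 fun j => hol_continuousAt SY (ha i y hy j)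
  have hint : ∀ i j, ∀ y ∈ V i ∩ V j, ∀ l, ∃ p : ℤ, b.repr (a i y - a j y) l = p := by
    intro i j y hy l
    have h1 : a i y - a j y ∈ Submodule.span ℤ (Set.range b) := by
      rw [← Submodule.Quotient.eq, haα i y hy.1, haα j y hy.2]
    obtain ⟨p, hp⟩ := (b.mem_span_iff_repr_mem ℤ _).1 h1 l
    exact ⟨p, by simpa using hp.symm⟩
  have hrc : ∀ l, Continuous fun v : Cn m => b.repr v l := fun l =>
    LinearMap.continuous_of_finiteDimensional (b.coord l)
  let c : ι → Fin n → Fin n → Y → ℂ := fun l i j y => ((b.repr (a i y - a j y) l : ℝ) : ℂ)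
  have hchol : ∀ l i j, ∀ y ∈ V i ∩ V j, SY.Hol (c l i j) y := by
    intro l i j y hy
    refine hol_of_eventually_const SY (c l i j y) ?_
    have h1 : ContinuousAt (fun y' => b.repr (a i y' - a j y') l) y :=
      (hrc l).continuousAt.comp ((hac i y hy.1).sub (hac j y hy.2))
    have h2 : ∀ᶠ y' in 𝓝 y, |b.repr (a i y' - a j y') l - b.repr (a i y - a j y) l| < 1 := by
      have := Metric.continuousAt_iff'.1 h1 1 one_pos
      simpa only [Real.dist_eq] using this
    filter_upwards [h2, ((hV i).inter (hV j)).mem_nhds hy] with y' h3 h4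
    obtain ⟨p, hp⟩ := hint i j y hy l
    obtain ⟨p', hp'⟩ := hint i j y' h4 l
    simp only [c]
    rw [hp, hp'] at h3 ⊢
    have : p' = p := by
      have h5 : |((p' - p : ℤ) : ℝ)| < 1 := by push_cast; exact h3
      rw [← Int.cast_abs] at h5
      have h6 : |p' - p| < 1 := by exact_mod_cast h5
      exact sub_eq_zero.1 (Int.abs_lt_one_iff.1 h6)
    rw [this]
  have hR' := fun l => hR z n V (c l) hV hcov (hchol l) (by
    intro i j k y hy
    simp only [c]
    rw [← Complex.ofReal_add, ← Finsupp.add_apply, ← map_add]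
    congr 3
    abel)
  choose U k hU hzU hk hck using hR'
  obtain ⟨i₀, hi₀⟩ := hcov y₀ hy₀
  let idx : Y → Fin n := fun y => if h : ∃ i, y ∈ V i then h.choose else i₀
  have hidx : ∀ i, ∀ y ∈ V i, y ∈ V (idx y) := by
    intro i y hy
    have h : ∃ i, y ∈ V i := ⟨i, hy⟩
    simp only [idx, dif_pos h]
    exact h.choose_spec
  set K := connectedComponentIn C y₀ with hK
  have hKg : ∀ y ∈ K, g y = z := fun y hy => connectedComponentIn_subset C y₀ hy
  have hKU : ∀ y ∈ K, ∀ l, g y ∈ U l := fun y hy l => by rw [hKg y hy]; exact hzU l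
  have hy₀K : y₀ ∈ K := mem_connectedComponentIn hy₀
  have hE : ∀ l i, ∀ y ∈ V i, y ∈ K → ∃ p : ℤ, k l i y = k l i₀ y₀ + p := by
    intro l
    let E : Y → ℂ := fun y => Complex.exp (2 * Real.pi * Complex.I * k l (idx y) y)
    have hEe : ∀ i, ∀ y ∈ V i, g y ∈ U l →
        E y = Complex.exp (2 * Real.pi * Complex.I * k l i y) := by
      intro i y hy hyU
      have h1 := hck l (idx y) i y ⟨hidx i y hy, hy⟩ hyU
      obtain ⟨p, hp⟩ := hint (idx y) i y ⟨hidx i y hy, hy⟩ l
      simp only [c] at h1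
      rw [hp] at h1
      simp only [E]
      rw [Complex.exp_eq_exp_iff_exists_int]
      refine ⟨p, ?_⟩
      push_cast at h1
      rw [h1]
      ring
    have hEhol : ∀ y ∈ K, SY.Hol E y := by
      intro y hy
      obtain ⟨i, hi⟩ := hcov y (hKg y hy)
      have h1 : SY.Hol (fun y' => Complex.exp (2 * Real.pi * Complex.I * k l i y')) y :=
        hol_comp SY (F := fun w => Complex.exp (2 * Real.pi * Complex.I * w))
          (hk l i y hi (hKU y hy l)) (by fun_prop)
      refine hol_congr SY h1 ?_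
      filter_upwards [(hV i).mem_nhds hi, ((hU l).preimage hg).mem_nhds (hKU y hy l)]
        with y' h2 h3
      exact (hEe i y' h2 h3).symm
    intro i y hy hyK
    have h1 := const_near_component hg hcp hy₀ hEhol y hyK
    rw [hEe i y hy (hKU y hyK l), hEe i₀ y₀ hi₀ (hKU y₀ hy₀K l),
      Complex.exp_eq_exp_iff_exists_int] at h1
    obtain ⟨p, hp⟩ := h1
    refine ⟨p, ?_⟩
    have h2 : (2 * Real.pi * Complex.I : ℂ) ≠ 0 := Complex.two_pi_I_ne_zero
    apply mul_left_cancel₀ h2
    rw [hp]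
    ring
  let r : ι → Fin n → Y → ℤ := fun l i y => round (k l i y - k l i₀ y₀).re
  let A : Y → Cn m := fun y => a (idx y) y - ∑ l, (r l (idx y) y : ℝ) • b l
  have hA : ∀ i, ∀ y ∈ V i, (∀ l, g y ∈ U l) → A y = a i y - ∑ l, (r l i y : ℝ) • b l := by
    intro i y hy hyU
    have hj := hidx i y hy
    have h1 : ∀ l, (r l (idx y) y : ℝ) = r l i y + b.repr (a (idx y) y - a i y) l := by
      intro l
      obtain ⟨p, hp⟩ := hint (idx y) i y ⟨hj, hy⟩ l
      have h2 := hck l (idx y) i y ⟨hj, hy⟩ (hyU l)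
      simp only [c] at h2
      rw [hp] at h2 ⊢
      have h3 : (k l (idx y) y - k l i₀ y₀).re = (k l i y - k l i₀ y₀).re + p := by
        have h4 : k l (idx y) y = k l i y + ((p : ℝ) : ℂ) := by
          rw [h2]; ring
        rw [h4]
        simp only [Complex.sub_re, Complex.add_re, Complex.ofReal_re]
        ring
      simp only [r]
      rw [h3, round_add_intCast]
      push_cast
      rfl
    have h2 : ∑ l, (r l (idx y) y : ℝ) • b l =
        ∑ l, (r l i y : ℝ) • b l + (a (idx y) y - a i y) := by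
      have h3 := b.sum_repr (a (idx y) y - a i y)
      conv_rhs => rw [← h3, ← Finset.sum_add_distrib]
      refine Finset.sum_congr rfl fun l _ => ?_
      rw [h1, add_smul]
    simp only [A]
    rw [h2]
    abel
  have hAhol : ∀ y ∈ K, ∀ j, SY.Hol (fun u => A u j) y := by
    intro y hy j
    obtain ⟨i, hi⟩ := hcov y (hKg y hy)
    have h1 : ∀ l, ∀ᶠ y' in 𝓝 y, r l i y' = r l i y := by
      intro l
      obtain ⟨p, hp⟩ := hE l i y hi hy
      have hkc : ContinuousAt (fun y' => (k l i y' - k l i₀ y₀).re) y :=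
        Complex.continuous_re.continuousAt.comp
          ((hol_continuousAt SY (hk l i y hi (hKU y hy l))).sub continuousAt_const)
      have h2 : (k l i y - k l i₀ y₀).re = p := by
        rw [hp]; simp
      have h3 := Metric.continuousAt_iff'.1 hkc (1 / 2) (by norm_num)
      filter_upwards [h3] with y' h4
      rw [Real.dist_eq, h2, abs_lt] at h4
      have h5 : r l i y' = p := by
        simp only [r]
        rw [round_eq, Int.floor_eq_iff]
        constructor <;> linarith
      have h6 : r l i y = p := by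
        simp only [r]
        rw [h2, round_intCast]
      rw [h5, h6]
    have h2 : SY.Hol (fun u => a i u j - (∑ l, (r l i y : ℝ) • b l) j) y :=
      hol_sub SY (ha i y hi j) (hol_const SY _)
    refine hol_congr SY h2 ?_
    filter_upwards [(hV i).mem_nhds hi, eventually_all.2 h1,
      eventually_all.2 fun l => ((hU l).preimage hg).mem_nhds (hKU y hy l)] with y' h3 h4 h5
    rw [hA i y' h3 h5, Pi.sub_apply]
    simp only [h4]
  have hAα : ∀ y ∈ K, Submodule.Quotient.mk (A y) = α y := by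
    intro y hy
    obtain ⟨i, hi⟩ := hcov y (hKg y hy)
    rw [hA i y hi (hKU y hy), ← haα i y hi, Submodule.Quotient.eq]
    have h1 : ∑ l, (r l i y : ℝ) • b l ∈ Submodule.span ℤ (Set.range b) := by
      refine Submodule.sum_mem _ fun l _ => ?_
      have h2 : (r l i y : ℝ) • b l = r l i y • b l := by
        rw [Int.cast_smul_eq_zsmul]
      rw [h2]
      exact Submodule.smul_mem _ _ (Submodule.subset_span ⟨l, rfl⟩)
    have h3 : a i y - ∑ l, (r l i y : ℝ) • b l - a i y = -∑ l, (r l i y : ℝ) • b l := by abel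
    rw [h3]
    exact Submodule.neg_mem _ h1
  intro y hy
  rw [← hAα y hy, ← hAα y₀ hy₀K]
  congr 1
  exact funext fun j => const_near_component hg hcp hy₀ (fun u hu => hAhol u hu j) y hy

end Vale.Agent.P277.H821
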